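import Mathlib

/-!
Gaussian primes near a straight line.

For every straight line `a x + b y = c` in the plane there are discs of arbitrarily large radius,
centred on the line and arbitrarily far out in both directions, which contain no Gaussian prime.
Consequently an infinite sequence of distinct Gaussian primes with steps of bounded length
leaves every strip of finite width around every straight line.

The proof: if `K !` divides the nonzero Gaussian integer `T`, then every Gaussian integer `z`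
with `2 ≤ N(z - T) ≤ K` is a proper multiple of `z - T` (which divides its norm, hence `K !`,
hence `T`).  By Dirichlet's approximation theorem the lattice `K ! ℤ[i]` has points close to
the parallel of the given line through the origin, far out; a disc on the line next to such a
point does the job.
-/

open scoped GaussianInt
open Nat

namespace Vale.Agent.Lib.Helper5.P015Moat

/-- If `K !` divides `T ≠ 0` and `2 ≤ N(z - T) ≤ K`, then the Gaussian integer `z` is not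
irreducible. -/
theorem not_irreducible_near (K : ℕ) (hK : 5 ≤ K) (T z : GaussianInt)
    (hT : ((K ! : ℕ) : GaussianInt) ∣ T) (hT0 : T ≠ 0)
    (h2 : 2 ≤ (z - T).norm) (hK2 : (z - T).norm ≤ K) : ¬ Irreducible z := by
  intro hz
  set w : GaussianInt := z - T with hw
  -- `w` divides its norm, which divides `K !`
  have h1 : w ∣ ((w.norm : ℤ) : GaussianInt) := by
    rw [Zsqrtd.norm_eq_mul_conj]
    exact dvd_mul_right _ _
  have h3 : (w.norm : ℤ) ∣ ((K ! : ℕ) : ℤ) := by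
    have h4 : w.norm.toNat ∣ K ! := Nat.dvd_factorial (by omega) (by omega)
    have h5 : ((w.norm.toNat : ℕ) : ℤ) = w.norm := Int.toNat_of_nonneg (by omega)
    rw [← h5]
    exact_mod_cast h4
  have h6 : ((w.norm : ℤ) : GaussianInt) ∣ ((K ! : ℕ) : GaussianInt) := by
    obtain ⟨q, hq⟩ := h3
    refine ⟨(q : GaussianInt), ?_⟩
    have : (((K ! : ℕ) : ℤ) : GaussianInt) = ((w.norm * q : ℤ) : GaussianInt) := by rw [hq]
    push_cast at this
    exact this
  obtain ⟨t, ht⟩ := h1.trans (h6.trans hT)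
  have hzw : z = w * (t + 1) := by
    rw [mul_add, mul_one, ← ht, hw]
    ring
  rcases hz.isUnit_or_isUnit hzw with hu | hu
  · have h7 := Zsqrtd.norm_eq_one_iff.2 hu
    omega
  · have h7 : (t + 1).norm = 1 := (Zsqrtd.norm_eq_one_iff' (by norm_num) _).2 hu
    -- the norm of `t` is at most 4
    have h8 : t.norm ≤ 4 := by
      rw [Zsqrtd.norm_def] at h7 ⊢
      simp only [Zsqrtd.re_add, Zsqrtd.im_add, Zsqrtd.re_one, Zsqrtd.im_one] at h7
      nlinarith [sq_nonneg (t.re + 1), sq_nonneg t.im, sq_nonneg (t.re + 2), sq_nonneg t.re]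
    -- the norm of `T` is at least `(K !) ^ 2`
    obtain ⟨q, hq⟩ := hT
    have hq0 : q ≠ 0 := by
      rintro rfl
      exact hT0 (by rw [hq, mul_zero])
    have hqn : 1 ≤ q.norm := by
      have := GaussianInt.norm_pos.2 hq0
      omega
    have hTn : T.norm = ((K ! : ℕ) : ℤ) * ((K ! : ℕ) : ℤ) * q.norm := by
      rw [hq, Zsqrtd.norm_mul]
      congr 1
    have hTn2 : T.norm = w.norm * t.norm := by rw [ht, Zsqrtd.norm_mul]
    have hfac : (K : ℤ) ≤ ((K ! : ℕ) : ℤ) := by exact_mod_cast Nat.self_le_factorial K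
    have htn : 0 ≤ t.norm := GaussianInt.norm_nonneg t
    have hK' : (5 : ℤ) ≤ K := by exact_mod_cast hK
    nlinarith

/-- For real numbers `a`, `b` and a positive integer `M` there are integers `j`, `k`, not both
zero, with `M * |a * j + b * k| ≤ |a|`. -/
theorem exists_approx (a b : ℝ) (M : ℕ) (hM : 0 < M) :
    ∃ j k : ℤ, (j ≠ 0 ∨ k ≠ 0) ∧ (M : ℝ) * |a * j + b * k| ≤ |a| := by
  by_cases ha : a = 0
  · refine ⟨1, 0, Or.inl one_ne_zero, ?_⟩
    simp [ha]
  · obtain ⟨j', k', hk0, _, h⟩ := Real.exists_int_int_abs_mul_sub_le (b / a) hM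
    refine ⟨-j', k', Or.inr hk0.ne', ?_⟩
    have h1 : a * ((-j' : ℤ) : ℝ) + b * (k' : ℝ) = a * ((k' : ℝ) * (b / a) - (j' : ℝ)) := by
      push_cast
      field_simp
      ring
    rw [h1, abs_mul]
    have hM' : (0 : ℝ) < (M : ℝ) := by exact_mod_cast hM
    have h2 : (M : ℝ) * |(k' : ℝ) * (b / a) - (j' : ℝ)| ≤ 1 := by
      have h3 : (M : ℝ) * (1 / ((M : ℝ) + 1)) ≤ 1 := by
        rw [mul_one_div, div_le_one (by linarith)]
        linarith
      exact le_trans (mul_le_mul_of_nonneg_left h hM'.le) h3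
    calc (M : ℝ) * (|a| * |(k' : ℝ) * (b / a) - (j' : ℝ)|)
        = |a| * ((M : ℝ) * |(k' : ℝ) * (b / a) - (j' : ℝ)|) := by ring
      _ ≤ |a| * 1 := mul_le_mul_of_nonneg_left h2 (abs_nonneg a)
      _ = |a| := mul_one _

/-- A nonzero Gaussian integer `T` divisible by `K !` which lies close to the line through the
origin with normal vector `(a, b)`, on the side of the direction `σ (-b, a)`, and far out. -/
theorem exists_lattice_point (a b σ : ℝ) (hσ : σ = 1 ∨ σ = -1) (K : ℕ) :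
    ∃ T : GaussianInt, ((K ! : ℕ) : GaussianInt) ∣ T ∧ T ≠ 0 ∧
      |a * T.re + b * T.im| ≤ |a| ∧
      0 ≤ σ * (-b * T.re + a * T.im) ∧
      ((K ! : ℕ) : ℝ) ^ 2 * (a ^ 2 + b ^ 2) - a ^ 2 ≤ (-b * T.re + a * T.im) ^ 2 := by
  set M : ℕ := K ! with hMdef
  have hM0 : 0 < M := Nat.factorial_pos K
  have hM1 : (1 : ℝ) ≤ (M : ℝ) := by exact_mod_cast hM0
  obtain ⟨j, k, hjk, happ⟩ := exists_approx a b M hM0
  set p : ℝ := -b * j + a * k with hp
  have hjk1 : (1 : ℝ) ≤ (j : ℝ) ^ 2 + (k : ℝ) ^ 2 := by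
    have h1 : (1 : ℤ) ≤ j ^ 2 + k ^ 2 := by
      rcases hjk with h | h
      · have : 0 < j ^ 2 := by positivity
        nlinarith [sq_nonneg k]
      · have : 0 < k ^ 2 := by positivity
        nlinarith [sq_nonneg j]
    exact_mod_cast h1
  have hid : (a * j + b * k) ^ 2 + p ^ 2 = (a ^ 2 + b ^ 2) * ((j : ℝ) ^ 2 + (k : ℝ) ^ 2) := by
    rw [hp]
    ring
  have happ1 : |(M : ℝ) * (a * j + b * k)| ≤ |a| := by
    rw [abs_mul, abs_of_nonneg (by linarith : (0 : ℝ) ≤ (M : ℝ))]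
    exact happ
  have happ2 : ((M : ℝ) * (a * j + b * k)) ^ 2 ≤ a ^ 2 := sq_le_sq.2 happ1
  obtain ⟨τ, hτ, hτp⟩ : ∃ τ : ℤ, (τ = 1 ∨ τ = -1) ∧ σ * ((τ : ℝ) * p) = |p| := by
    rcases hσ with rfl | rfl
    · rcases le_total 0 p with h | h
      · exact ⟨1, Or.inl rfl, by rw [abs_of_nonneg h]; push_cast; ring⟩
      · exact ⟨-1, Or.inr rfl, by rw [abs_of_nonpos h]; push_cast; ring⟩
    · rcases le_total 0 p with h | h
      · exact ⟨-1, Or.inr rfl, by rw [abs_of_nonneg h]; push_cast; ring⟩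
      · exact ⟨1, Or.inl rfl, by rw [abs_of_nonpos h]; push_cast; ring⟩
  have hτ2 : (τ : ℝ) ^ 2 = 1 := by
    rcases hτ with rfl | rfl <;> norm_num
  have hτabs : |(τ : ℝ)| = 1 := by
    rcases hτ with rfl | rfl <;> norm_num
  set q : GaussianInt := ⟨τ * j, τ * k⟩ with hq
  have hq0 : q ≠ 0 := by
    intro h
    have h1 : q.re = 0 := by rw [h]; rfl
    have h2 : q.im = 0 := by rw [h]; rfl
    rw [hq] at h1 h2
    simp only at h1 h2
    rcases hτ with rfl | rfl <;> rcases hjk with h3 | h3 <;> simp_all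
  refine ⟨((M : ℕ) : GaussianInt) * q, ⟨q, rfl⟩, ?_, ?_, ?_, ?_⟩
  · apply mul_ne_zero _ hq0
    exact_mod_cast hM0.ne'
  all_goals
    have hTre : ((((M : ℕ) : GaussianInt) * q).re : ℝ) = (M : ℝ) * ((τ : ℝ) * j) := by
      rw [hq]; simp
    have hTim : ((((M : ℕ) : GaussianInt) * q).im : ℝ) = (M : ℝ) * ((τ : ℝ) * k) := by
      rw [hq]; simp
    rw [hTre, hTim]
  · have h1 : a * ((M : ℝ) * ((τ : ℝ) * j)) + b * ((M : ℝ) * ((τ : ℝ) * k))
        = (τ : ℝ) * ((M : ℝ) * (a * j + b * k)) := by ring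
    rw [h1, abs_mul, hτabs, one_mul]
    exact happ1
  · have h1 : σ * (-b * ((M : ℝ) * ((τ : ℝ) * j)) + a * ((M : ℝ) * ((τ : ℝ) * k)))
        = (M : ℝ) * (σ * ((τ : ℝ) * p)) := by rw [hp]; ring
    rw [h1, hτp]
    exact mul_nonneg (by linarith) (abs_nonneg p)
  · have h1 : (-b * ((M : ℝ) * ((τ : ℝ) * j)) + a * ((M : ℝ) * ((τ : ℝ) * k))) ^ 2
        = (M : ℝ) ^ 2 * ((τ : ℝ) ^ 2 * p ^ 2) := by rw [hp]; ring
    rw [h1, hτ2, one_mul]
    have h2 : (M : ℝ) ^ 2 * p ^ 2 = (M : ℝ) ^ 2 * ((a ^ 2 + b ^ 2) * ((j : ℝ) ^ 2 + (k : ℝ) ^ 2))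
        - ((M : ℝ) * (a * j + b * k)) ^ 2 := by
      rw [← hid]; ring
    have h3 : (M : ℝ) ^ 2 * (a ^ 2 + b ^ 2)
        ≤ (M : ℝ) ^ 2 * ((a ^ 2 + b ^ 2) * ((j : ℝ) ^ 2 + (k : ℝ) ^ 2)) := by
      apply mul_le_mul_of_nonneg_left _ (sq_nonneg _)
      have : 0 ≤ a ^ 2 + b ^ 2 := by positivity
      nlinarith
    rw [h2]
    linarith

/-- The elementary estimate behind the disc: if `(u, v)` is within `R` of `(dx, dy)`, whose
squared length lies between `9 Q` and `9 Q + ρ` with `R ^ 2 + 2 ≤ Q`, then the squared length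
of `(u, v)` lies between `2` and `2 R ^ 2 + 18 Q + 2 ρ`. -/
theorem disk_aux (u v dx dy R Q ρ K : ℝ) (hQ : R ^ 2 + 2 ≤ Q)
    (hd1 : 9 * Q ≤ dx ^ 2 + dy ^ 2) (hd2 : dx ^ 2 + dy ^ 2 ≤ 9 * Q + ρ)
    (hK : 2 * R ^ 2 + 18 * Q + 2 * ρ ≤ K) (h : (u - dx) ^ 2 + (v - dy) ^ 2 ≤ R ^ 2) :
    2 ≤ u ^ 2 + v ^ 2 ∧ u ^ 2 + v ^ 2 ≤ K := by
  constructor
  · nlinarith [sq_nonneg (2 * u - dx), sq_nonneg (2 * v - dy), sq_nonneg R]
  · nlinarith [sq_nonneg (u - 2 * dx), sq_nonneg (v - 2 * dy)]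

/-- The choice of the parameters: a shift `n` and a size `K`. -/
theorem exists_params (a c R S nrm : ℝ) (hn : 0 < nrm) :
    ∃ (n K : ℕ), R ^ 2 + 2 ≤ (n : ℝ) ^ 2 * nrm ∧ 5 ≤ K ∧
      2 * R ^ 2 + 18 * ((n : ℝ) ^ 2 * nrm) + 2 * ((|c| + |a|) ^ 2 / nrm) ≤ (K : ℝ) ∧
      S ^ 2 + a ^ 2 + 2 * nrm ≤ (K : ℝ) * nrm := by
  obtain ⟨n, hn1⟩ := exists_nat_ge ((R ^ 2 + 2) / nrm + 1)
  have h0 : 0 ≤ (R ^ 2 + 2) / nrm := div_nonneg (by positivity) hn.le
  have hn2 : (1 : ℝ) ≤ (n : ℝ) := by linarith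
  have hn3 : R ^ 2 + 2 ≤ (n : ℝ) * nrm := by
    have h1 : (R ^ 2 + 2) / nrm ≤ (n : ℝ) := by linarith
    rwa [div_le_iff₀ hn] at h1
  have hn4 : R ^ 2 + 2 ≤ (n : ℝ) ^ 2 * nrm := by
    have h1 : (n : ℝ) ≤ (n : ℝ) ^ 2 := by nlinarith
    have h2 : (n : ℝ) * nrm ≤ (n : ℝ) ^ 2 * nrm := mul_le_mul_of_nonneg_right h1 hn.le
    linarith
  obtain ⟨K, hK1⟩ := exists_nat_ge (5 + (2 * R ^ 2 + 18 * ((n : ℝ) ^ 2 * nrm)
    + 2 * ((|c| + |a|) ^ 2 / nrm)) + ((S ^ 2 + a ^ 2) / nrm + 2))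
  have hρ : 0 ≤ (|c| + |a|) ^ 2 / nrm := div_nonneg (by positivity) hn.le
  have hS : 0 ≤ (S ^ 2 + a ^ 2) / nrm := div_nonneg (by positivity) hn.le
  have hQ : 0 ≤ (n : ℝ) ^ 2 * nrm := by positivity
  have hR : 0 ≤ R ^ 2 := sq_nonneg R
  refine ⟨n, K, hn4, ?_, by linarith, ?_⟩
  · have : (5 : ℝ) ≤ (K : ℝ) := by linarith
    exact_mod_cast this
  · have h1 : (S ^ 2 + a ^ 2) / nrm + 2 ≤ (K : ℝ) := by linarith
    have h2 : ((S ^ 2 + a ^ 2) / nrm + 2) * nrm ≤ (K : ℝ) * nrm :=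
      mul_le_mul_of_nonneg_right h1 hn.le
    have h3 : ((S ^ 2 + a ^ 2) / nrm + 2) * nrm = S ^ 2 + a ^ 2 + 2 * nrm := by
      field_simp
    linarith

/-- On the line `a x + b y = c` there are discs of any radius `R`, as far out as we like in
either direction (`σ = ±1`), which contain no Gaussian prime. -/
theorem exists_far_disk (a b c R S σ : ℝ) (hab : a ≠ 0 ∨ b ≠ 0) (hσ : σ = 1 ∨ σ = -1) :
    ∃ x y : ℝ, a * x + b * y = c ∧ S < σ * (-b * x + a * y) ∧
      ∀ z : GaussianInt, Irreducible z →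
        R ^ 2 < ((z.re : ℝ) - x) ^ 2 + ((z.im : ℝ) - y) ^ 2 := by
  have hn : 0 < a ^ 2 + b ^ 2 := by
    rcases hab with h | h
    · have := sq_pos_of_ne_zero h
      nlinarith [sq_nonneg b]
    · have := sq_pos_of_ne_zero h
      nlinarith [sq_nonneg a]
  obtain ⟨n, K, hQ, hK5, hKb, hKS⟩ := exists_params a c R S (a ^ 2 + b ^ 2) hn
  obtain ⟨T, hTdvd, hT0, hT1, hT2, hT3⟩ := exists_lattice_point a b σ hσ K
  have hσ2 : σ ^ 2 = 1 := by
    rcases hσ with rfl | rfl <;> norm_num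
  have hMK : (K : ℝ) ≤ ((K ! : ℕ) : ℝ) := by exact_mod_cast Nat.self_le_factorial K
  have hK1 : (1 : ℝ) ≤ (K : ℝ) := by
    have : (5 : ℝ) ≤ (K : ℝ) := by exact_mod_cast hK5
    linarith
  set nrm : ℝ := a ^ 2 + b ^ 2 with hnrm
  set tx : ℝ := (T.re : ℝ) with htx
  set ty : ℝ := (T.im : ℝ) with hty
  set μ : ℝ := (c - (a * tx + b * ty)) / nrm with hμ
  set l : ℝ := σ * (3 * n) with hl
  have hμn : μ * nrm = c - (a * tx + b * ty) := by
    rw [hμ]
    field_simp
  have hμ2 : μ ^ 2 * nrm ≤ (|c| + |a|) ^ 2 / nrm := by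
    have h1 : μ ^ 2 * nrm = (c - (a * tx + b * ty)) ^ 2 / nrm := by
      rw [hμ]
      field_simp
    rw [h1]
    apply div_le_div_of_nonneg_right _ hn.le
    have h2 : |c - (a * tx + b * ty)| ≤ |c| + |a| := by
      have := abs_sub c (a * tx + b * ty)
      linarith
    have h3 : (c - (a * tx + b * ty)) ^ 2 = |c - (a * tx + b * ty)| ^ 2 := (sq_abs _).symm
    rw [h3]
    exact pow_le_pow_left₀ (abs_nonneg _) h2 2
  refine ⟨tx + l * (-b) + μ * a, ty + l * a + μ * b, ?_, ?_, ?_⟩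
  · have h1 : a * (tx + l * (-b) + μ * a) + b * (ty + l * a + μ * b)
        = (a * tx + b * ty) + μ * nrm := by rw [hnrm]; ring
    rw [h1, hμn]
    ring
  · have h1 : σ * (-b * (tx + l * (-b) + μ * a) + a * (ty + l * a + μ * b))
        = σ * (-b * tx + a * ty) + σ ^ 2 * (3 * n * nrm) := by
      rw [hl, hnrm]; ring
    rw [h1, hσ2]
    have h2 : S ^ 2 < (σ * (-b * tx + a * ty)) ^ 2 := by
      have h3 : (σ * (-b * tx + a * ty)) ^ 2 = (-b * tx + a * ty) ^ 2 := by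
        rw [mul_pow, hσ2, one_mul]
      have h4 : ((K ! : ℕ) : ℝ) * nrm ≤ ((K ! : ℕ) : ℝ) ^ 2 * nrm := by
        apply mul_le_mul_of_nonneg_right _ hn.le
        nlinarith
      have h5 : (K : ℝ) * nrm ≤ ((K ! : ℕ) : ℝ) * nrm := mul_le_mul_of_nonneg_right hMK hn.le
      rw [h3]
      linarith
    have h6 : S < σ * (-b * tx + a * ty) := by
      by_contra hcon
      rw [not_lt] at hcon
      nlinarith
    have h7 : 0 ≤ 3 * (n : ℝ) * nrm := by positivity
    linarith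
  · intro z hz
    by_contra hcon
    rw [not_lt] at hcon
    have hd : (l * (-b) + μ * a) ^ 2 + (l * a + μ * b) ^ 2
        = 9 * ((n : ℝ) ^ 2 * nrm) + μ ^ 2 * nrm := by
      have : l ^ 2 = 9 * (n : ℝ) ^ 2 := by rw [hl, mul_pow, hσ2]; ring
      have h1 : (l * (-b) + μ * a) ^ 2 + (l * a + μ * b) ^ 2 = (l ^ 2 + μ ^ 2) * nrm := by
        rw [hnrm]; ring
      rw [h1, this]
      ring
    have hμ0 : 0 ≤ μ ^ 2 * nrm := by positivity
    have hcon' : (((z.re : ℝ) - tx) - (l * (-b) + μ * a)) ^ 2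
        + (((z.im : ℝ) - ty) - (l * a + μ * b)) ^ 2 ≤ R ^ 2 := by
      have : ((z.re : ℝ) - tx) - (l * (-b) + μ * a) = (z.re : ℝ) - (tx + l * (-b) + μ * a) := by
        ring
      rw [this]
      have : ((z.im : ℝ) - ty) - (l * a + μ * b) = (z.im : ℝ) - (ty + l * a + μ * b) := by
        ring
      rw [this]
      exact hcon
    obtain ⟨hlo, hhi⟩ := disk_aux ((z.re : ℝ) - tx) ((z.im : ℝ) - ty) (l * (-b) + μ * a)
      (l * a + μ * b) R ((n : ℝ) ^ 2 * nrm) ((|c| + |a|) ^ 2 / nrm) (K : ℝ) hQ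
      (by rw [hd]; linarith) (by rw [hd]; linarith) hKb hcon'
    have hnorm : (((z - T).norm : ℤ) : ℝ) = ((z.re : ℝ) - tx) ^ 2 + ((z.im : ℝ) - ty) ^ 2 := by
      rw [Zsqrtd.norm_def, htx, hty]
      simp only [Zsqrtd.re_sub, Zsqrtd.im_sub]
      push_cast
      ring
    apply not_irreducible_near K hK5 T z hTdvd hT0 _ _ hz
    · have : ((2 : ℤ) : ℝ) ≤ (((z - T).norm : ℤ) : ℝ) := by rw [hnorm]; exact_mod_cast hlo
      exact_mod_cast this
    · have : (((z - T).norm : ℤ) : ℝ) ≤ (((K : ℕ) : ℤ) : ℝ) := by rw [hnorm]; exact_mod_cast hhi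
      exact_mod_cast this

/-- The Gaussian integers of bounded norm form a finite set. -/
theorem finite_norm_le (C : ℝ) : {w : GaussianInt | ((w.norm : ℤ) : ℝ) ≤ C}.Finite := by
  obtain ⟨m, hm⟩ := exists_nat_ge C
  have hfin : ((Finset.Icc (-(m : ℤ)) m ×ˢ Finset.Icc (-(m : ℤ)) m).image
      (fun p : ℤ × ℤ => (⟨p.1, p.2⟩ : GaussianInt)) : Set GaussianInt).Finite :=
    Finset.finite_toSet _
  apply hfin.subset
  intro w hw
  rw [Set.mem_ofPred_eq] at hw
  have h1 : ((w.norm : ℤ) : ℝ) ≤ ((m : ℤ) : ℝ) := by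
    push_cast
    linarith
  have h2 : w.norm ≤ (m : ℤ) := by exact_mod_cast h1
  rw [Zsqrtd.norm_def] at h2
  have h3 : w.re * w.re ≤ m := by nlinarith [mul_self_nonneg w.im]
  have h4 : w.im * w.im ≤ m := by nlinarith [mul_self_nonneg w.re]
  have h5 : ∀ t : ℤ, t * t ≤ m → -(m : ℤ) ≤ t ∧ t ≤ m := by
    intro t ht
    constructor <;> nlinarith [mul_self_nonneg (t - 1), mul_self_nonneg (t + 1)]
  rw [Finset.coe_image, Set.mem_image]
  refine ⟨(w.re, w.im), ?_, ?_⟩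
  · rw [Finset.mem_coe, Finset.mem_product, Finset.mem_Icc, Finset.mem_Icc]
    exact ⟨h5 _ h3, h5 _ h4⟩
  · rfl

/-- An infinite sequence of distinct Gaussian primes with steps of length at most `D` leaves
every strip around the line `a x + b y = c`. -/
theorem leaves_strip (a b c D W : ℝ) (hab : a ≠ 0 ∨ b ≠ 0) (z : ℕ → GaussianInt)
    (hinj : Function.Injective z) (hirr : ∀ n, Irreducible (z n))
    (hstep : ∀ n, (((z (n + 1)).re : ℝ) - (z n).re) ^ 2
      + (((z (n + 1)).im : ℝ) - (z n).im) ^ 2 ≤ D ^ 2) :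
    ∃ n, W < |a * (z n).re + b * (z n).im - c| := by
  by_contra hcon
  have hW : ∀ n, |a * (z n).re + b * (z n).im - c| ≤ W := by
    intro n
    by_contra h
    exact hcon ⟨n, not_le.1 h⟩
  have hn : 0 < a ^ 2 + b ^ 2 := by
    rcases hab with h | h
    · have := sq_pos_of_ne_zero h
      nlinarith [sq_nonneg b]
    · have := sq_pos_of_ne_zero h
      nlinarith [sq_nonneg a]
  set nrm : ℝ := a ^ 2 + b ^ 2 with hnrm
  set s : ℕ → ℝ := fun n => -b * (z n).re + a * (z n).im with hs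
  have hW0 : 0 ≤ W := le_trans (abs_nonneg _) (hW 0)
  -- the coordinate along the line is unbounded
  have hunb : ∀ B : ℝ, ∃ n, B < |s n| := by
    intro B
    by_contra h
    have hB : ∀ n, |s n| ≤ B := by
      intro n
      by_contra h'
      exact h ⟨n, not_le.1 h'⟩
    have hB0 : 0 ≤ B := le_trans (abs_nonneg _) (hB 0)
    have hsub : Set.range z ⊆ {w : GaussianInt | ((w.norm : ℤ) : ℝ) ≤ ((W + |c|) ^ 2 + B ^ 2) / nrm} := by
      rintro w ⟨n, rfl⟩
      rw [Set.mem_ofPred_eq, le_div_iff₀ hn]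
      have h1 : (((z n).norm : ℤ) : ℝ) * nrm
          = (a * (z n).re + b * (z n).im) ^ 2 + (s n) ^ 2 := by
        rw [Zsqrtd.norm_def, hnrm, hs]
        push_cast
        ring
      have h2 : |a * (z n).re + b * (z n).im| ≤ W + |c| := by
        have h3 := hW n
        have h4 : a * (z n).re + b * (z n).im = (a * (z n).re + b * (z n).im - c) + c := by ring
        rw [h4]
        exact (abs_add_le _ _).trans (by linarith)
      have h5 : (a * (z n).re + b * (z n).im) ^ 2 ≤ (W + |c|) ^ 2 := by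
        rw [← sq_abs (a * (z n).re + b * (z n).im)]
        exact pow_le_pow_left₀ (abs_nonneg _) h2 2
      have h6 : (s n) ^ 2 ≤ B ^ 2 := by
        rw [← sq_abs (s n)]
        exact pow_le_pow_left₀ (abs_nonneg _) (hB n) 2
      rw [h1]
      linarith
    exact (Set.infinite_range_of_injective hinj) ((finite_norm_le _).subset hsub)
  -- a direction in which it is unbounded
  obtain ⟨σ, hσ, hdir⟩ : ∃ σ : ℝ, (σ = 1 ∨ σ = -1) ∧ ∀ B : ℝ, ∃ n, B < σ * s n := by
    by_cases h1 : ∀ B : ℝ, ∃ n, B < s n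
    · exact ⟨1, Or.inl rfl, fun B => by simpa using h1 B⟩
    · refine ⟨-1, Or.inr rfl, ?_⟩
      rw [not_forall] at h1
      obtain ⟨B1, hB1⟩ := h1
      have hB1' : ∀ n, s n ≤ B1 := by
        intro n
        by_contra h
        exact hB1 ⟨n, not_le.1 h⟩
      intro B
      obtain ⟨n, hn'⟩ := hunb (max B B1)
      refine ⟨n, ?_⟩
      have h2 : |s n| = -s n := by
        rcases le_total 0 (s n) with h | h
        · rw [abs_of_nonneg h] at hn'
          have := hB1' n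
          have := le_max_right B B1
          linarith
        · exact abs_of_nonpos h
      rw [h2] at hn'
      have := le_max_left B B1
      linarith
  have hσ2 : σ ^ 2 = 1 := by
    rcases hσ with rfl | rfl <;> norm_num
  -- the steps along the line are bounded
  set E : ℝ := (nrm + 1) * |D| with hE
  have hE0 : 0 ≤ E := mul_nonneg (by linarith) (abs_nonneg D)
  have hstep' : ∀ n, σ * s (n + 1) - σ * s n ≤ E := by
    intro n
    have h1 : (σ * s (n + 1) - σ * s n) ^ 2 ≤ E ^ 2 := by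
      have h2 : (σ * s (n + 1) - σ * s n) ^ 2
          = (-b * (((z (n + 1)).re : ℝ) - (z n).re) + a * (((z (n + 1)).im : ℝ) - (z n).im)) ^ 2 := by
        have : σ * s (n + 1) - σ * s n
            = σ * (-b * (((z (n + 1)).re : ℝ) - (z n).re) + a * (((z (n + 1)).im : ℝ) - (z n).im)) := by
          rw [hs]; ring
        rw [this, mul_pow, hσ2, one_mul]
      have h3 : (-b * (((z (n + 1)).re : ℝ) - (z n).re) + a * (((z (n + 1)).im : ℝ) - (z n).im)) ^ 2
          ≤ nrm * ((((z (n + 1)).re : ℝ) - (z n).re) ^ 2 + (((z (n + 1)).im : ℝ) - (z n).im) ^ 2) := by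
        rw [hnrm]
        nlinarith [sq_nonneg (a * (((z (n + 1)).re : ℝ) - (z n).re)
          + b * (((z (n + 1)).im : ℝ) - (z n).im))]
      have h4 : nrm * ((((z (n + 1)).re : ℝ) - (z n).re) ^ 2 + (((z (n + 1)).im : ℝ) - (z n).im) ^ 2)
          ≤ nrm * D ^ 2 := mul_le_mul_of_nonneg_left (hstep n) hn.le
      have h5 : nrm * D ^ 2 ≤ E ^ 2 := by
        rw [hE, mul_pow, sq_abs]
        apply mul_le_mul_of_nonneg_right _ (sq_nonneg D)
        nlinarith
      rw [h2]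
      linarith
    exact le_trans (le_abs_self _) (abs_le_of_sq_le_sq h1 hE0)
  -- a disc on the line beyond the start of the path
  obtain ⟨x, y, hline, hfar, hdisk⟩ := exists_far_disk a b c ((W ^ 2 + E ^ 2) / nrm + 1)
    (σ * s 0) σ hab hσ
  set sc : ℝ := -b * x + a * y with hsc
  -- the first index at which the path has passed the centre
  have hex : ∃ n, σ * sc ≤ σ * s n := by
    obtain ⟨n, hn'⟩ := hdir (σ * sc)
    exact ⟨n, hn'.le⟩
  classical
  set m : ℕ := Nat.find hex with hm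
  have hm1 : σ * sc ≤ σ * s m := Nat.find_spec hex
  have hm0 : m ≠ 0 := by
    intro h0
    rw [h0] at hm1
    linarith
  obtain ⟨m', hm'⟩ := Nat.exists_eq_succ_of_ne_zero hm0
  have hm2 : σ * s m' < σ * sc := by
    have : ¬ σ * sc ≤ σ * s m' := Nat.find_min hex (by rw [← hm, hm']; exact Nat.lt_succ_self m')
    exact not_le.1 this
  have hm3 : σ * s m - σ * sc ≤ E := by
    have := hstep' m'
    rw [hm', Nat.succ_eq_add_one]
    linarith
  have hm4 : (s m - sc) ^ 2 ≤ E ^ 2 := by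
    have h1 : (s m - sc) ^ 2 = (σ * s m - σ * sc) ^ 2 := by
      have : σ * s m - σ * sc = σ * (s m - sc) := by ring
      rw [this, mul_pow, hσ2, one_mul]
    rw [h1]
    exact pow_le_pow_left₀ (by linarith) hm3 2
  -- the point `z m` lies in the disc
  have hR : ((W ^ 2 + E ^ 2) / nrm + 1) ^ 2
      < (((z m).re : ℝ) - x) ^ 2 + (((z m).im : ℝ) - y) ^ 2 := hdisk (z m) (hirr m)
  have hq : 0 ≤ (W ^ 2 + E ^ 2) / nrm := div_nonneg (by positivity) hn.le
  have hid : nrm * ((((z m).re : ℝ) - x) ^ 2 + (((z m).im : ℝ) - y) ^ 2)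
      = (a * (z m).re + b * (z m).im - c) ^ 2 + (s m - sc) ^ 2 := by
    rw [hnrm, hs, hsc, ← hline]
    ring
  have h7 : (a * (z m).re + b * (z m).im - c) ^ 2 ≤ W ^ 2 := by
    rw [← sq_abs (a * (z m).re + b * (z m).im - c)]
    exact pow_le_pow_left₀ (abs_nonneg _) (hW m) 2
  have h8 : (((z m).re : ℝ) - x) ^ 2 + (((z m).im : ℝ) - y) ^ 2 ≤ (W ^ 2 + E ^ 2) / nrm := by
    rw [le_div_iff₀ hn]
    have := hid
    nlinarith
  nlinarith

end Vale.Agent.Lib.Helper5.P015Moat
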