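import Mathlib
import Vale.Agent.Lib.Helper5.P015Moat

/-!
Gaussian primes near a straight line, quantitative form.

If every rational prime `p ≤ K` divides the Gaussian integer `T`, and `T` is far from the origin,
then every Gaussian integer `z` with `N(z - T) ≤ K` other than the four neighbours `T ± 1`,
`T ± i` is not a Gaussian prime: a prime `p ≤ K` divides `N(z - T)`, hence `N(z)`, and a
Gaussian prime whose norm is divisible by `p` has norm at most `p ^ 2`.  So a path of Gaussian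
primes with steps of length at most `D`, `(D + 1) ^ 2 ≤ K`, never enters that disc.

Taking for `T` a suitable multiple of `M = K# (2 K + 2) ≤ 2 ^ (3 K + 1)` next to a given line
(Dirichlet's approximation theorem, which places `T` within `C M ^ 2` of the origin), we get
barriers of radius `√K` at distance `2 ^ O(K)` along every line, and a path with bounded steps
cannot stay in a region around the line whose width grows like a small multiple of
`√(log |z|)`.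
-/

open scoped GaussianInt
open Nat

namespace Vale.Agent.Lib.Helper5.P015LogMoat

open Vale.Agent.Lib.Helper5.P015Moat

/-- A Gaussian prime divides some rational prime. -/
theorem irreducible_dvd_natPrime (z : GaussianInt) (hz : Irreducible z) :
    ∃ p : ℕ, p.Prime ∧ z ∣ (p : GaussianInt) := by
  have hz0 : z ≠ 0 := hz.ne_zero
  have hn0 : z.norm ≠ 0 := by
    intro h
    exact hz0 ((Zsqrtd.norm_eq_zero_iff (by norm_num) z).1 h)
  have hnn : 0 ≤ z.norm := GaussianInt.norm_nonneg z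
  set n : ℕ := z.norm.toNat with hn
  have hn' : ((n : ℕ) : ℤ) = z.norm := Int.toNat_of_nonneg hnn
  have hnpos : n ≠ 0 := by
    intro h
    rw [h] at hn'
    exact hn0 hn'.symm
  have hdvd : z ∣ ((n : ℕ) : GaussianInt) := by
    have h1 : ((n : ℕ) : GaussianInt) = ((z.norm : ℤ) : GaussianInt) := by
      rw [← hn']
      simp
    rw [h1, Zsqrtd.norm_eq_mul_conj]
    exact dvd_mul_right _ _
  have hprod : ((n : ℕ) : GaussianInt) = (n.primeFactorsList.map (fun p : ℕ => (p : GaussianInt))).prod := by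
    conv_lhs => rw [← Nat.prod_primeFactorsList hnpos]
    rw [Nat.cast_list_prod]
  rw [hprod] at hdvd
  obtain ⟨a, ha, hza⟩ := (hz.prime.dvd_prod_iff).1 hdvd
  rw [List.mem_map] at ha
  obtain ⟨p, hp, rfl⟩ := ha
  exact ⟨p, Nat.prime_of_mem_primeFactorsList hp, hza⟩

/-- If a rational prime `p` divides the norm of a Gaussian prime `z`, then `N(z) ≤ p ^ 2`. -/
theorem norm_le_of_prime_dvd (z : GaussianInt) (hz : Irreducible z) (p : ℕ) (hp : p.Prime)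
    (h : (p : ℤ) ∣ z.norm) : z.norm ≤ (p : ℤ) ^ 2 := by
  obtain ⟨q, hq, t, ht⟩ := irreducible_dvd_natPrime z hz
  have h1 : (q : ℤ) * q = z.norm * t.norm := by
    have := congrArg Zsqrtd.norm ht
    rwa [Zsqrtd.norm_natCast, Zsqrtd.norm_mul] at this
  have h2 : (p : ℤ) ∣ (q : ℤ) * q := by
    rw [h1]
    exact Dvd.dvd.mul_right h _
  have h3 : p ∣ q * q := by exact_mod_cast h2
  have h4 : p ∣ q := by
    rcases (Nat.Prime.dvd_mul hp).1 h3 with h | h <;> exact h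
  have h5 : p = q := (Nat.prime_dvd_prime_iff_eq hp hq).1 h4
  subst h5
  have h6 : z.norm ∣ (p : ℤ) * p := ⟨t.norm, h1⟩
  have h7 : (0 : ℤ) < (p : ℤ) * p := by
    have : (0 : ℤ) < (p : ℤ) := by exact_mod_cast hp.pos
    positivity
  have := Int.le_of_dvd h7 h6
  rw [pow_two]
  exact this

/-- If every rational prime `p ≤ K` divides `T`, `N(z) > K ^ 2`, and `N(z - T)` is `0` or between
`2` and `K`, then the Gaussian integer `z` is not irreducible. -/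
theorem not_irreducible_near' (K : ℕ) (hK : 2 ≤ K) (T z : GaussianInt)
    (hT : ∀ p : ℕ, p.Prime → p ≤ K → ((p : ℕ) : GaussianInt) ∣ T)
    (hbig : (K : ℤ) ^ 2 < z.norm)
    (hw : (z - T).norm = 0 ∨ (2 ≤ (z - T).norm ∧ (z - T).norm ≤ K)) : ¬ Irreducible z := by
  intro hz
  -- a prime `p ≤ K` dividing `N(z - T)`
  obtain ⟨p, hp, hpK, hpw⟩ : ∃ p : ℕ, p.Prime ∧ p ≤ K ∧ (p : ℤ) ∣ (z - T).norm := by
    rcases hw with h0 | ⟨h2, hK2⟩
    · exact ⟨2, Nat.prime_two, hK, by rw [h0]; exact dvd_zero _⟩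
    · set n : ℕ := (z - T).norm.toNat with hn
      have hn' : ((n : ℕ) : ℤ) = (z - T).norm := Int.toNat_of_nonneg (by omega)
      have hn2 : 2 ≤ n := by omega
      have hnK : n ≤ K := by omega
      refine ⟨n.minFac, Nat.minFac_prime (by omega), (Nat.minFac_le (by omega)).trans hnK, ?_⟩
      rw [← hn']
      exact_mod_cast Nat.minFac_dvd n
  -- `p` divides both coordinates of `T`
  have hpT : ((p : ℤ) : GaussianInt) ∣ T := by
    have := hT p hp hpK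
    simpa using this
  obtain ⟨hre, him⟩ := (Zsqrtd.intCast_dvd (p : ℤ) T).1 hpT
  -- hence `p` divides `N(z)`
  have hpz : (p : ℤ) ∣ z.norm := by
    have h1 : z.norm = (z - T).norm + T.re * (2 * z.re - T.re) + T.im * (2 * z.im - T.im) := by
      rw [Zsqrtd.norm_def, Zsqrtd.norm_def]
      simp only [Zsqrtd.re_sub, Zsqrtd.im_sub]
      ring
    rw [h1]
    exact dvd_add (dvd_add hpw (Dvd.dvd.mul_right hre _)) (Dvd.dvd.mul_right him _)
  have h2 := norm_le_of_prime_dvd z hz p hp hpz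
  have h3 : (p : ℤ) ≤ K := by exact_mod_cast hpK
  have h4 : (0 : ℤ) ≤ p := by positivity
  nlinarith

/-- A path of Gaussian primes with steps of length at most `D` never enters the disc
`N(z - T) ≤ K`, if every rational prime `p ≤ K` divides `T`, `T` is far from the origin and
`(|D| + 1) ^ 2 ≤ K`. -/
theorem avoids_disc (K : ℕ) (hK : 2 ≤ K) (D : ℝ) (hD : (|D| + 1) ^ 2 ≤ (K : ℝ)) (T : GaussianInt)
    (hT : ∀ p : ℕ, p.Prime → p ≤ K → ((p : ℕ) : GaussianInt) ∣ T)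
    (hTbig : 2 * (K : ℤ) ^ 2 + 2 * K + 2 ≤ T.norm)
    (z : ℕ → GaussianInt) (hinj : Function.Injective z) (hirr : ∀ n, Irreducible (z n))
    (hstep : ∀ n, (((z (n + 1)).re : ℝ) - (z n).re) ^ 2
      + (((z (n + 1)).im : ℝ) - (z n).im) ^ 2 ≤ D ^ 2) (m : ℕ) :
    (K : ℤ) < (z m - T).norm := by
  by_contra hcon
  rw [not_lt] at hcon
  -- every Gaussian prime in the disc is a neighbour of `T`
  have key : ∀ n, (z n - T).norm ≤ K → (z n - T).norm = 1 := by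
    intro n hn
    have hnn : 0 ≤ (z n - T).norm := GaussianInt.norm_nonneg _
    have hbig : (K : ℤ) ^ 2 < (z n).norm := by
      have h1 : T.norm ≤ 2 * (z n).norm + 2 * (z n - T).norm := by
        rw [Zsqrtd.norm_def, Zsqrtd.norm_def, Zsqrtd.norm_def]
        simp only [Zsqrtd.re_sub, Zsqrtd.im_sub]
        nlinarith [sq_nonneg (2 * (z n).re - T.re), sq_nonneg (2 * (z n).im - T.im)]
      linarith
    by_contra h1
    have h2 : (z n - T).norm = 0 ∨ (2 ≤ (z n - T).norm ∧ (z n - T).norm ≤ K) := by omega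
    exact not_irreducible_near' K hK T (z n) hT hbig h2 (hirr n)
  have hnorm : ∀ n, (((z n - T).norm : ℤ) : ℝ)
      = (((z n).re : ℝ) - T.re) ^ 2 + (((z n).im : ℝ) - T.im) ^ 2 := by
    intro n
    rw [Zsqrtd.norm_def]
    simp only [Zsqrtd.re_sub, Zsqrtd.im_sub]
    push_cast
    ring
  -- from `z m` on, the path stays among the neighbours of `T`
  have hall : ∀ j, (z (m + j) - T).norm = 1 := by
    intro j
    induction j with
    | zero => exact key m hcon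
    | succ j ih =>
      apply key
      have hs := hstep (m + j)
      have h1 := hnorm (m + j)
      rw [ih] at h1
      have h2 := hnorm (m + j + 1)
      set u : ℝ := ((z (m + j)).re : ℝ) - T.re with hu
      set v : ℝ := ((z (m + j)).im : ℝ) - T.im with hv
      set dx : ℝ := ((z (m + j + 1)).re : ℝ) - (z (m + j)).re with hdx
      set dy : ℝ := ((z (m + j + 1)).im : ℝ) - (z (m + j)).im with hdy
      have huv : u ^ 2 + v ^ 2 = 1 := by
        rw [← h1]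
        norm_num
      have hc : (u * dx + v * dy) ^ 2 ≤ |D| ^ 2 := by
        rw [sq_abs]
        nlinarith [sq_nonneg (u * dy - v * dx)]
      have hc' : u * dx + v * dy ≤ |D| :=
        le_trans (le_abs_self _) (abs_le_of_sq_le_sq hc (abs_nonneg D))
      have h3 : (((z (m + j + 1) - T).norm : ℤ) : ℝ) = (u + dx) ^ 2 + (v + dy) ^ 2 := by
        rw [h2, hu, hv, hdx, hdy]
        ring
      have h4 : (((z (m + j + 1) - T).norm : ℤ) : ℝ) ≤ ((K : ℤ) : ℝ) := by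
        rw [h3]
        have : D ^ 2 = |D| ^ 2 := (sq_abs D).symm
        push_cast
        nlinarith
      have h5 : (z (m + j + 1) - T).norm ≤ (K : ℤ) := by exact_mod_cast h4
      exact h5
  -- contradiction with injectivity
  have hsub : Set.range (fun j => z (m + j) - T) ⊆ {w : GaussianInt | ((w.norm : ℤ) : ℝ) ≤ 1} := by
    rintro w ⟨j, rfl⟩
    rw [Set.mem_ofPred_eq]
    have := hall j
    simp only at this ⊢
    rw [this]
    norm_num
  have hinj' : Function.Injective (fun j => z (m + j) - T) := by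
    intro j1 j2 h
    have h1 : z (m + j1) = z (m + j2) := by simpa using h
    have h2 := hinj h1
    omega
  exact (Set.infinite_range_of_injective hinj') ((finite_norm_le 1).subset hsub)

/-- Dirichlet's approximation with a bound for the size: for real numbers `a`, `b` and a positive
integer `M` there are integers `j`, `k`, not both zero, with `M * |a * j + b * k| ≤ |a|` and
`j ^ 2 + k ^ 2 ≤ M ^ 2 * (1 + (|b / a| + 1) ^ 2)`. -/
theorem exists_approx' (a b : ℝ) (M : ℕ) (hM : 0 < M) :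
    ∃ j k : ℤ, (j ≠ 0 ∨ k ≠ 0) ∧ (M : ℝ) * |a * j + b * k| ≤ |a| ∧
      (j : ℝ) ^ 2 + (k : ℝ) ^ 2 ≤ (M : ℝ) ^ 2 * (1 + (|b / a| + 1) ^ 2) := by
  have hM1 : (1 : ℝ) ≤ (M : ℝ) := by exact_mod_cast hM
  by_cases ha : a = 0
  · refine ⟨1, 0, Or.inl one_ne_zero, ?_, ?_⟩
    · simp [ha]
    · have h1 : (0 : ℝ) ≤ (|b / a| + 1) ^ 2 := sq_nonneg _
      push_cast
      nlinarith
  · obtain ⟨j', k', hk0, hkM, h⟩ := Real.exists_int_int_abs_mul_sub_le (b / a) hM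
    have hM' : (0 : ℝ) < (M : ℝ) := by linarith
    have hk0' : (0 : ℝ) < (k' : ℝ) := by exact_mod_cast hk0
    have hkM' : (k' : ℝ) ≤ (M : ℝ) := by exact_mod_cast hkM
    have hle1 : |(k' : ℝ) * (b / a) - (j' : ℝ)| ≤ 1 := by
      refine le_trans h ?_
      rw [div_le_one (by linarith)]
      linarith
    refine ⟨-j', k', Or.inr hk0.ne', ?_, ?_⟩
    · have h1 : a * ((-j' : ℤ) : ℝ) + b * (k' : ℝ) = a * ((k' : ℝ) * (b / a) - (j' : ℝ)) := by
        push_cast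
        field_simp
        ring
      rw [h1, abs_mul]
      have h2 : (M : ℝ) * |(k' : ℝ) * (b / a) - (j' : ℝ)| ≤ 1 := by
        have h3 : (M : ℝ) * (1 / ((M : ℝ) + 1)) ≤ 1 := by
          rw [mul_one_div, div_le_one (by linarith)]
          linarith
        exact le_trans (mul_le_mul_of_nonneg_left h hM'.le) h3
      calc (M : ℝ) * (|a| * |(k' : ℝ) * (b / a) - (j' : ℝ)|)
          = |a| * ((M : ℝ) * |(k' : ℝ) * (b / a) - (j' : ℝ)|) := by ring
        _ ≤ |a| * 1 := mul_le_mul_of_nonneg_left h2 (abs_nonneg a)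
        _ = |a| := mul_one _
    · -- `|j'| ≤ k' |b / a| + 1 ≤ M (|b / a| + 1)`
      have h1 : |(j' : ℝ)| ≤ (M : ℝ) * (|b / a| + 1) := by
        have h2 : (j' : ℝ) = (k' : ℝ) * (b / a) - ((k' : ℝ) * (b / a) - (j' : ℝ)) := by ring
        have h3 : |(j' : ℝ)| ≤ |(k' : ℝ) * (b / a)| + |(k' : ℝ) * (b / a) - (j' : ℝ)| := by
          conv_lhs => rw [h2]
          exact abs_sub _ _
        have h4 : |(k' : ℝ) * (b / a)| = (k' : ℝ) * |b / a| := by
          rw [abs_mul, abs_of_pos hk0']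
        have h5 : (k' : ℝ) * |b / a| ≤ (M : ℝ) * |b / a| :=
          mul_le_mul_of_nonneg_right hkM' (abs_nonneg _)
        rw [h4] at h3
        nlinarith
      have h6 : (j' : ℝ) ^ 2 ≤ ((M : ℝ) * (|b / a| + 1)) ^ 2 := by
        rw [← sq_abs (j' : ℝ)]
        exact pow_le_pow_left₀ (abs_nonneg _) h1 2
      have h7 : (k' : ℝ) ^ 2 ≤ (M : ℝ) ^ 2 := pow_le_pow_left₀ hk0'.le hkM' 2
      push_cast
      nlinarith

/-- A nonzero Gaussian integer `T` divisible by `M` which lies close to the line through the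
origin with normal vector `(a, b)`, on the side of the direction `σ (-b, a)`, far out, but not
farther than a constant times `M ^ 2`. -/
theorem exists_lattice_point' (a b σ : ℝ) (hσ : σ = 1 ∨ σ = -1) (M : ℕ) (hM0 : 0 < M) :
    ∃ T : GaussianInt, ((M : ℕ) : GaussianInt) ∣ T ∧ T ≠ 0 ∧
      |a * T.re + b * T.im| ≤ |a| ∧
      0 ≤ σ * (-b * T.re + a * T.im) ∧
      (M : ℝ) ^ 2 * (a ^ 2 + b ^ 2) - a ^ 2 ≤ (-b * T.re + a * T.im) ^ 2 ∧
      (M : ℤ) ^ 2 ≤ T.norm ∧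
      ((T.norm : ℤ) : ℝ) ≤ (M : ℝ) ^ 4 * (1 + (|b / a| + 1) ^ 2) := by
  have hM1 : (1 : ℝ) ≤ (M : ℝ) := by exact_mod_cast hM0
  obtain ⟨j, k, hjk, happ, hsize⟩ := exists_approx' a b M hM0
  set p : ℝ := -b * j + a * k with hp
  have hjk1 : (1 : ℝ) ≤ (j : ℝ) ^ 2 + (k : ℝ) ^ 2 := by
    have h1 : (1 : ℤ) ≤ j ^ 2 + k ^ 2 := by
      rcases hjk with h | h
      · have : 0 < j ^ 2 := by positivity
        nlinarith [sq_nonneg k]
      · have : 0 < k ^ 2 := by positivity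
        nlinarith [sq_nonneg j]
    exact_mod_cast h1
  have hid : (a * j + b * k) ^ 2 + p ^ 2 = (a ^ 2 + b ^ 2) * ((j : ℝ) ^ 2 + (k : ℝ) ^ 2) := by
    rw [hp]
    ring
  have happ1 : |(M : ℝ) * (a * j + b * k)| ≤ |a| := by
    rw [abs_mul, abs_of_nonneg (by linarith : (0 : ℝ) ≤ (M : ℝ))]
    exact happ
  have happ2 : ((M : ℝ) * (a * j + b * k)) ^ 2 ≤ a ^ 2 := sq_le_sq.2 happ1
  obtain ⟨τ, hτ, hτp⟩ : ∃ τ : ℤ, (τ = 1 ∨ τ = -1) ∧ σ * ((τ : ℝ) * p) = |p| := by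
    rcases hσ with rfl | rfl
    · rcases le_total 0 p with h | h
      · exact ⟨1, Or.inl rfl, by rw [abs_of_nonneg h]; push_cast; ring⟩
      · exact ⟨-1, Or.inr rfl, by rw [abs_of_nonpos h]; push_cast; ring⟩
    · rcases le_total 0 p with h | h
      · exact ⟨-1, Or.inr rfl, by rw [abs_of_nonneg h]; push_cast; ring⟩
      · exact ⟨1, Or.inl rfl, by rw [abs_of_nonpos h]; push_cast; ring⟩
  have hτ2 : (τ : ℝ) ^ 2 = 1 := by
    rcases hτ with rfl | rfl <;> norm_num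
  have hτabs : |(τ : ℝ)| = 1 := by
    rcases hτ with rfl | rfl <;> norm_num
  set q : GaussianInt := ⟨τ * j, τ * k⟩ with hq
  have hq0 : q ≠ 0 := by
    intro h
    have h1 : q.re = 0 := by rw [h]; rfl
    have h2 : q.im = 0 := by rw [h]; rfl
    rw [hq] at h1 h2
    simp only at h1 h2
    rcases hτ with rfl | rfl <;> rcases hjk with h3 | h3 <;> simp_all
  have hqn : ((q.norm : ℤ) : ℝ) = (j : ℝ) ^ 2 + (k : ℝ) ^ 2 := by
    rw [Zsqrtd.norm_def, hq]
    push_cast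
    have : ((τ : ℝ) * j) * ((τ : ℝ) * j) + ((τ : ℝ) * k) * ((τ : ℝ) * k)
        = (τ : ℝ) ^ 2 * ((j : ℝ) ^ 2 + (k : ℝ) ^ 2) := by ring
    simp only [neg_mul, one_mul, sub_neg_eq_add] at *
    rw [this, hτ2, one_mul]
  have hTn : (((M : ℕ) : GaussianInt) * q).norm = ((M : ℕ) : ℤ) * ((M : ℕ) : ℤ) * q.norm := by
    rw [Zsqrtd.norm_mul, Zsqrtd.norm_natCast]
  refine ⟨((M : ℕ) : GaussianInt) * q, ⟨q, rfl⟩, ?_, ?_, ?_, ?_, ?_, ?_⟩
  · apply mul_ne_zero _ hq0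
    exact_mod_cast hM0.ne'
  rotate_left 3
  · -- lower bound for the norm
    rw [hTn]
    have hqpos : 1 ≤ q.norm := by
      have := GaussianInt.norm_pos.2 hq0
      omega
    have hMz : (0 : ℤ) ≤ ((M : ℕ) : ℤ) * ((M : ℕ) : ℤ) := mul_self_nonneg _
    nlinarith
  · -- upper bound for the norm
    rw [hTn]
    push_cast
    rw [hqn]
    have h1 : (M : ℝ) * (M : ℝ) * ((j : ℝ) ^ 2 + (k : ℝ) ^ 2)
        ≤ (M : ℝ) * (M : ℝ) * ((M : ℝ) ^ 2 * (1 + (|b / a| + 1) ^ 2)) :=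
      mul_le_mul_of_nonneg_left hsize (mul_self_nonneg _)
    calc (M : ℝ) * (M : ℝ) * ((j : ℝ) ^ 2 + (k : ℝ) ^ 2)
        ≤ (M : ℝ) * (M : ℝ) * ((M : ℝ) ^ 2 * (1 + (|b / a| + 1) ^ 2)) := h1
      _ = (M : ℝ) ^ 4 * (1 + (|b / a| + 1) ^ 2) := by ring
  all_goals
    have hTre : ((((M : ℕ) : GaussianInt) * q).re : ℝ) = (M : ℝ) * ((τ : ℝ) * j) := by
      rw [hq]; simp
    have hTim : ((((M : ℕ) : GaussianInt) * q).im : ℝ) = (M : ℝ) * ((τ : ℝ) * k) := by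
      rw [hq]; simp
    rw [hTre, hTim]
  · have h1 : a * ((M : ℝ) * ((τ : ℝ) * j)) + b * ((M : ℝ) * ((τ : ℝ) * k))
        = (τ : ℝ) * ((M : ℝ) * (a * j + b * k)) := by ring
    rw [h1, abs_mul, hτabs, one_mul]
    exact happ1
  · have h1 : σ * (-b * ((M : ℝ) * ((τ : ℝ) * j)) + a * ((M : ℝ) * ((τ : ℝ) * k)))
        = (M : ℝ) * (σ * ((τ : ℝ) * p)) := by rw [hp]; ring
    rw [h1, hτp]
    exact mul_nonneg (by linarith) (abs_nonneg p)
  · have h1 : (-b * ((M : ℝ) * ((τ : ℝ) * j)) + a * ((M : ℝ) * ((τ : ℝ) * k))) ^ 2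
        = (M : ℝ) ^ 2 * ((τ : ℝ) ^ 2 * p ^ 2) := by rw [hp]; ring
    rw [h1, hτ2, one_mul]
    have h2 : (M : ℝ) ^ 2 * p ^ 2 = (M : ℝ) ^ 2 * ((a ^ 2 + b ^ 2) * ((j : ℝ) ^ 2 + (k : ℝ) ^ 2))
        - ((M : ℝ) * (a * j + b * k)) ^ 2 := by
      rw [← hid]; ring
    have h3 : (M : ℝ) ^ 2 * (a ^ 2 + b ^ 2)
        ≤ (M : ℝ) ^ 2 * ((a ^ 2 + b ^ 2) * ((j : ℝ) ^ 2 + (k : ℝ) ^ 2)) := by
      apply mul_le_mul_of_nonneg_left _ (sq_nonneg _)
      have : 0 ≤ a ^ 2 + b ^ 2 := by positivity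
      nlinarith
    rw [h2]
    linarith

/-- The modulus `K# (2 K + 2)` is at most `2 ^ (3 K + 1)`. -/
theorem modulus_le (K : ℕ) : primorial K * (2 * K + 2) ≤ 2 ^ (3 * K + 1) := by
  have h1 : primorial K ≤ 4 ^ K := primorial_le_four_pow K
  have h2 : 2 * K + 2 ≤ 2 ^ (K + 1) := by
    have h3 : K < 2 ^ K := Nat.lt_two_pow_self
    rw [pow_succ]
    omega
  calc primorial K * (2 * K + 2) ≤ 4 ^ K * 2 ^ (K + 1) := Nat.mul_le_mul h1 h2
    _ = 2 ^ (3 * K + 1) := by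
      have h4 : (4 : ℕ) ^ K = 2 ^ (2 * K) := by
        rw [pow_mul]
        norm_num
      rw [h4, ← pow_add]
      congr 1
      ring

/-- The logarithm of the size of the barrier point. -/
theorem log_bound (K : ℕ) (M : ℕ) (hM : M ≤ 2 ^ (3 * K + 1)) (Cab NT : ℝ) (hC : 1 ≤ Cab)
    (hNT0 : 0 ≤ NT) (hNT : NT ≤ (M : ℝ) ^ 4 * Cab) :
    Real.log (1 + 2 * NT) ≤ Real.log (3 * Cab) + (12 * (K : ℝ) + 4) * (7 / 10) := by
  have hM' : (M : ℝ) ≤ (2 : ℝ) ^ (3 * K + 1) := by exact_mod_cast hM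
  have hM0 : (0 : ℝ) ≤ (M : ℝ) := Nat.cast_nonneg M
  have h1 : (M : ℝ) ^ 4 ≤ ((2 : ℝ) ^ (3 * K + 1)) ^ 4 := pow_le_pow_left₀ hM0 hM' 4
  have h2 : ((2 : ℝ) ^ (3 * K + 1)) ^ 4 = (2 : ℝ) ^ (12 * K + 4) := by
    rw [← pow_mul]
    congr 1
    ring
  rw [h2] at h1
  have hpow1 : (1 : ℝ) ≤ (2 : ℝ) ^ (12 * K + 4) := one_le_pow₀ (by norm_num)
  have h3 : NT ≤ (2 : ℝ) ^ (12 * K + 4) * Cab :=
    le_trans hNT (mul_le_mul_of_nonneg_right h1 (by linarith))
  have h4 : 1 ≤ (2 : ℝ) ^ (12 * K + 4) * Cab := by nlinarith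
  have h5 : 1 + 2 * NT ≤ 3 * Cab * (2 : ℝ) ^ (12 * K + 4) := by nlinarith
  have h6 : Real.log (1 + 2 * NT) ≤ Real.log (3 * Cab * (2 : ℝ) ^ (12 * K + 4)) :=
    Real.log_le_log (by linarith) h5
  have h7 : Real.log (3 * Cab * (2 : ℝ) ^ (12 * K + 4))
      = Real.log (3 * Cab) + ((12 * K + 4 : ℕ) : ℝ) * Real.log 2 := by
    rw [Real.log_mul (by positivity) (by positivity), Real.log_pow]
  have h8 : Real.log 2 ≤ 7 / 10 := by
    have := Real.log_two_lt_d9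
    linarith
  have h9 : ((12 * K + 4 : ℕ) : ℝ) = 12 * (K : ℝ) + 4 := by push_cast; ring
  rw [h7, h9] at h6
  have h10 : (12 * (K : ℝ) + 4) * Real.log 2 ≤ (12 * (K : ℝ) + 4) * (7 / 10) :=
    mul_le_mul_of_nonneg_left h8 (by positivity)
  linarith

/-- The barrier point is beyond the start of the path. -/
theorem far_aux (S σ sT K M nrm a : ℝ) (hσ2 : σ ^ 2 = 1) (hn : 0 < nrm)
    (hKS : S ^ 2 + a ^ 2 + 2 * nrm ≤ K * nrm) (hMK : 2 * K + 2 ≤ M) (hK0 : 0 ≤ K)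
    (hT2 : 0 ≤ σ * sT) (hT3 : M ^ 2 * nrm - a ^ 2 ≤ sT ^ 2) : S < σ * sT := by
  have h3 : (σ * sT) ^ 2 = sT ^ 2 := by rw [mul_pow, hσ2, one_mul]
  have h5 : K ≤ M ^ 2 := by nlinarith
  have h4 : K * nrm ≤ M ^ 2 * nrm := mul_le_mul_of_nonneg_right h5 hn.le
  have h2 : S ^ 2 < (σ * sT) ^ 2 := by
    rw [h3]
    linarith
  by_contra hcon'
  rw [not_lt] at hcon'
  nlinarith

/-- A sequence with increments at most `E` which starts below `t` and reaches `t` has a term in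
`[t, t + E]`. -/
theorem crossing (f : ℕ → ℝ) (E t : ℝ) (hstep : ∀ n, f (n + 1) - f n ≤ E)
    (hdir : ∃ n, t ≤ f n) (h0 : f 0 < t) : ∃ m, t ≤ f m ∧ f m - t ≤ E := by
  classical
  set m : ℕ := Nat.find hdir with hm
  have hm1 : t ≤ f m := Nat.find_spec hdir
  have hm0 : m ≠ 0 := by
    intro h0'
    rw [h0'] at hm1
    linarith
  obtain ⟨m', hm'⟩ := Nat.exists_eq_succ_of_ne_zero hm0
  have hm2 : f m' < t := by
    have : ¬ t ≤ f m' := Nat.find_min hdir (by rw [← hm, hm']; exact Nat.lt_succ_self m')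
    exact not_le.1 this
  refine ⟨m, hm1, ?_⟩
  have := hstep m'
  rw [hm', Nat.succ_eq_add_one]
  linarith

/-- The arithmetic of the crossing: the point of the path next to the barrier point lies in the
disc of squared radius `K` around it. -/
theorem dist_arith (nrm X hm hT d E A W L LT logC C2 K : ℝ) (hn : 0 < nrm)
    (hid : nrm * X = (hm - hT) ^ 2 + d ^ 2) (hd : d ^ 2 ≤ E ^ 2) (hhT : hT ^ 2 ≤ A)
    (hreg : hm ^ 2 ≤ nrm * (W ^ 2 + (1 / 32) * L)) (hL : L ≤ LT + 2 * X)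
    (hLT : LT ≤ logC + (12 * K + 4) * (7 / 10)) (hC2 : C2 * nrm = 2 * A + E ^ 2)
    (hK : 3 * (2 * W ^ 2 + C2 + (logC + 14 / 5) / 16) ≤ K) (hK0 : 0 ≤ K) : X ≤ K := by
  have h2 : (hm - hT) ^ 2 ≤ 2 * hm ^ 2 + 2 * hT ^ 2 := by nlinarith [sq_nonneg (hm + hT)]
  have h3 : nrm * (2 * W ^ 2 + (1 / 16) * L + C2)
      = 2 * (nrm * (W ^ 2 + (1 / 32) * L)) + C2 * nrm := by ring
  have hXle : nrm * X ≤ nrm * (2 * W ^ 2 + (1 / 16) * L + C2) := by
    rw [hid, h3, hC2]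
    linarith
  have hXle' : X ≤ 2 * W ^ 2 + (1 / 16) * L + C2 := le_of_mul_le_mul_left hXle hn
  linarith

/-- In the region `h ^ 2 ≤ nrm (W ^ 2 + log (1 + N) / 32)` the coordinate along the line
controls the norm. -/
theorem norm_bound_arith (nrm N h s c W B L : ℝ) (hn : 0 < nrm)
    (h2 : N * nrm = (h + c) ^ 2 + s ^ 2) (hreg : h ^ 2 ≤ nrm * (W ^ 2 + (1 / 32) * L))
    (hL : L ≤ N) (hs : s ^ 2 ≤ B ^ 2) :
    N * (nrm * (15 / 16)) ≤ 2 * nrm * W ^ 2 + 2 * c ^ 2 + B ^ 2 := by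
  have h7 : (h + c) ^ 2 ≤ 2 * h ^ 2 + 2 * c ^ 2 := by nlinarith [sq_nonneg (h - c)]
  have h8 : nrm * L ≤ nrm * N := mul_le_mul_of_nonneg_left hL hn.le
  nlinarith

/-- A sequence of distinct Gaussian integers inside the region around the line is unbounded
along the line. -/
theorem unbounded_along (a b c W : ℝ) (hn : 0 < a ^ 2 + b ^ 2) (z : ℕ → GaussianInt)
    (hinj : Function.Injective z)
    (hreg : ∀ n, (a * (z n).re + b * (z n).im - c) ^ 2 ≤ (a ^ 2 + b ^ 2) * (W ^ 2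
      + (1 / 32) * Real.log (1 + (((z n).re : ℝ) ^ 2 + ((z n).im : ℝ) ^ 2)))) (B : ℝ) :
    ∃ n, B < |-b * (z n).re + a * (z n).im| := by
  by_contra h
  have hB : ∀ n, |-b * (z n).re + a * (z n).im| ≤ B := by
    intro n
    by_contra h'
    exact h ⟨n, not_le.1 h'⟩
  have hsub : Set.range z ⊆ {w : GaussianInt | ((w.norm : ℤ) : ℝ)
      ≤ (2 * (a ^ 2 + b ^ 2) * W ^ 2 + 2 * c ^ 2 + B ^ 2) / ((a ^ 2 + b ^ 2) * (15 / 16))} := by
    rintro w ⟨n, rfl⟩
    have hnormN : (((z n).norm : ℤ) : ℝ) = ((z n).re : ℝ) ^ 2 + ((z n).im : ℝ) ^ 2 := by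
      rw [Zsqrtd.norm_def]
      push_cast
      ring
    rw [Set.mem_ofPred_eq, le_div_iff₀ (by positivity), hnormN]
    have h2 : (((z n).re : ℝ) ^ 2 + ((z n).im : ℝ) ^ 2) * (a ^ 2 + b ^ 2)
        = ((a * (z n).re + b * (z n).im - c) + c) ^ 2 + (-b * (z n).re + a * (z n).im) ^ 2 := by
      ring
    have h6 : (-b * (z n).re + a * (z n).im) ^ 2 ≤ B ^ 2 := by
      rw [← sq_abs (-b * (z n).re + a * (z n).im)]
      exact pow_le_pow_left₀ (abs_nonneg _) (hB n) 2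
    have hlog : Real.log (1 + (((z n).re : ℝ) ^ 2 + ((z n).im : ℝ) ^ 2))
        ≤ ((z n).re : ℝ) ^ 2 + ((z n).im : ℝ) ^ 2 := by
      have h0 : (0 : ℝ) ≤ ((z n).re : ℝ) ^ 2 + ((z n).im : ℝ) ^ 2 := by positivity
      have := Real.log_le_sub_one_of_pos
        (by linarith : (0 : ℝ) < 1 + (((z n).re : ℝ) ^ 2 + ((z n).im : ℝ) ^ 2))
      linarith
    exact norm_bound_arith (a ^ 2 + b ^ 2) _ _ _ c W B _ hn h2 (hreg n) hlog h6
  exact (Set.infinite_range_of_injective hinj) ((finite_norm_le _).subset hsub)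

/-- A real sequence which is unbounded in absolute value is unbounded above, or its negative
is. -/
theorem exists_direction (s : ℕ → ℝ) (hunb : ∀ B : ℝ, ∃ n, B < |s n|) :
    ∃ σ : ℝ, (σ = 1 ∨ σ = -1) ∧ ∀ B : ℝ, ∃ n, B < σ * s n := by
  by_cases h1 : ∀ B : ℝ, ∃ n, B < s n
  · exact ⟨1, Or.inl rfl, fun B => by simpa using h1 B⟩
  · refine ⟨-1, Or.inr rfl, ?_⟩
    rw [not_forall] at h1
    obtain ⟨B1, hB1⟩ := h1
    have hB1' : ∀ n, s n ≤ B1 := by
      intro n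
      by_contra h
      exact hB1 ⟨n, not_le.1 h⟩
    intro B
    obtain ⟨n, hn'⟩ := hunb (max B B1)
    refine ⟨n, ?_⟩
    have h2 : |s n| = -s n := by
      rcases le_total 0 (s n) with h | h
      · rw [abs_of_nonneg h] at hn'
        have := hB1' n
        have := le_max_right B B1
        linarith
      · exact abs_of_nonpos h
    rw [h2] at hn'
    have := le_max_left B B1
    linarith

/-- A step of length at most `D` moves the coordinate along the line by at most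
`(a ^ 2 + b ^ 2 + 1) |D|`. -/
theorem step_along (a b D σ dx dy : ℝ) (hσ2 : σ ^ 2 = 1) (hstep : dx ^ 2 + dy ^ 2 ≤ D ^ 2) :
    σ * (-b * dx + a * dy) ≤ (a ^ 2 + b ^ 2 + 1) * |D| := by
  have hE0 : 0 ≤ (a ^ 2 + b ^ 2 + 1) * |D| := mul_nonneg (by positivity) (abs_nonneg D)
  have h1 : (σ * (-b * dx + a * dy)) ^ 2 ≤ ((a ^ 2 + b ^ 2 + 1) * |D|) ^ 2 := by
    have h2 : (σ * (-b * dx + a * dy)) ^ 2 = (-b * dx + a * dy) ^ 2 := by
      rw [mul_pow, hσ2, one_mul]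
    have h3 : (-b * dx + a * dy) ^ 2 ≤ (a ^ 2 + b ^ 2) * (dx ^ 2 + dy ^ 2) := by
      nlinarith [sq_nonneg (a * dx + b * dy)]
    have h4 : (a ^ 2 + b ^ 2) * (dx ^ 2 + dy ^ 2) ≤ (a ^ 2 + b ^ 2) * D ^ 2 :=
      mul_le_mul_of_nonneg_left hstep (by positivity)
    have h5 : (a ^ 2 + b ^ 2) * D ^ 2 ≤ ((a ^ 2 + b ^ 2 + 1) * |D|) ^ 2 := by
      rw [mul_pow, sq_abs]
      apply mul_le_mul_of_nonneg_right _ (sq_nonneg D)
      nlinarith [sq_nonneg a, sq_nonneg b]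
    rw [h2]
    linarith
  exact le_trans (le_abs_self _) (abs_le_of_sq_le_sq h1 hE0)

/-- The barrier point: a Gaussian integer `T` divisible by all rational primes `p ≤ K`, far from
the origin but not farther than `2 ^ O(K)`, next to the line through the origin with normal
vector `(a, b)`, on the side of the direction `σ (-b, a)`. -/
theorem exists_barrier (a b σ : ℝ) (hσ : σ = 1 ∨ σ = -1) (K : ℕ) :
    ∃ T : GaussianInt, (∀ p : ℕ, p.Prime → p ≤ K → ((p : ℕ) : GaussianInt) ∣ T) ∧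
      2 * (K : ℤ) ^ 2 + 2 * K + 2 ≤ T.norm ∧
      |a * T.re + b * T.im| ≤ |a| ∧
      0 ≤ σ * (-b * T.re + a * T.im) ∧
      (2 * (K : ℝ) + 2) ^ 2 * (a ^ 2 + b ^ 2) - a ^ 2 ≤ (-b * T.re + a * T.im) ^ 2 ∧
      Real.log (1 + 2 * ((T.re : ℝ) ^ 2 + (T.im : ℝ) ^ 2))
        ≤ Real.log (3 * (1 + (|b / a| + 1) ^ 2)) + (12 * (K : ℝ) + 4) * (7 / 10) := by
  have hP0 : 0 < primorial K := primorial_pos K
  have hM0 : 0 < primorial K * (2 * K + 2) := Nat.mul_pos hP0 (by omega)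
  have hMK : 2 * K + 2 ≤ primorial K * (2 * K + 2) := Nat.le_mul_of_pos_left _ hP0
  have hMle : primorial K * (2 * K + 2) ≤ 2 ^ (3 * K + 1) := modulus_le K
  obtain ⟨T, hTdvd, hT0, hT1, hT2, hT3, hT4, hT5⟩ :=
    exists_lattice_point' a b σ hσ (primorial K * (2 * K + 2)) hM0
  have hMKr : (2 * (K : ℝ) + 2) ≤ ((primorial K * (2 * K + 2) : ℕ) : ℝ) := by exact_mod_cast hMK
  have hK0r : (0 : ℝ) ≤ (K : ℝ) := Nat.cast_nonneg K
  refine ⟨T, ?_, ?_, hT1, hT2, ?_, ?_⟩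
  · intro p hp hpK
    have h1 : p ∣ primorial K * (2 * K + 2) := Dvd.dvd.mul_right (hp.dvd_primorial_iff.2 hpK) _
    exact (Nat.cast_dvd_cast h1).trans hTdvd
  · have h1 : (2 * (K : ℤ) + 2) ≤ ((primorial K * (2 * K + 2) : ℕ) : ℤ) := by exact_mod_cast hMK
    have h2 : (0 : ℤ) ≤ (K : ℤ) := by positivity
    nlinarith
  · have h1 : (2 * (K : ℝ) + 2) ^ 2 ≤ ((primorial K * (2 * K + 2) : ℕ) : ℝ) ^ 2 :=
      pow_le_pow_left₀ (by linarith) hMKr 2
    have h2 : (2 * (K : ℝ) + 2) ^ 2 * (a ^ 2 + b ^ 2)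
        ≤ ((primorial K * (2 * K + 2) : ℕ) : ℝ) ^ 2 * (a ^ 2 + b ^ 2) :=
      mul_le_mul_of_nonneg_right h1 (by positivity)
    linarith
  · have hNTnorm : ((T.norm : ℤ) : ℝ) = (T.re : ℝ) ^ 2 + (T.im : ℝ) ^ 2 := by
      rw [Zsqrtd.norm_def]
      push_cast
      ring
    have hCab1 : (1 : ℝ) ≤ 1 + (|b / a| + 1) ^ 2 := by
      have : (0 : ℝ) ≤ (|b / a| + 1) ^ 2 := sq_nonneg _
      linarith
    exact log_bound K _ hMle _ _ hCab1 (by positivity) (by rw [← hNTnorm]; exact hT5)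

/-- The crossing: a sequence in the region around the line which passes the barrier point with
bounded steps has a term in the disc of squared radius `K` around the barrier point. -/
theorem near_barrier (a b c W σ E : ℝ) (hn : 0 < a ^ 2 + b ^ 2) (hσ2 : σ ^ 2 = 1)
    (x y : ℕ → ℝ) (tx ty K logC : ℝ)
    (hreg : ∀ n, (a * x n + b * y n - c) ^ 2 ≤ (a ^ 2 + b ^ 2) * (W ^ 2
      + (1 / 32) * Real.log (1 + ((x n) ^ 2 + (y n) ^ 2))))
    (hstep : ∀ n, σ * (-b * x (n + 1) + a * y (n + 1)) - σ * (-b * x n + a * y n) ≤ E)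
    (hdir : ∃ n, σ * (-b * tx + a * ty) ≤ σ * (-b * x n + a * y n))
    (hfar : σ * (-b * x 0 + a * y 0) < σ * (-b * tx + a * ty))
    (hT1 : |a * tx + b * ty| ≤ |a|)
    (hlogT : Real.log (1 + 2 * (tx ^ 2 + ty ^ 2)) ≤ logC + (12 * K + 4) * (7 / 10))
    (hK0 : 0 ≤ K)
    (hK : 3 * (2 * W ^ 2 + (2 * (|a| + |c|) ^ 2 + E ^ 2) / (a ^ 2 + b ^ 2)
      + (logC + 14 / 5) / 16) ≤ K) :
    ∃ m, (x m - tx) ^ 2 + (y m - ty) ^ 2 ≤ K := by
  obtain ⟨m, hm1, hm3⟩ := crossing (fun n => σ * (-b * x n + a * y n)) E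
    (σ * (-b * tx + a * ty)) hstep hdir hfar
  refine ⟨m, ?_⟩
  have hm1' : σ * (-b * tx + a * ty) ≤ σ * (-b * x m + a * y m) := hm1
  have hm3' : σ * (-b * x m + a * y m) - σ * (-b * tx + a * ty) ≤ E := hm3
  have hm4 : ((-b * x m + a * y m) - (-b * tx + a * ty)) ^ 2 ≤ E ^ 2 := by
    have h1 : ((-b * x m + a * y m) - (-b * tx + a * ty)) ^ 2
        = (σ * (-b * x m + a * y m) - σ * (-b * tx + a * ty)) ^ 2 := by
      have : σ * (-b * x m + a * y m) - σ * (-b * tx + a * ty)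
          = σ * ((-b * x m + a * y m) - (-b * tx + a * ty)) := by ring
      rw [this, mul_pow, hσ2, one_mul]
    rw [h1]
    exact pow_le_pow_left₀ (by linarith) hm3' 2
  have hX0 : 0 ≤ (x m - tx) ^ 2 + (y m - ty) ^ 2 := by positivity
  have hNT0 : 0 ≤ tx ^ 2 + ty ^ 2 := by positivity
  have hN0 : 0 ≤ (x m) ^ 2 + (y m) ^ 2 := by positivity
  have hNm : (x m) ^ 2 + (y m) ^ 2
      ≤ 2 * (tx ^ 2 + ty ^ 2) + 2 * ((x m - tx) ^ 2 + (y m - ty) ^ 2) := by
    nlinarith [sq_nonneg (x m - 2 * tx), sq_nonneg (y m - 2 * ty)]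
  have hlogm : Real.log (1 + ((x m) ^ 2 + (y m) ^ 2))
      ≤ Real.log (1 + 2 * (tx ^ 2 + ty ^ 2)) + 2 * ((x m - tx) ^ 2 + (y m - ty) ^ 2) := by
    have h1 : 1 + ((x m) ^ 2 + (y m) ^ 2)
        ≤ (1 + 2 * (tx ^ 2 + ty ^ 2)) * (1 + 2 * ((x m - tx) ^ 2 + (y m - ty) ^ 2)) := by
      nlinarith [mul_nonneg hNT0 hX0]
    have h2 := Real.log_le_log (by linarith) h1
    rw [Real.log_mul (by linarith) (by linarith)] at h2
    have h3 := Real.log_le_sub_one_of_pos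
      (by linarith : (0 : ℝ) < 1 + 2 * ((x m - tx) ^ 2 + (y m - ty) ^ 2))
    linarith
  have hid : (a ^ 2 + b ^ 2) * ((x m - tx) ^ 2 + (y m - ty) ^ 2)
      = ((a * x m + b * y m - c) - (a * tx + b * ty - c)) ^ 2
        + ((-b * x m + a * y m) - (-b * tx + a * ty)) ^ 2 := by
    ring
  have hhT : (a * tx + b * ty - c) ^ 2 ≤ (|a| + |c|) ^ 2 := by
    have h1 : |a * tx + b * ty - c| ≤ |a| + |c| := by
      have := abs_sub (a * tx + b * ty) c
      linarith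
    rw [← sq_abs (a * tx + b * ty - c)]
    exact pow_le_pow_left₀ (abs_nonneg _) h1 2
  have hC2n : (2 * (|a| + |c|) ^ 2 + E ^ 2) / (a ^ 2 + b ^ 2) * (a ^ 2 + b ^ 2)
      = 2 * (|a| + |c|) ^ 2 + E ^ 2 := by
    field_simp
  exact dist_arith (a ^ 2 + b ^ 2) _ _ _ _ E _ W _ _ logC _ K hn hid hm4 hhT (hreg m) hlogm hlogT
    hC2n hK hK0

/-- An infinite sequence of distinct Gaussian primes with steps of length at most `D` leaves
every region `dist(z, ℓ) ^ 2 ≤ W ^ 2 + (1 / 32) log (1 + |z| ^ 2)` around the line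
`ℓ : a x + b y = c`. -/
theorem leaves_log_region_aux (a b c D W : ℝ) (hab : a ≠ 0 ∨ b ≠ 0) (z : ℕ → GaussianInt)
    (hinj : Function.Injective z) (hirr : ∀ n, Irreducible (z n))
    (hstep : ∀ n, (((z (n + 1)).re : ℝ) - (z n).re) ^ 2
      + (((z (n + 1)).im : ℝ) - (z n).im) ^ 2 ≤ D ^ 2) :
    ∃ n, (a ^ 2 + b ^ 2) * (W ^ 2
        + (1 / 32) * Real.log (1 + (((z n).re : ℝ) ^ 2 + ((z n).im : ℝ) ^ 2)))
      < (a * (z n).re + b * (z n).im - c) ^ 2 := by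
  by_contra hcon
  have hreg : ∀ n, (a * (z n).re + b * (z n).im - c) ^ 2 ≤ (a ^ 2 + b ^ 2) * (W ^ 2
      + (1 / 32) * Real.log (1 + (((z n).re : ℝ) ^ 2 + ((z n).im : ℝ) ^ 2))) := by
    intro n
    by_contra h
    exact hcon ⟨n, not_le.1 h⟩
  clear hcon
  have hn : 0 < a ^ 2 + b ^ 2 := by
    rcases hab with h | h
    · have := sq_pos_of_ne_zero h
      nlinarith [sq_nonneg b]
    · have := sq_pos_of_ne_zero h
      nlinarith [sq_nonneg a]
  -- a direction along the line in which the path is unbounded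
  obtain ⟨σ, hσ, hdir⟩ := exists_direction (fun n => -b * (z n).re + a * (z n).im)
    (unbounded_along a b c W hn z hinj hreg)
  have hσ2 : σ ^ 2 = 1 := by
    rcases hσ with rfl | rfl <;> norm_num
  -- the steps along the line are bounded
  have hstep' : ∀ n, σ * (-b * ((z (n + 1)).re : ℝ) + a * ((z (n + 1)).im : ℝ))
      - σ * (-b * ((z n).re : ℝ) + a * ((z n).im : ℝ)) ≤ (a ^ 2 + b ^ 2 + 1) * |D| := by
    intro n
    have h1 := step_along a b D σ _ _ hσ2 (hstep n)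
    linarith
  -- the choice of `K`
  have hC0 : 0 ≤ 3 * (2 * W ^ 2 + (2 * (|a| + |c|) ^ 2 + ((a ^ 2 + b ^ 2 + 1) * |D|) ^ 2)
      / (a ^ 2 + b ^ 2) + (Real.log (3 * (1 + (|b / a| + 1) ^ 2)) + 14 / 5) / 16) := by
    have h1 : 0 ≤ Real.log (3 * (1 + (|b / a| + 1) ^ 2)) := by
      apply Real.log_nonneg
      have : (0 : ℝ) ≤ (|b / a| + 1) ^ 2 := sq_nonneg _
      linarith
    have h2 : 0 ≤ (2 * (|a| + |c|) ^ 2 + ((a ^ 2 + b ^ 2 + 1) * |D|) ^ 2) / (a ^ 2 + b ^ 2) :=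
      div_nonneg (by positivity) hn.le
    have h3 : 0 ≤ W ^ 2 := sq_nonneg W
    linarith
  have hS0 : 0 ≤ ((σ * (-b * ((z 0).re : ℝ) + a * ((z 0).im : ℝ))) ^ 2 + a ^ 2) / (a ^ 2 + b ^ 2) :=
    div_nonneg (by positivity) hn.le
  have hD0 : 0 ≤ (|D| + 1) ^ 2 := sq_nonneg _
  obtain ⟨K, hKge⟩ := exists_nat_ge (2 + (|D| + 1) ^ 2
    + (((σ * (-b * ((z 0).re : ℝ) + a * ((z 0).im : ℝ))) ^ 2 + a ^ 2) / (a ^ 2 + b ^ 2) + 2)
    + 3 * (2 * W ^ 2 + (2 * (|a| + |c|) ^ 2 + ((a ^ 2 + b ^ 2 + 1) * |D|) ^ 2)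
      / (a ^ 2 + b ^ 2) + (Real.log (3 * (1 + (|b / a| + 1) ^ 2)) + 14 / 5) / 16))
  have hK2 : 2 ≤ K := by
    have : (2 : ℝ) ≤ (K : ℝ) := by linarith
    exact_mod_cast this
  have hKD : (|D| + 1) ^ 2 ≤ (K : ℝ) := by linarith
  have hKS : (σ * (-b * ((z 0).re : ℝ) + a * ((z 0).im : ℝ))) ^ 2 + a ^ 2 + 2 * (a ^ 2 + b ^ 2)
      ≤ (K : ℝ) * (a ^ 2 + b ^ 2) := by
    have h1 : ((σ * (-b * ((z 0).re : ℝ) + a * ((z 0).im : ℝ))) ^ 2 + a ^ 2) / (a ^ 2 + b ^ 2) + 2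
        ≤ (K : ℝ) := by linarith
    have h2 := mul_le_mul_of_nonneg_right h1 hn.le
    have h3 : (((σ * (-b * ((z 0).re : ℝ) + a * ((z 0).im : ℝ))) ^ 2 + a ^ 2) / (a ^ 2 + b ^ 2) + 2)
        * (a ^ 2 + b ^ 2)
        = (σ * (-b * ((z 0).re : ℝ) + a * ((z 0).im : ℝ))) ^ 2 + a ^ 2 + 2 * (a ^ 2 + b ^ 2) := by
      field_simp
    linarith
  have hKC : 3 * (2 * W ^ 2 + (2 * (|a| + |c|) ^ 2 + ((a ^ 2 + b ^ 2 + 1) * |D|) ^ 2)
      / (a ^ 2 + b ^ 2) + (Real.log (3 * (1 + (|b / a| + 1) ^ 2)) + 14 / 5) / 16) ≤ (K : ℝ) := by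
    linarith
  have hK0r : (0 : ℝ) ≤ (K : ℝ) := Nat.cast_nonneg K
  clear hKge hS0 hD0 hC0
  -- the barrier point
  obtain ⟨T, hTprime, hTbig, hT1, hT2, hT3, hTlog⟩ := exists_barrier a b σ hσ K
  have hfar : σ * (-b * ((z 0).re : ℝ) + a * ((z 0).im : ℝ)) < σ * (-b * (T.re : ℝ) + a * (T.im : ℝ)) :=
    far_aux _ σ _ K (2 * (K : ℝ) + 2) (a ^ 2 + b ^ 2) a hσ2 hn hKS le_rfl hK0r hT2 hT3
  -- the path has a point in the disc around the barrier point
  obtain ⟨m, hm⟩ := near_barrier a b c W σ ((a ^ 2 + b ^ 2 + 1) * |D|) hn hσ2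
    (fun n => ((z n).re : ℝ)) (fun n => ((z n).im : ℝ)) (T.re : ℝ) (T.im : ℝ) (K : ℝ)
    (Real.log (3 * (1 + (|b / a| + 1) ^ 2))) hreg hstep'
    (by obtain ⟨n, hn'⟩ := hdir (σ * (-b * (T.re : ℝ) + a * (T.im : ℝ))); exact ⟨n, hn'.le⟩)
    hfar hT1 hTlog hK0r hKC
  -- but it never enters that disc
  have hout : (K : ℤ) < (z m - T).norm := avoids_disc K hK2 D hKD T hTprime hTbig z hinj hirr hstep m
  have hXnorm : (((z m - T).norm : ℤ) : ℝ)
      = (((z m).re : ℝ) - (T.re : ℝ)) ^ 2 + (((z m).im : ℝ) - (T.im : ℝ)) ^ 2 := by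
    rw [Zsqrtd.norm_def]
    simp only [Zsqrtd.re_sub, Zsqrtd.im_sub]
    push_cast
    ring
  have hfin : (((z m - T).norm : ℤ) : ℝ) ≤ ((K : ℤ) : ℝ) := by
    rw [hXnorm]
    push_cast
    exact hm
  have hfin' : (z m - T).norm ≤ (K : ℤ) := by exact_mod_cast hfin
  omega

/-- An infinite sequence of distinct Gaussian primes with steps of length at most `D` leaves
every region `dist(z, ℓ) ^ 2 ≤ W ^ 2 + (1 / 32) log (1 + |z| ^ 2)` around the line
`ℓ : a x + b y = c`, again and again. -/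
theorem leaves_log_region (a b c D W : ℝ) (hab : a ≠ 0 ∨ b ≠ 0) (z : ℕ → GaussianInt)
    (hinj : Function.Injective z) (hirr : ∀ n, Irreducible (z n))
    (hstep : ∀ n, (((z (n + 1)).re : ℝ) - (z n).re) ^ 2
      + (((z (n + 1)).im : ℝ) - (z n).im) ^ 2 ≤ D ^ 2) (N : ℕ) :
    ∃ n, N ≤ n ∧ (a ^ 2 + b ^ 2) * (W ^ 2
        + (1 / 32) * Real.log (1 + (((z n).re : ℝ) ^ 2 + ((z n).im : ℝ) ^ 2)))
      < (a * (z n).re + b * (z n).im - c) ^ 2 := by
  have hinj' : Function.Injective (fun k => z (N + k)) := by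
    intro k1 k2 h
    have h1 := hinj h
    omega
  obtain ⟨k, hk⟩ := leaves_log_region_aux a b c D W hab (fun k => z (N + k)) hinj'
    (fun k => hirr (N + k)) (fun k => hstep (N + k))
  exact ⟨N + k, Nat.le_add_right N k, hk⟩

end Vale.Agent.Lib.Helper5.P015LogMoat
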