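import Mathlib
import Vale.Agent.Lib.Helper5.P015LogMoat

/-!
Gaussian primes in a strip around the real axis: an explicit bound.

Let `M = K# (2 K + 2)`.  Every nonzero multiple `j M` of `M` is the centre of a disc of squared
radius `K` in which the only possible Gaussian primes are the four neighbours `j M ± 1`,
`j M ± i`.  A path of Gaussian primes with steps of length at most `D` inside the strip
`|Im z| ≤ W`, where `(|D| + 1) ^ 2 + W ^ 2 ≤ K`, which reaches the vertical line `Re z = j M`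
lands in that disc and is trapped among the neighbours of `j M` from then on.  Hence the real
parts along such a path stay within `2 M ≤ 2 ^ (3 K + 2)` of the real part of its first point.
-/

open scoped GaussianInt
open Nat

namespace Vale.Agent.Lib.Helper5.P015Effective

open Vale.Agent.Lib.Helper5.P015Moat Vale.Agent.Lib.Helper5.P015LogMoat

/-- Once a path of Gaussian primes with steps of length at most `D` is in the disc
`N(z - T) ≤ K`, it stays among the neighbours of `T`. -/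
theorem trapped (K : ℕ) (hK : 2 ≤ K) (D : ℝ) (hD : (|D| + 1) ^ 2 ≤ (K : ℝ)) (T : GaussianInt)
    (hT : ∀ p : ℕ, p.Prime → p ≤ K → ((p : ℕ) : GaussianInt) ∣ T)
    (hTbig : 2 * (K : ℤ) ^ 2 + 2 * K + 2 ≤ T.norm)
    (z : ℕ → GaussianInt) (hirr : ∀ n, Irreducible (z n))
    (hstep : ∀ n, (((z (n + 1)).re : ℝ) - (z n).re) ^ 2
      + (((z (n + 1)).im : ℝ) - (z n).im) ^ 2 ≤ D ^ 2) (m : ℕ)
    (hm : (z m - T).norm ≤ K) : ∀ i, (z (m + i) - T).norm = 1 := by
  have key : ∀ n, (z n - T).norm ≤ K → (z n - T).norm = 1 := by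
    intro n hn
    have hnn : 0 ≤ (z n - T).norm := GaussianInt.norm_nonneg _
    have hbig : (K : ℤ) ^ 2 < (z n).norm := by
      have h1 : T.norm ≤ 2 * (z n).norm + 2 * (z n - T).norm := by
        rw [Zsqrtd.norm_def, Zsqrtd.norm_def, Zsqrtd.norm_def]
        simp only [Zsqrtd.re_sub, Zsqrtd.im_sub]
        nlinarith [sq_nonneg (2 * (z n).re - T.re), sq_nonneg (2 * (z n).im - T.im)]
      linarith
    by_contra h1
    have h2 : (z n - T).norm = 0 ∨ (2 ≤ (z n - T).norm ∧ (z n - T).norm ≤ K) := by omega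
    exact not_irreducible_near' K hK T (z n) hT hbig h2 (hirr n)
  have hnorm : ∀ n, (((z n - T).norm : ℤ) : ℝ)
      = (((z n).re : ℝ) - T.re) ^ 2 + (((z n).im : ℝ) - T.im) ^ 2 := by
    intro n
    rw [Zsqrtd.norm_def]
    simp only [Zsqrtd.re_sub, Zsqrtd.im_sub]
    push_cast
    ring
  intro i
  induction i with
  | zero => exact key m hm
  | succ i ih =>
    apply key
    have hs := hstep (m + i)
    have h1 := hnorm (m + i)
    rw [ih] at h1
    have h2 := hnorm (m + i + 1)
    set u : ℝ := ((z (m + i)).re : ℝ) - T.re with hu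
    set v : ℝ := ((z (m + i)).im : ℝ) - T.im with hv
    set dx : ℝ := ((z (m + i + 1)).re : ℝ) - (z (m + i)).re with hdx
    set dy : ℝ := ((z (m + i + 1)).im : ℝ) - (z (m + i)).im with hdy
    have huv : u ^ 2 + v ^ 2 = 1 := by
      rw [← h1]
      norm_num
    have hc : (u * dx + v * dy) ^ 2 ≤ |D| ^ 2 := by
      rw [sq_abs]
      nlinarith [sq_nonneg (u * dy - v * dx)]
    have hc' : u * dx + v * dy ≤ |D| :=
      le_trans (le_abs_self _) (abs_le_of_sq_le_sq hc (abs_nonneg D))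
    have h3 : (((z (m + i + 1) - T).norm : ℤ) : ℝ) = (u + dx) ^ 2 + (v + dy) ^ 2 := by
      rw [h2, hu, hv, hdx, hdy]
      ring
    have h4 : (((z (m + i + 1) - T).norm : ℤ) : ℝ) ≤ ((K : ℤ) : ℝ) := by
      rw [h3]
      have : D ^ 2 = |D| ^ 2 := (sq_abs D).symm
      push_cast
      nlinarith
    have h5 : (z (m + i + 1) - T).norm ≤ (K : ℤ) := by exact_mod_cast h4
    exact h5

/-- A neighbour of `T` has real part within `1` of that of `T`. -/
theorem re_near_of_norm_one (w T : GaussianInt) (h : (w - T).norm = 1) : |w.re - T.re| ≤ 1 := by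
  rw [Zsqrtd.norm_def] at h
  simp only [Zsqrtd.re_sub, Zsqrtd.im_sub] at h
  rw [abs_le]
  constructor <;>
    nlinarith [mul_self_nonneg (w.im - T.im), mul_self_nonneg (w.re - T.re - 1),
      mul_self_nonneg (w.re - T.re + 1)]

/-- The barrier points on the real axis: nonzero multiples of `K# (2 K + 2)`. -/
theorem barrier_real (K : ℕ) (j : ℤ) (hj : j ≠ 0) :
    (∀ p : ℕ, p.Prime → p ≤ K → ((p : ℕ) : GaussianInt)
      ∣ ((j * ((primorial K * (2 * K + 2) : ℕ) : ℤ) : ℤ) : GaussianInt)) ∧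
    2 * (K : ℤ) ^ 2 + 2 * K + 2
      ≤ (((j * ((primorial K * (2 * K + 2) : ℕ) : ℤ) : ℤ) : GaussianInt)).norm := by
  constructor
  · intro p hp hpK
    have h1 : p ∣ primorial K * (2 * K + 2) := Dvd.dvd.mul_right (hp.dvd_primorial_iff.2 hpK) _
    have h2 : ((p : ℕ) : ℤ) ∣ j * ((primorial K * (2 * K + 2) : ℕ) : ℤ) :=
      Dvd.dvd.mul_left (Int.natCast_dvd_natCast.2 h1) j
    have h3 := (Zsqrtd.intCast_dvd_intCast (d := -1) _ _).2 h2
    simpa using h3
  · rw [Zsqrtd.norm_intCast]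
    have hP0 : 0 < primorial K := primorial_pos K
    have hMK : 2 * K + 2 ≤ primorial K * (2 * K + 2) := Nat.le_mul_of_pos_left _ hP0
    have h1 : (2 * (K : ℤ) + 2) ≤ ((primorial K * (2 * K + 2) : ℕ) : ℤ) := by exact_mod_cast hMK
    have hj2 : 1 ≤ j * j := by
      rcases lt_or_gt_of_ne hj with h | h <;> nlinarith
    have h2 : (0 : ℤ) ≤ (K : ℤ) := by positivity
    set M : ℤ := ((primorial K * (2 * K + 2) : ℕ) : ℤ) with hM
    have h3 : (2 * (K : ℤ) + 2) * (2 * (K : ℤ) + 2) ≤ M * M := by nlinarith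
    have h4 : M * M ≤ (j * j) * (M * M) := by nlinarith [mul_self_nonneg M]
    have h5 : j * M * (j * M) = (j * j) * (M * M) := by ring
    rw [h5]
    nlinarith

/-- A path of Gaussian primes in the strip `|Im z| ≤ W` with steps of length at most `D` which
starts on the left of the barrier point `j M` never gets more than `1` to the right of it. -/
theorem right_barrier (K : ℕ) (hK : 2 ≤ K) (D W : ℝ) (hKD : (|D| + 1) ^ 2 + W ^ 2 ≤ (K : ℝ))
    (z : ℕ → GaussianInt) (hirr : ∀ n, Irreducible (z n))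
    (hstep : ∀ n, (((z (n + 1)).re : ℝ) - (z n).re) ^ 2
      + (((z (n + 1)).im : ℝ) - (z n).im) ^ 2 ≤ D ^ 2)
    (him : ∀ n, ((z n).im : ℝ) ^ 2 ≤ W ^ 2) (j : ℤ) (hj : j ≠ 0)
    (h0 : (z 0).re ≤ j * ((primorial K * (2 * K + 2) : ℕ) : ℤ)) (n : ℕ) :
    (z n).re ≤ j * ((primorial K * (2 * K + 2) : ℕ) : ℤ) + 1 := by
  set M : ℤ := ((primorial K * (2 * K + 2) : ℕ) : ℤ) with hM
  set T : GaussianInt := ((j * M : ℤ) : GaussianInt) with hTdef
  obtain ⟨hTprime, hTbig⟩ := barrier_real K j hj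
  have hTre : T.re = j * M := by rw [hTdef]; simp
  have hTim : T.im = 0 := by rw [hTdef]; simp
  have hD1 : (|D| + 1) ^ 2 ≤ (K : ℝ) := by nlinarith [sq_nonneg W]
  have hDW : D ^ 2 + W ^ 2 ≤ (K : ℝ) := by
    have h1 : D ^ 2 = |D| ^ 2 := (sq_abs D).symm
    nlinarith [abs_nonneg D]
  by_cases hex : ∃ k, j * M ≤ (z k).re
  · classical
    set n₀ : ℕ := Nat.find hex with hn₀
    have hn1 : j * M ≤ (z n₀).re := Nat.find_spec hex
    -- the point `z n₀` is in the disc around `T`
    have hclose : (((z n₀).re : ℝ) - ((j * M : ℤ) : ℝ)) ^ 2 ≤ D ^ 2 := by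
      by_cases h00 : n₀ = 0
      · have h1 : (z n₀).re = j * M := by
          rw [h00] at hn1 ⊢
          exact le_antisymm h0 hn1
        rw [h1]
        simp only [sub_self, ne_eq, OfNat.ofNat_ne_zero, not_false_eq_true, zero_pow]
        exact sq_nonneg D
      · obtain ⟨m', hm'⟩ := Nat.exists_eq_succ_of_ne_zero h00
        have h1 : (z m').re < j * M := by
          have : ¬ j * M ≤ (z m').re :=
            Nat.find_min hex (by rw [← hn₀, hm']; exact Nat.lt_succ_self m')
          exact not_le.1 this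
        have hs := hstep m'
        rw [← Nat.succ_eq_add_one, ← hm'] at hs
        have h2 : (((z m').re : ℤ) : ℝ) < ((j * M : ℤ) : ℝ) := by exact_mod_cast h1
        have h3 : ((j * M : ℤ) : ℝ) ≤ (((z n₀).re : ℤ) : ℝ) := by exact_mod_cast hn1
        have h4 : (((z n₀).re : ℝ) - (z m').re) ^ 2 ≤ D ^ 2 := by
          nlinarith [sq_nonneg (((z n₀).im : ℝ) - (z m').im)]
        nlinarith
    have hin : (z n₀ - T).norm ≤ K := by
      have h1 : (((z n₀ - T).norm : ℤ) : ℝ) ≤ ((K : ℤ) : ℝ) := by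
        rw [Zsqrtd.norm_def]
        simp only [Zsqrtd.re_sub, Zsqrtd.im_sub, hTre, hTim]
        push_cast
        have h2 := him n₀
        push_cast at hclose
        nlinarith
      exact_mod_cast h1
    have htrap := trapped K hK D hD1 T hTprime hTbig z hirr hstep n₀ hin
    rcases lt_or_ge n n₀ with hlt | hge
    · have : ¬ j * M ≤ (z n).re := Nat.find_min hex (by rw [← hn₀]; exact hlt)
      omega
    · obtain ⟨i, rfl⟩ := Nat.exists_eq_add_of_le hge
      have h1 := re_near_of_norm_one _ _ (htrap i)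
      rw [hTre, abs_le] at h1
      omega
  · have h1 : ¬ j * M ≤ (z n).re := fun h => hex ⟨n, h⟩
    omega

/-- A path of Gaussian primes in the strip `|Im z| ≤ W` with steps of length at most `D` which
starts on the right of the barrier point `j M` never gets more than `1` to the left of it. -/
theorem left_barrier (K : ℕ) (hK : 2 ≤ K) (D W : ℝ) (hKD : (|D| + 1) ^ 2 + W ^ 2 ≤ (K : ℝ))
    (z : ℕ → GaussianInt) (hirr : ∀ n, Irreducible (z n))
    (hstep : ∀ n, (((z (n + 1)).re : ℝ) - (z n).re) ^ 2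
      + (((z (n + 1)).im : ℝ) - (z n).im) ^ 2 ≤ D ^ 2)
    (him : ∀ n, ((z n).im : ℝ) ^ 2 ≤ W ^ 2) (j : ℤ) (hj : j ≠ 0)
    (h0 : j * ((primorial K * (2 * K + 2) : ℕ) : ℤ) ≤ (z 0).re) (n : ℕ) :
    j * ((primorial K * (2 * K + 2) : ℕ) : ℤ) - 1 ≤ (z n).re := by
  have h := right_barrier K hK D W hKD (fun k => -z k) (fun k => Associated.irreducible ⟨-1, mul_neg_one (z k)⟩ (hirr k))
    (fun k => by
      have := hstep k
      simp only [Zsqrtd.re_neg, Zsqrtd.im_neg]
      push_cast
      nlinarith)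
    (fun k => by
      have := him k
      simp only [Zsqrtd.im_neg]
      push_cast
      nlinarith) (-j) (neg_ne_zero.2 hj)
    (by simp only [Zsqrtd.re_neg]; linarith) n
  simp only [Zsqrtd.re_neg] at h
  linarith

/-- Along a path of Gaussian primes in the strip `|Im z| ≤ W` with steps of length at most `D`,
the real parts stay within `2 ^ (3 K + 2)` of the real part of the first point, as soon as
`(|D| + 1) ^ 2 + W ^ 2 ≤ K`. -/
theorem strip_bound (K : ℕ) (hK : 2 ≤ K) (D W : ℝ) (hKD : (|D| + 1) ^ 2 + W ^ 2 ≤ (K : ℝ))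
    (z : ℕ → GaussianInt) (hirr : ∀ n, Irreducible (z n))
    (hstep : ∀ n, (((z (n + 1)).re : ℝ) - (z n).re) ^ 2
      + (((z (n + 1)).im : ℝ) - (z n).im) ^ 2 ≤ D ^ 2)
    (him : ∀ n, ((z n).im : ℝ) ^ 2 ≤ W ^ 2) (n : ℕ) :
    |(z n).re - (z 0).re| ≤ 2 ^ (3 * K + 2) := by
  set M : ℤ := ((primorial K * (2 * K + 2) : ℕ) : ℤ) with hM
  have hMpos : 0 < M := by
    have hP0 : 0 < primorial K := primorial_pos K
    have : 0 < primorial K * (2 * K + 2) := Nat.mul_pos hP0 (by omega)
    rw [hM]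
    exact_mod_cast this
  have hMlt : M < 2 ^ (3 * K + 1) := by
    have h1 : primorial K ≤ 4 ^ K := primorial_le_four_pow K
    have hP0 : 0 < primorial K := primorial_pos K
    have h2 : 2 * K + 2 < 2 ^ (K + 1) := by
      obtain ⟨k, rfl⟩ : ∃ k, K = k + 2 := ⟨K - 2, by omega⟩
      have h3 : k < 2 ^ k := Nat.lt_two_pow_self
      have h4 : 2 ^ (k + 2 + 1) = 8 * 2 ^ k := by
        rw [pow_add, pow_add]
        ring
      rw [h4]
      omega
    have h5 : primorial K * (2 * K + 2) < 4 ^ K * 2 ^ (K + 1) :=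
      calc primorial K * (2 * K + 2) < primorial K * 2 ^ (K + 1) :=
            Nat.mul_lt_mul_of_pos_left h2 hP0
        _ ≤ 4 ^ K * 2 ^ (K + 1) := Nat.mul_le_mul_right _ h1
    have h6 : 4 ^ K * 2 ^ (K + 1) = 2 ^ (3 * K + 1) := by
      have h4 : (4 : ℕ) ^ K = 2 ^ (2 * K) := by
        rw [pow_mul]
        norm_num
      rw [h4, ← pow_add]
      congr 1
      ring
    rw [h6] at h5
    rw [hM]
    exact_mod_cast h5
  set x₀ : ℤ := (z 0).re with hx₀
  have hdiv : x₀ % M + M * (x₀ / M) = x₀ := Int.emod_add_mul_ediv x₀ M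
  have hmod0 : 0 ≤ x₀ % M := Int.emod_nonneg _ hMpos.ne'
  have hmod1 : x₀ % M < M := Int.emod_lt_of_pos _ hMpos
  -- a barrier point on the right, at most `2 M` away
  obtain ⟨jr, hjr0, hjr1, hjr2⟩ : ∃ j : ℤ, j ≠ 0 ∧ x₀ ≤ j * M ∧ j * M ≤ x₀ + 2 * M := by
    by_cases h : x₀ / M + 1 = 0
    · refine ⟨1, one_ne_zero, ?_, ?_⟩
      · have : x₀ / M = -1 := by omega
        rw [this] at hdiv
        linarith
      · have : x₀ / M = -1 := by omega
        rw [this] at hdiv
        linarith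
    · refine ⟨x₀ / M + 1, h, ?_, ?_⟩
      · nlinarith
      · nlinarith
  -- a barrier point on the left, at most `2 M` away
  obtain ⟨jl, hjl0, hjl1, hjl2⟩ : ∃ j : ℤ, j ≠ 0 ∧ j * M ≤ x₀ ∧ x₀ - 2 * M ≤ j * M := by
    by_cases h : x₀ / M = 0
    · refine ⟨-1, by norm_num, ?_, ?_⟩
      · rw [h] at hdiv
        linarith
      · rw [h] at hdiv
        linarith
    · refine ⟨x₀ / M, h, ?_, ?_⟩
      · nlinarith
      · nlinarith
  have hr := right_barrier K hK D W hKD z hirr hstep him jr hjr0 hjr1 n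
  have hl := left_barrier K hK D W hKD z hirr hstep him jl hjl0 hjl1 n
  have hpow : (2 : ℤ) ^ (3 * K + 2) = 2 * 2 ^ (3 * K + 1) := by
    rw [show 3 * K + 2 = (3 * K + 1) + 1 by ring, pow_succ]
    ring
  rw [abs_le, hpow]
  constructor
  · linarith
  · linarith

/-- The same bound without the assumption `2 ≤ K`: for `K ≤ 1` the hypothesis forces `D = 0`,
and the path is constant. -/
theorem strip_bound' (K : ℕ) (D W : ℝ) (hKD : (|D| + 1) ^ 2 + W ^ 2 ≤ (K : ℝ))
    (z : ℕ → GaussianInt) (hirr : ∀ n, Irreducible (z n))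
    (hstep : ∀ n, (((z (n + 1)).re : ℝ) - (z n).re) ^ 2
      + (((z (n + 1)).im : ℝ) - (z n).im) ^ 2 ≤ D ^ 2)
    (him : ∀ n, ((z n).im : ℝ) ^ 2 ≤ W ^ 2) (n : ℕ) :
    |(z n).re - (z 0).re| ≤ 2 ^ (3 * K + 2) := by
  by_cases hK : 2 ≤ K
  · exact strip_bound K hK D W hKD z hirr hstep him n
  · have hK1 : (K : ℝ) ≤ 1 := by
      have : K ≤ 1 := by omega
      exact_mod_cast this
    have hD0 : |D| = 0 := by
      have h1 : 0 ≤ |D| := abs_nonneg D
      nlinarith [sq_nonneg W]
    have hD : D = 0 := abs_eq_zero.1 hD0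
    have hconst : ∀ k, (z k).re = (z 0).re := by
      intro k
      induction k with
      | zero => rfl
      | succ k ih =>
        have hs := hstep k
        rw [hD] at hs
        have h2 : (((z (k + 1)).re : ℝ) - (z k).re) ^ 2 ≤ 0 := by
          nlinarith [sq_nonneg (((z (k + 1)).im : ℝ) - (z k).im)]
        have h3 : ((z (k + 1)).re : ℝ) - (z k).re = 0 := by
          have h4 := sq_nonneg (((z (k + 1)).re : ℝ) - (z k).re)
          exact pow_eq_zero_iff (two_ne_zero) |>.1 (le_antisymm h2 h4)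
        have h5 : ((z (k + 1)).re : ℝ) = ((z k).re : ℝ) := by linarith
        have h6 : (z (k + 1)).re = (z k).re := by exact_mod_cast h5
        rw [h6, ih]
    rw [hconst n, sub_self, abs_zero]
    positivity

end Vale.Agent.Lib.Helper5.P015Effective
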