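import Mathlib
import Vale.Agent.Lib.Helper5.P015Effective

/-!
Gaussian primes near the graph of an expanding function.

Let `f : ℝ → ℝ` satisfy `f s - f t ≥ s - t` for `s ≥ t ≥ t0`, and suppose that for every `K`
there are barrier points (Gaussian integers divisible by every rational prime `p ≤ K`) at
bounded vertical distance from the graph of `f`, arbitrarily far to the right.  Then an
infinite sequence of distinct Gaussian primes with steps of bounded length cannot stay within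
bounded distance of the half-graph `{(t, f t) : t ≥ 0}`: its ordinates are unbounded, and when
they pass the height of a barrier point the sequence is trapped next to that point.
-/

open scoped GaussianInt

namespace Vale.Agent.Lib.Helper5.P015Curve

open Vale.Agent.Lib.Helper5.P015Moat Vale.Agent.Lib.Helper5.P015LogMoat
open Vale.Agent.Lib.Helper5.P015Effective

/-- Only finitely many Gaussian integers are neighbours of `T`. -/
theorem finite_near (T : GaussianInt) : {w : GaussianInt | (w - T).norm = 1}.Finite := by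
  have h := finite_norm_le 1
  have hsub : {w : GaussianInt | (w - T).norm = 1}
      ⊆ (fun u => u + T) '' {u : GaussianInt | ((u.norm : ℤ) : ℝ) ≤ 1} := by
    intro w hw
    refine ⟨w - T, ?_, by ring⟩
    show (((w - T).norm : ℤ) : ℝ) ≤ 1
    have h1 : (w - T).norm = 1 := hw
    rw [h1]
    norm_num
  exact (h.image _).subset hsub

/-- A point within `W` of `(t, ft)` has both coordinates within `W`. -/
theorem near_abs (x y t ft W : ℝ) (hW : 0 ≤ W) (h : (x - t) ^ 2 + (y - ft) ^ 2 ≤ W ^ 2) :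
    |x - t| ≤ W ∧ |y - ft| ≤ W :=
  ⟨abs_le_of_sq_le_sq (by nlinarith [sq_nonneg (y - ft)]) hW,
    abs_le_of_sq_le_sq (by nlinarith [sq_nonneg (x - t)]) hW⟩

/-- The ordinates of the sequence are unbounded above. -/
theorem unbounded_im (f : ℝ → ℝ) (t0 Flow : ℝ)
    (hE : ∀ s t, t0 ≤ t → t ≤ s → s - t ≤ f s - f t)
    (hFlow : ∀ t, 0 ≤ t → Flow ≤ f t)
    (W : ℝ) (hW : 0 ≤ W) (z : ℕ → GaussianInt) (hinj : Function.Injective z)
    (hnear : ∀ n, ∃ t : ℝ, 0 ≤ t ∧
      (((z n).re : ℝ) - t) ^ 2 + (((z n).im : ℝ) - f t) ^ 2 ≤ W ^ 2) (Y : ℝ) :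
    ∃ n, Y < ((z n).im : ℝ) := by
  by_contra hcon
  have hY : ∀ n, ((z n).im : ℝ) ≤ Y := fun n => not_lt.1 (fun h => hcon ⟨n, h⟩)
  have hbound : ∀ n, (((z n).norm : ℤ) : ℝ)
      ≤ (|t0| + |Y| + W + |f t0| + 1 + W) ^ 2 + (|Y| + |Flow| + W) ^ 2 := by
    intro n
    obtain ⟨t, ht0, hnr⟩ := hnear n
    obtain ⟨h1, h2⟩ := near_abs _ _ _ _ W hW hnr
    rw [abs_le] at h1 h2
    have a1 := le_abs_self t0
    have a2 := abs_nonneg Y
    have a3 := abs_nonneg (f t0)
    have a4 := le_abs_self Y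
    have a5 := neg_abs_le (f t0)
    have a6 := neg_abs_le Flow
    have a7 := abs_nonneg Flow
    have a8 := abs_nonneg t0
    have ht : t ≤ |t0| + |Y| + W + |f t0| + 1 := by
      by_cases h : t ≤ t0
      · linarith
      · have h3 := hE t t0 le_rfl (le_of_not_ge h)
        have h4 := hY n
        linarith
    have hx1 : -(|t0| + |Y| + W + |f t0| + 1 + W) ≤ ((z n).re : ℝ) := by linarith
    have hx2 : ((z n).re : ℝ) ≤ |t0| + |Y| + W + |f t0| + 1 + W := by linarith
    have hy1 : -(|Y| + |Flow| + W) ≤ ((z n).im : ℝ) := by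
      have := hFlow t ht0
      linarith
    have hy2 : ((z n).im : ℝ) ≤ |Y| + |Flow| + W := by
      have := hY n
      linarith
    have hx3 : ((z n).re : ℝ) ^ 2 ≤ (|t0| + |Y| + W + |f t0| + 1 + W) ^ 2 := sq_le_sq' hx1 hx2
    have hy3 : ((z n).im : ℝ) ^ 2 ≤ (|Y| + |Flow| + W) ^ 2 := sq_le_sq' hy1 hy2
    have e : (((z n).norm : ℤ) : ℝ) = ((z n).re : ℝ) ^ 2 + ((z n).im : ℝ) ^ 2 := by
      rw [Zsqrtd.norm_def]
      push_cast
      ring
    rw [e]
    linarith
  have hsub : Set.range z ⊆ {w : GaussianInt | ((w.norm : ℤ) : ℝ)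
      ≤ (|t0| + |Y| + W + |f t0| + 1 + W) ^ 2 + (|Y| + |Flow| + W) ^ 2} := by
    rintro w ⟨n, rfl⟩
    exact hbound n
  exact (Set.infinite_range_of_injective hinj) ((finite_norm_le _).subset hsub)

/-- Real arithmetic for the crossing: the point of the sequence whose ordinate first passes
the height `fτ` of the barrier lies in the disc around the barrier point `(τ, Ti)`. -/
theorem crossing_arith (x y t ft τ fτ Ti D W c : ℝ) (_hW : 0 ≤ W) (hD : 0 ≤ D)
    (h1 : |x - t| ≤ W) (h2 : |y - ft| ≤ W) (hy1 : fτ ≤ y) (hy2 : y ≤ fτ + D)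
    (hexp : |t - τ| ≤ |ft - fτ|) (hc : |Ti - fτ| ≤ c) :
    (x - τ) ^ 2 + (y - Ti) ^ 2 ≤ (2 * W + D) ^ 2 + (D + c) ^ 2 := by
  rw [abs_le] at h1 h2 hc
  have h3 : |ft - fτ| ≤ W + D := by
    rw [abs_le]
    constructor <;> linarith
  have h4 : |t - τ| ≤ W + D := hexp.trans h3
  rw [abs_le] at h4
  have hx : (x - τ) ^ 2 ≤ (2 * W + D) ^ 2 := sq_le_sq' (by linarith) (by linarith)
  have hy : (y - Ti) ^ 2 ≤ (D + c) ^ 2 := sq_le_sq' (by linarith) (by linarith)
  linarith

/-- The core: no infinite sequence of distinct Gaussian primes with bounded steps stays within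
bounded distance of the half-graph of an expanding function with barrier points. -/
theorem core (f : ℝ → ℝ) (t0 F0 Flow c : ℝ)
    (hE : ∀ s t, t0 ≤ t → t ≤ s → s - t ≤ f s - f t)
    (hF0 : ∀ t, 0 ≤ t → t ≤ t0 → f t ≤ F0)
    (hFlow : ∀ t, 0 ≤ t → Flow ≤ f t)
    (hbar : ∀ K : ℕ, ∀ B : ℝ, ∃ T : GaussianInt,
      (∀ p : ℕ, p.Prime → p ≤ K → ((p : ℕ) : GaussianInt) ∣ T) ∧
      2 * (K : ℤ) ^ 2 + 2 * K + 2 ≤ T.norm ∧ B ≤ (T.re : ℝ) ∧ |(T.im : ℝ) - f T.re| ≤ c)
    (D W : ℝ) (hD : 0 ≤ D) (hW : 0 ≤ W) (z : ℕ → GaussianInt) (hinj : Function.Injective z)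
    (hirr : ∀ n, Irreducible (z n))
    (hstep : ∀ n, (((z (n + 1)).re : ℝ) - (z n).re) ^ 2
      + (((z (n + 1)).im : ℝ) - (z n).im) ^ 2 ≤ D ^ 2)
    (hnear : ∀ n, ∃ t : ℝ, 0 ≤ t ∧
      (((z n).re : ℝ) - t) ^ 2 + (((z n).im : ℝ) - f t) ^ 2 ≤ W ^ 2) : False := by
  have hunb := unbounded_im f t0 Flow hE hFlow W hW z hinj hnear
  -- the size of the barrier
  obtain ⟨K, hK⟩ := exists_nat_ge ((D + 1) ^ 2 + (2 * W + D) ^ 2 + (D + |c|) ^ 2 + 2)
  have hK2 : 2 ≤ K := by
    have h1 : (2 : ℝ) ≤ (K : ℝ) := by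
      nlinarith [sq_nonneg (D + 1), sq_nonneg (2 * W + D), sq_nonneg (D + |c|)]
    exact_mod_cast h1
  have hKD : (|D| + 1) ^ 2 ≤ (K : ℝ) := by
    rw [abs_of_nonneg hD]
    nlinarith [sq_nonneg (2 * W + D), sq_nonneg (D + |c|)]
  obtain ⟨T, hTprime, hTbig, hTre, hTim⟩ := hbar K
    (|t0| + |((z 0).im : ℝ)| + |F0| + W + |f t0| + 1)
  have hc0 : 0 ≤ c := le_trans (abs_nonneg _) hTim
  have hτ0 : t0 ≤ (T.re : ℝ) := by
    have a1 := le_abs_self t0
    have a2 := abs_nonneg ((z 0).im : ℝ)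
    have a3 := abs_nonneg F0
    have a4 := abs_nonneg (f t0)
    linarith
  have hfτ : |t0| + |((z 0).im : ℝ)| + |F0| + W + |f t0| + 1 - t0 + f t0 ≤ f T.re := by
    have := hE T.re t0 le_rfl hτ0
    linarith
  have hfτ1 : ((z 0).im : ℝ) < f T.re := by
    have a1 := le_abs_self t0
    have a2 := le_abs_self ((z 0).im : ℝ)
    have a3 := abs_nonneg F0
    have a4 := neg_abs_le (f t0)
    linarith
  have hfτ2 : F0 + W < f T.re := by
    have a1 := le_abs_self t0
    have a2 := abs_nonneg ((z 0).im : ℝ)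
    have a3 := le_abs_self F0
    have a4 := neg_abs_le (f t0)
    linarith
  -- the first index at which the ordinate passes the height of the barrier
  have hex : ∃ n, f T.re ≤ ((z n).im : ℝ) := by
    obtain ⟨n, hn⟩ := hunb (f T.re)
    exact ⟨n, hn.le⟩
  classical
  set n₀ : ℕ := Nat.find hex with hn₀
  have hn1 : f T.re ≤ ((z n₀).im : ℝ) := Nat.find_spec hex
  have h00 : n₀ ≠ 0 := by
    intro h
    rw [h] at hn1
    linarith
  obtain ⟨m', hm'⟩ := Nat.exists_eq_succ_of_ne_zero h00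
  have hprev : ((z m').im : ℝ) < f T.re := by
    have : ¬ f T.re ≤ ((z m').im : ℝ) :=
      Nat.find_min hex (by rw [← hn₀, hm']; exact Nat.lt_succ_self m')
    exact not_le.1 this
  have hs := hstep m'
  rw [← Nat.succ_eq_add_one, ← hm'] at hs
  have hdy : |((z n₀).im : ℝ) - (z m').im| ≤ D :=
    abs_le_of_sq_le_sq (by nlinarith [sq_nonneg (((z n₀).re : ℝ) - (z m').re)]) hD
  rw [abs_le] at hdy
  have hn2 : ((z n₀).im : ℝ) ≤ f T.re + D := by linarith
  obtain ⟨t, ht0, hnr⟩ := hnear n₀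
  obtain ⟨h1, h2⟩ := near_abs _ _ _ _ W hW hnr
  have htt0 : t0 ≤ t := by
    by_contra h
    have h3 := hF0 t ht0 (le_of_not_ge h)
    rw [abs_le] at h2
    linarith
  have hexp : |t - (T.re : ℝ)| ≤ |f t - f T.re| := by
    rcases le_total t (T.re : ℝ) with hle | hle
    · have h3 := hE T.re t htt0 hle
      rw [abs_of_nonpos (by linarith), abs_of_nonpos (by linarith)]
      linarith
    · have h3 := hE t T.re hτ0 hle
      rw [abs_of_nonneg (by linarith), abs_of_nonneg (by linarith)]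
      linarith
  have hdisc := crossing_arith _ _ t (f t) (T.re : ℝ) (f T.re) (T.im : ℝ) D W c hW hD h1 h2 hn1
    hn2 hexp hTim
  have hin : (z n₀ - T).norm ≤ K := by
    have h3 : (((z n₀ - T).norm : ℤ) : ℝ) ≤ ((K : ℤ) : ℝ) := by
      have e : (((z n₀ - T).norm : ℤ) : ℝ)
          = (((z n₀).re : ℝ) - T.re) ^ 2 + (((z n₀).im : ℝ) - T.im) ^ 2 := by
        rw [Zsqrtd.norm_def]
        simp only [Zsqrtd.re_sub, Zsqrtd.im_sub]
        push_cast
        ring
      rw [e]
      have h4 : (D + c) ^ 2 = (D + |c|) ^ 2 := by rw [abs_of_nonneg hc0]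
      push_cast
      nlinarith [sq_nonneg (D + 1)]
    exact_mod_cast h3
  have htrap := trapped K hK2 D hKD T hTprime hTbig z hirr hstep n₀ hin
  have hinj' : Function.Injective (fun i => z (n₀ + i)) := by
    intro i j h
    have := hinj h
    omega
  have hsub : Set.range (fun i => z (n₀ + i)) ⊆ {w : GaussianInt | (w - T).norm = 1} := by
    rintro w ⟨i, rfl⟩
    exact htrap i
  exact (Set.infinite_range_of_injective hinj') ((finite_near T).subset hsub)

end Vale.Agent.Lib.Helper5.P015Curve
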