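import Mathlib
import Vale.Agent.Lib.Helper5.P015Curve

/-!
Gaussian primes near the graph of an integer polynomial.

For a polynomial `p` with integer coefficients, positive leading coefficient and degree at least
`1`, the function `t ↦ p t` is expanding for large `t`, and the points
`(j M, p (j M) - p 0)` with `M = K# (2 K + 2)` are barrier points at vertical distance `|p 0|`
from the graph.  Hence `P015Curve.core` applies to the half-graph `{(t, p t) : t ≥ 0}`.
-/

open scoped GaussianInt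
open Polynomial

namespace Vale.Agent.Lib.Helper5.P015CurvePoly

open Vale.Agent.Lib.Helper5.P015Moat Vale.Agent.Lib.Helper5.P015LogMoat
open Vale.Agent.Lib.Helper5.P015Effective Vale.Agent.Lib.Helper5.P015Curve

/-- The derivative of a real polynomial of positive degree whose leading coefficient is at
least `1` is eventually at least `1`. -/
theorem deriv_ge_one (P : Polynomial ℝ) (hdeg : 1 ≤ P.natDegree) (hlc : 1 ≤ P.leadingCoeff) :
    ∃ t0 : ℝ, 0 ≤ t0 ∧ ∀ x, t0 ≤ x → 1 ≤ (derivative P).eval x := by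
  rcases Nat.lt_or_ge P.natDegree 2 with h2 | h2
  · -- degree one: the derivative is the constant leading coefficient
    have h1 : P.natDegree = 1 := by omega
    refine ⟨0, le_rfl, fun x _ => ?_⟩
    have hP : P = C (P.coeff 1) * X + C (P.coeff 0) :=
      eq_X_add_C_of_natDegree_le_one (by omega)
    have hl : P.leadingCoeff = P.coeff 1 := by
      rw [leadingCoeff, h1]
    have hd : derivative P = C (P.coeff 1) := by
      conv_lhs => rw [hP]
      simp
    rw [hd, eval_C, ← hl]
    exact hlc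
  · -- degree at least two: the derivative tends to infinity
    have hdeg' : 0 < (derivative P).degree := by
      rw [degree_derivative (by omega)]
      have : 0 < P.natDegree - 1 := by omega
      exact_mod_cast this
    have hlc' : 0 ≤ (derivative P).leadingCoeff := by
      rw [leadingCoeff_derivative]
      have : (0 : ℝ) ≤ (P.natDegree : ℝ) := Nat.cast_nonneg _
      nlinarith
    have ht := tendsto_atTop_of_leadingCoeff_nonneg (derivative P) hdeg' hlc'
    have hev := ht.eventually_ge_atTop 1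
    rw [Filter.eventually_atTop] at hev
    obtain ⟨a, ha⟩ := hev
    exact ⟨max a 0, le_max_right _ _, fun x hx => ha x (le_trans (le_max_left _ _) hx)⟩

/-- A real polynomial of positive degree whose leading coefficient is at least `1` is expanding
on a half-line. -/
theorem expanding (P : Polynomial ℝ) (hdeg : 1 ≤ P.natDegree) (hlc : 1 ≤ P.leadingCoeff) :
    ∃ t0 : ℝ, 0 ≤ t0 ∧ ∀ s t, t0 ≤ t → t ≤ s → s - t ≤ P.eval s - P.eval t := by
  obtain ⟨t0, ht0, hder⟩ := deriv_ge_one P hdeg hlc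
  refine ⟨t0, ht0, ?_⟩
  have hmono : MonotoneOn (fun x => (P - X).eval x) (Set.Ici t0) := by
    apply monotoneOn_of_deriv_nonneg (convex_Ici t0)
    · exact (P - X).continuous.continuousOn
    · exact (P - X).differentiable.differentiableOn
    · intro x hx
      rw [interior_Ici] at hx
      rw [Polynomial.deriv]
      simp only [derivative_sub, derivative_X, eval_sub, eval_one]
      have := hder x (le_of_lt hx)
      linarith
  intro s t ht hts
  have h := hmono (Set.mem_Ici.2 ht) (Set.mem_Ici.2 (le_trans ht hts)) hts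
  simp only [eval_sub, eval_X] at h
  linarith

/-- The barrier points next to the graph of an integer polynomial. -/
theorem barrier_poly (p : Polynomial ℤ) (K : ℕ) (B : ℝ) :
    ∃ T : GaussianInt, (∀ q : ℕ, q.Prime → q ≤ K → ((q : ℕ) : GaussianInt) ∣ T) ∧
      2 * (K : ℤ) ^ 2 + 2 * K + 2 ≤ T.norm ∧ B ≤ (T.re : ℝ) ∧
      |(T.im : ℝ) - (p.map (Int.castRingHom ℝ)).eval (T.re : ℝ)| ≤ |((p.eval 0 : ℤ) : ℝ)| := by
  obtain ⟨j, hj⟩ := exists_nat_ge (|B| + 1)
  have hj1 : 1 ≤ j := by
    have h1 : (1 : ℝ) ≤ (j : ℝ) := by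
      have := abs_nonneg B
      linarith
    exact_mod_cast h1
  have hP0 : 0 < primorial K := primorial_pos K
  have hMK : 2 * K + 2 ≤ primorial K * (2 * K + 2) := Nat.le_mul_of_pos_left _ hP0
  set M : ℤ := ((primorial K * (2 * K + 2) : ℕ) : ℤ) with hM
  have hMK' : 2 * (K : ℤ) + 2 ≤ M := by
    rw [hM]
    exact_mod_cast hMK
  have hK0 : (0 : ℤ) ≤ (K : ℤ) := by positivity
  have hj1' : (1 : ℤ) ≤ (j : ℤ) := by exact_mod_cast hj1
  refine ⟨⟨(j : ℤ) * M, p.eval ((j : ℤ) * M) - p.eval 0⟩, ?_, ?_, ?_, ?_⟩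
  · intro q hq hqK
    have h1 : q ∣ primorial K * (2 * K + 2) := Dvd.dvd.mul_right (hq.dvd_primorial_iff.2 hqK) _
    have h2 : ((q : ℕ) : ℤ) ∣ M := by
      rw [hM]
      exact Int.natCast_dvd_natCast.2 h1
    have h3 : ((q : ℕ) : ℤ) ∣ (j : ℤ) * M := Dvd.dvd.mul_left h2 _
    have h4 : (j : ℤ) * M ∣ p.eval ((j : ℤ) * M) - p.eval 0 := by
      have := sub_dvd_eval_sub ((j : ℤ) * M) 0 p
      rwa [sub_zero] at this
    have h5 := (Zsqrtd.intCast_dvd (d := -1) ((q : ℕ) : ℤ)
      ⟨(j : ℤ) * M, p.eval ((j : ℤ) * M) - p.eval 0⟩).2 ⟨h3, h3.trans h4⟩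
    simpa using h5
  · rw [Zsqrtd.norm_def]
    simp only
    have h1 : M ≤ (j : ℤ) * M := by nlinarith
    nlinarith [mul_self_nonneg (p.eval ((j : ℤ) * M) - p.eval 0)]
  · simp only
    have h1 : ((2 : ℤ) : ℝ) ≤ ((M : ℤ) : ℝ) := by
      have : (2 : ℤ) ≤ M := by linarith
      exact_mod_cast this
    have h2 := le_abs_self B
    have h3 : (1 : ℝ) ≤ (j : ℝ) := by exact_mod_cast hj1
    push_cast at h1 ⊢
    nlinarith
  · simp only
    have h1 : ∀ i : ℤ, (p.map (Int.castRingHom ℝ)).eval (i : ℝ) = ((p.eval i : ℤ) : ℝ) := by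
      intro i
      rw [Polynomial.eval_intCast_map]
      simp
    rw [h1]
    have h2 : (((p.eval ((j : ℤ) * M) - p.eval 0 : ℤ)) : ℝ) - ((p.eval ((j : ℤ) * M) : ℤ) : ℝ)
        = -((p.eval 0 : ℤ) : ℝ) := by
      push_cast
      ring
    rw [h2, abs_neg]

/-- An infinite sequence of distinct Gaussian primes with bounded steps cannot stay within
bounded distance of the half-graph `{(t, p t) : t ≥ 0}` of an integer polynomial of degree at
least `1` with positive leading coefficient. -/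
theorem leaves_half_graph (p : Polynomial ℤ) (hdeg : 1 ≤ p.natDegree) (hlc : 0 < p.leadingCoeff)
    (D W : ℝ) (z : ℕ → GaussianInt) (hinj : Function.Injective z)
    (hirr : ∀ n, Irreducible (z n))
    (hstep : ∀ n, (((z (n + 1)).re : ℝ) - (z n).re) ^ 2
      + (((z (n + 1)).im : ℝ) - (z n).im) ^ 2 ≤ D ^ 2) :
    ∃ n, ∀ t : ℝ, 0 ≤ t →
      W ^ 2 < (((z n).re : ℝ) - t) ^ 2 + (((z n).im : ℝ) - Polynomial.aeval t p) ^ 2 := by
  by_contra hcon
  have hinjc : Function.Injective (Int.castRingHom ℝ) := Int.cast_injective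
  set P : Polynomial ℝ := p.map (Int.castRingHom ℝ) with hP
  have hPdeg : 1 ≤ P.natDegree := by
    rw [hP, natDegree_map_eq_of_injective hinjc]
    exact hdeg
  have hPlc : 1 ≤ P.leadingCoeff := by
    rw [hP, leadingCoeff_map_of_injective hinjc, eq_intCast]
    have : (1 : ℤ) ≤ p.leadingCoeff := hlc
    exact_mod_cast this
  have haeval : ∀ t : ℝ, Polynomial.aeval t p = P.eval t := by
    intro t
    rw [hP, aeval_def, eval_map, algebraMap_int_eq]
  obtain ⟨t0, ht0, hE⟩ := expanding P hPdeg hPlc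
  obtain ⟨F0, hF0⟩ := (isCompact_Icc (a := (0 : ℝ)) (b := t0)).bddAbove_image
    P.continuous.continuousOn
  obtain ⟨L0, hL0⟩ := (isCompact_Icc (a := (0 : ℝ)) (b := t0)).bddBelow_image
    P.continuous.continuousOn
  have hF0' : ∀ t, 0 ≤ t → t ≤ t0 → P.eval t ≤ F0 :=
    fun t h1 h2 => hF0 ⟨t, ⟨h1, h2⟩, rfl⟩
  have hFlow : ∀ t, 0 ≤ t → min L0 (P.eval t0) ≤ P.eval t := by
    intro t h1
    rcases le_total t t0 with h2 | h2
    · exact (min_le_left _ _).trans (hL0 ⟨t, ⟨h1, h2⟩, rfl⟩)
    · have := hE t t0 le_rfl h2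
      exact (min_le_right _ _).trans (by linarith)
  have hnear : ∀ n, ∃ t : ℝ, 0 ≤ t ∧
      (((z n).re : ℝ) - t) ^ 2 + (((z n).im : ℝ) - P.eval t) ^ 2 ≤ |W| ^ 2 := by
    intro n
    by_contra h
    apply hcon
    refine ⟨n, fun t ht => ?_⟩
    by_contra h'
    apply h
    refine ⟨t, ht, ?_⟩
    rw [sq_abs, ← haeval t]
    exact not_lt.1 h'
  have hstep' : ∀ n, (((z (n + 1)).re : ℝ) - (z n).re) ^ 2
      + (((z (n + 1)).im : ℝ) - (z n).im) ^ 2 ≤ |D| ^ 2 := by
    intro n
    rw [sq_abs]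
    exact hstep n
  exact core (fun t => P.eval t) t0 F0 (min L0 (P.eval t0)) |((p.eval 0 : ℤ) : ℝ)| hE hF0' hFlow
    (fun K B => barrier_poly p K B) |D| |W| (abs_nonneg D) (abs_nonneg W) z hinj hirr hstep' hnear

end Vale.Agent.Lib.Helper5.P015CurvePoly
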