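import Mathlib
import Vale.Agent.Lib.Helper5.P015LogMoat

/-!
Gaussian primes near a straight line: paths with slowly growing steps.

The argument of `P015LogMoat` also works when the steps of the path are not bounded but are
allowed to grow with the distance from the origin: `|z (n + 1) - z n| ^ 2 ≤ D ^ 2 +
(1 / 32) log (1 + |z n| ^ 2)`.  Such a path cannot stay in the region
`dist(z, ℓ) ^ 2 ≤ W ^ 2 + (1 / 32) log (1 + |z| ^ 2)` around a straight line `ℓ` either.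
-/

open scoped GaussianInt
open Nat

namespace Vale.Agent.Lib.Helper5.P015GrowMoat

open Vale.Agent.Lib.Helper5.P015Moat Vale.Agent.Lib.Helper5.P015LogMoat

/-- A sequence of distinct Gaussian primes never enters the disc `N(z - T) ≤ K`, if every
rational prime `p ≤ K` divides `T`, `T` is far from the origin, and every step from a neighbour
of `T` stays inside the disc. -/
theorem avoids_disc' (K : ℕ) (hK : 2 ≤ K) (T : GaussianInt)
    (hT : ∀ p : ℕ, p.Prime → p ≤ K → ((p : ℕ) : GaussianInt) ∣ T)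
    (hTbig : 2 * (K : ℤ) ^ 2 + 2 * K + 2 ≤ T.norm)
    (z : ℕ → GaussianInt) (hinj : Function.Injective z) (hirr : ∀ n, Irreducible (z n))
    (hnear : ∀ n, (z n - T).norm = 1 → (z (n + 1) - T).norm ≤ K) (m : ℕ) :
    (K : ℤ) < (z m - T).norm := by
  by_contra hcon
  rw [not_lt] at hcon
  -- every Gaussian prime in the disc is a neighbour of `T`
  have key : ∀ n, (z n - T).norm ≤ K → (z n - T).norm = 1 := by
    intro n hn
    have hnn : 0 ≤ (z n - T).norm := GaussianInt.norm_nonneg _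
    have hbig : (K : ℤ) ^ 2 < (z n).norm := by
      have h1 : T.norm ≤ 2 * (z n).norm + 2 * (z n - T).norm := by
        rw [Zsqrtd.norm_def, Zsqrtd.norm_def, Zsqrtd.norm_def]
        simp only [Zsqrtd.re_sub, Zsqrtd.im_sub]
        nlinarith [sq_nonneg (2 * (z n).re - T.re), sq_nonneg (2 * (z n).im - T.im)]
      linarith
    by_contra h1
    have h2 : (z n - T).norm = 0 ∨ (2 ≤ (z n - T).norm ∧ (z n - T).norm ≤ K) := by omega
    exact not_irreducible_near' K hK T (z n) hT hbig h2 (hirr n)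
  -- from `z m` on, the sequence stays among the neighbours of `T`
  have hall : ∀ j, (z (m + j) - T).norm = 1 := by
    intro j
    induction j with
    | zero => exact key m hcon
    | succ j ih => exact key _ (hnear _ ih)
  -- contradiction with injectivity
  have hsub : Set.range (fun j => z (m + j) - T) ⊆ {w : GaussianInt | ((w.norm : ℤ) : ℝ) ≤ 1} := by
    rintro w ⟨j, rfl⟩
    rw [Set.mem_ofPred_eq]
    have := hall j
    simp only at this ⊢
    rw [this]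
    norm_num
  have hinj' : Function.Injective (fun j => z (m + j) - T) := by
    intro j1 j2 h
    have h1 : z (m + j1) = z (m + j2) := by simpa using h
    have h2 := hinj h1
    omega
  exact (Set.infinite_range_of_injective hinj') ((finite_norm_le 1).subset hsub)

/-- A step from a neighbour of the barrier point stays in the disc. -/
theorem near_unit_arith (u v dx dy D L LT logC K : ℝ) (huv : u ^ 2 + v ^ 2 = 1)
    (hstep : dx ^ 2 + dy ^ 2 ≤ D ^ 2 + (1 / 32) * L) (hL : L ≤ LT + 2)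
    (hLT : LT ≤ logC + (12 * K + 4) * (7 / 10))
    (hK : 3 * (2 + 2 * D ^ 2 + (logC + 24 / 5) / 16) ≤ K) (hK0 : 0 ≤ K) :
    (u + dx) ^ 2 + (v + dy) ^ 2 ≤ K := by
  have h1 : (u + dx) ^ 2 + (v + dy) ^ 2 ≤ 2 * (u ^ 2 + v ^ 2) + 2 * (dx ^ 2 + dy ^ 2) := by
    nlinarith [sq_nonneg (u - dx), sq_nonneg (v - dy)]
  linarith

/-- The logarithm at a point next to the barrier point. -/
theorem log_near (Nn NT X : ℝ) (hNn : 0 ≤ Nn) (hNT : 0 ≤ NT) (hX : 0 ≤ X)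
    (h : Nn ≤ 2 * NT + 2 * X) :
    Real.log (1 + Nn) ≤ Real.log (1 + 2 * NT) + 2 * X := by
  have h1 : 1 + Nn ≤ (1 + 2 * NT) * (1 + 2 * X) := by nlinarith [mul_nonneg hNT hX]
  have h2 := Real.log_le_log (by linarith) h1
  rw [Real.log_mul (by linarith) (by linarith)] at h2
  have h3 := Real.log_le_sub_one_of_pos (by linarith : (0 : ℝ) < 1 + 2 * X)
  linarith

/-- A sequence which starts below `t` and reaches `t` has a term below `t` whose successor is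
not below `t`. -/
theorem crossing' (f : ℕ → ℝ) (t : ℝ) (hdir : ∃ n, t ≤ f n) (h0 : f 0 < t) :
    ∃ m, f m < t ∧ t ≤ f (m + 1) := by
  classical
  set m : ℕ := Nat.find hdir with hm
  have hm1 : t ≤ f m := Nat.find_spec hdir
  have hm0 : m ≠ 0 := by
    intro h0'
    rw [h0'] at hm1
    linarith
  obtain ⟨m', hm'⟩ := Nat.exists_eq_succ_of_ne_zero hm0
  have hm2 : f m' < t := by
    have : ¬ t ≤ f m' := Nat.find_min hdir (by rw [← hm, hm']; exact Nat.lt_succ_self m')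
    exact not_le.1 this
  refine ⟨m', hm2, ?_⟩
  rw [hm', Nat.succ_eq_add_one] at hm1
  exact hm1

/-- The arithmetic of the crossing with growing steps. -/
theorem dist_arith' (nrm X hm hT d A W D L LT logC C2 K : ℝ) (hn : 0 < nrm)
    (hid : nrm * X = (hm - hT) ^ 2 + d ^ 2) (hd : d ^ 2 ≤ nrm * (D ^ 2 + (1 / 32) * L))
    (hhT : hT ^ 2 ≤ A)
    (hreg : hm ^ 2 ≤ nrm * (W ^ 2 + (1 / 32) * L)) (hL : L ≤ LT + 2 * X)
    (hLT : LT ≤ logC + (12 * K + 4) * (7 / 10)) (hC2 : C2 * nrm = 2 * A)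
    (hK : 40 * (2 * W ^ 2 + D ^ 2 + C2 + (3 / 32) * (logC + 14 / 5)) ≤ K) :
    X ≤ K := by
  have h2 : (hm - hT) ^ 2 ≤ 2 * hm ^ 2 + 2 * hT ^ 2 := by nlinarith [sq_nonneg (hm + hT)]
  have h3 : nrm * (2 * W ^ 2 + D ^ 2 + (3 / 32) * L + C2)
      = 2 * (nrm * (W ^ 2 + (1 / 32) * L)) + nrm * (D ^ 2 + (1 / 32) * L) + C2 * nrm := by ring
  have hXle : nrm * X ≤ nrm * (2 * W ^ 2 + D ^ 2 + (3 / 32) * L + C2) := by
    rw [hid, h3, hC2]
    linarith
  have hXle' : X ≤ 2 * W ^ 2 + D ^ 2 + (3 / 32) * L + C2 := le_of_mul_le_mul_left hXle hn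
  linarith

/-- The crossing: a sequence in the region around the line which passes the barrier point with
slowly growing steps has a term in the disc of squared radius `K` around the barrier point. -/
theorem near_barrier' (a b c W D σ : ℝ) (hn : 0 < a ^ 2 + b ^ 2) (hσ2 : σ ^ 2 = 1)
    (x y : ℕ → ℝ) (tx ty K logC : ℝ)
    (hreg : ∀ n, (a * x n + b * y n - c) ^ 2 ≤ (a ^ 2 + b ^ 2) * (W ^ 2
      + (1 / 32) * Real.log (1 + ((x n) ^ 2 + (y n) ^ 2))))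
    (hstep : ∀ n, (x (n + 1) - x n) ^ 2 + (y (n + 1) - y n) ^ 2
      ≤ D ^ 2 + (1 / 32) * Real.log (1 + ((x n) ^ 2 + (y n) ^ 2)))
    (hdir : ∃ n, σ * (-b * tx + a * ty) ≤ σ * (-b * x n + a * y n))
    (hfar : σ * (-b * x 0 + a * y 0) < σ * (-b * tx + a * ty))
    (hT1 : |a * tx + b * ty| ≤ |a|)
    (hlogT : Real.log (1 + 2 * (tx ^ 2 + ty ^ 2)) ≤ logC + (12 * K + 4) * (7 / 10))
    (hK : 40 * (2 * W ^ 2 + D ^ 2 + 2 * (|a| + |c|) ^ 2 / (a ^ 2 + b ^ 2)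
      + (3 / 32) * (logC + 14 / 5)) ≤ K) :
    ∃ m, (x m - tx) ^ 2 + (y m - ty) ^ 2 ≤ K := by
  obtain ⟨m, hm1, hm3⟩ := crossing' (fun n => σ * (-b * x n + a * y n))
    (σ * (-b * tx + a * ty)) hdir hfar
  refine ⟨m, ?_⟩
  have hm1' : σ * (-b * x m + a * y m) < σ * (-b * tx + a * ty) := hm1
  have hm3' : σ * (-b * tx + a * ty) ≤ σ * (-b * x (m + 1) + a * y (m + 1)) := hm3
  -- the distance along the line is at most the step along the line
  have hm4 : ((-b * x m + a * y m) - (-b * tx + a * ty)) ^ 2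
      ≤ (a ^ 2 + b ^ 2) * (D ^ 2 + (1 / 32) * Real.log (1 + ((x m) ^ 2 + (y m) ^ 2))) := by
    have h1 : ((-b * x m + a * y m) - (-b * tx + a * ty)) ^ 2
        = (σ * (-b * tx + a * ty) - σ * (-b * x m + a * y m)) ^ 2 := by
      have : σ * (-b * tx + a * ty) - σ * (-b * x m + a * y m)
          = σ * ((-b * tx + a * ty) - (-b * x m + a * y m)) := by ring
      rw [this, mul_pow, hσ2, one_mul]
      ring
    have h2 : (σ * (-b * tx + a * ty) - σ * (-b * x m + a * y m)) ^ 2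
        ≤ (σ * (-b * x (m + 1) + a * y (m + 1)) - σ * (-b * x m + a * y m)) ^ 2 :=
      pow_le_pow_left₀ (by linarith) (by linarith) 2
    have h3 : (σ * (-b * x (m + 1) + a * y (m + 1)) - σ * (-b * x m + a * y m)) ^ 2
        = (-b * (x (m + 1) - x m) + a * (y (m + 1) - y m)) ^ 2 := by
      have : σ * (-b * x (m + 1) + a * y (m + 1)) - σ * (-b * x m + a * y m)
          = σ * (-b * (x (m + 1) - x m) + a * (y (m + 1) - y m)) := by ring
      rw [this, mul_pow, hσ2, one_mul]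
    have h4 : (-b * (x (m + 1) - x m) + a * (y (m + 1) - y m)) ^ 2
        ≤ (a ^ 2 + b ^ 2) * ((x (m + 1) - x m) ^ 2 + (y (m + 1) - y m) ^ 2) := by
      nlinarith [sq_nonneg (a * (x (m + 1) - x m) + b * (y (m + 1) - y m))]
    have h5 : (a ^ 2 + b ^ 2) * ((x (m + 1) - x m) ^ 2 + (y (m + 1) - y m) ^ 2)
        ≤ (a ^ 2 + b ^ 2) * (D ^ 2 + (1 / 32) * Real.log (1 + ((x m) ^ 2 + (y m) ^ 2))) :=
      mul_le_mul_of_nonneg_left (hstep m) hn.le
    rw [h1]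
    linarith
  have hX0 : 0 ≤ (x m - tx) ^ 2 + (y m - ty) ^ 2 := by positivity
  have hNT0 : 0 ≤ tx ^ 2 + ty ^ 2 := by positivity
  have hN0 : 0 ≤ (x m) ^ 2 + (y m) ^ 2 := by positivity
  have hNm : (x m) ^ 2 + (y m) ^ 2
      ≤ 2 * (tx ^ 2 + ty ^ 2) + 2 * ((x m - tx) ^ 2 + (y m - ty) ^ 2) := by
    nlinarith [sq_nonneg (x m - 2 * tx), sq_nonneg (y m - 2 * ty)]
  have hlogm := log_near _ _ _ hN0 hNT0 hX0 hNm
  have hid : (a ^ 2 + b ^ 2) * ((x m - tx) ^ 2 + (y m - ty) ^ 2)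
      = ((a * x m + b * y m - c) - (a * tx + b * ty - c)) ^ 2
        + ((-b * x m + a * y m) - (-b * tx + a * ty)) ^ 2 := by
    ring
  have hhT : (a * tx + b * ty - c) ^ 2 ≤ (|a| + |c|) ^ 2 := by
    have h1 : |a * tx + b * ty - c| ≤ |a| + |c| := by
      have := abs_sub (a * tx + b * ty) c
      linarith
    rw [← sq_abs (a * tx + b * ty - c)]
    exact pow_le_pow_left₀ (abs_nonneg _) h1 2
  have hC2n : 2 * (|a| + |c|) ^ 2 / (a ^ 2 + b ^ 2) * (a ^ 2 + b ^ 2)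
      = 2 * (|a| + |c|) ^ 2 := by
    field_simp
  exact dist_arith' (a ^ 2 + b ^ 2) _ _ _ _ _ W D _ _ logC _ K hn hid hm4 hhT (hreg m) hlogm hlogT
    hC2n hK

/-- A step from a neighbour of the barrier point stays in the disc around it. -/
theorem step_near (D : ℝ) (K : ℕ) (logC : ℝ) (T w w' : GaussianInt)
    (hstep : ((w'.re : ℝ) - w.re) ^ 2 + ((w'.im : ℝ) - w.im) ^ 2
      ≤ D ^ 2 + (1 / 32) * Real.log (1 + ((w.re : ℝ) ^ 2 + (w.im : ℝ) ^ 2)))
    (hlogT : Real.log (1 + 2 * ((T.re : ℝ) ^ 2 + (T.im : ℝ) ^ 2))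
      ≤ logC + (12 * (K : ℝ) + 4) * (7 / 10))
    (hK : 3 * (2 + 2 * D ^ 2 + (logC + 24 / 5) / 16) ≤ (K : ℝ))
    (hw : (w - T).norm = 1) : (w' - T).norm ≤ K := by
  have hnorm : ∀ v : GaussianInt, (((v - T).norm : ℤ) : ℝ)
      = ((v.re : ℝ) - T.re) ^ 2 + ((v.im : ℝ) - T.im) ^ 2 := by
    intro v
    rw [Zsqrtd.norm_def]
    simp only [Zsqrtd.re_sub, Zsqrtd.im_sub]
    push_cast
    ring
  have huv : ((w.re : ℝ) - T.re) ^ 2 + ((w.im : ℝ) - T.im) ^ 2 = 1 := by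
    rw [← hnorm w, hw]
    norm_num
  have hNT0 : (0 : ℝ) ≤ (T.re : ℝ) ^ 2 + (T.im : ℝ) ^ 2 := by positivity
  have hN0 : (0 : ℝ) ≤ (w.re : ℝ) ^ 2 + (w.im : ℝ) ^ 2 := by positivity
  have hNw : (w.re : ℝ) ^ 2 + (w.im : ℝ) ^ 2
      ≤ 2 * ((T.re : ℝ) ^ 2 + (T.im : ℝ) ^ 2) + 2 * 1 := by
    nlinarith [sq_nonneg ((w.re : ℝ) - 2 * T.re), sq_nonneg ((w.im : ℝ) - 2 * T.im)]
  have hL := log_near _ _ 1 hN0 hNT0 zero_le_one hNw
  have hfin := near_unit_arith ((w.re : ℝ) - T.re) ((w.im : ℝ) - T.im) ((w'.re : ℝ) - w.re)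
    ((w'.im : ℝ) - w.im) D _ _ logC (K : ℝ) huv hstep (by linarith) hlogT hK (Nat.cast_nonneg K)
  have h1 : (((w' - T).norm : ℤ) : ℝ) ≤ ((K : ℤ) : ℝ) := by
    rw [hnorm w']
    push_cast
    have h2 : ((w'.re : ℝ) - T.re) = ((w.re : ℝ) - T.re) + ((w'.re : ℝ) - w.re) := by ring
    have h3 : ((w'.im : ℝ) - T.im) = ((w.im : ℝ) - T.im) + ((w'.im : ℝ) - w.im) := by ring
    rw [h2, h3]
    exact hfin
  exact_mod_cast h1

/-- An infinite sequence of distinct Gaussian primes with slowly growing steps leaves every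
region `dist(z, ℓ) ^ 2 ≤ W ^ 2 + (1 / 32) log (1 + |z| ^ 2)` around the line
`ℓ : a x + b y = c`. -/
theorem leaves_log_region_grow_aux (a b c D W : ℝ) (hab : a ≠ 0 ∨ b ≠ 0) (z : ℕ → GaussianInt)
    (hinj : Function.Injective z) (hirr : ∀ n, Irreducible (z n))
    (hstep : ∀ n, (((z (n + 1)).re : ℝ) - (z n).re) ^ 2
      + (((z (n + 1)).im : ℝ) - (z n).im) ^ 2
        ≤ D ^ 2 + (1 / 32) * Real.log (1 + (((z n).re : ℝ) ^ 2 + ((z n).im : ℝ) ^ 2))) :
    ∃ n, (a ^ 2 + b ^ 2) * (W ^ 2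
        + (1 / 32) * Real.log (1 + (((z n).re : ℝ) ^ 2 + ((z n).im : ℝ) ^ 2)))
      < (a * (z n).re + b * (z n).im - c) ^ 2 := by
  by_contra hcon
  have hreg : ∀ n, (a * (z n).re + b * (z n).im - c) ^ 2 ≤ (a ^ 2 + b ^ 2) * (W ^ 2
      + (1 / 32) * Real.log (1 + (((z n).re : ℝ) ^ 2 + ((z n).im : ℝ) ^ 2))) := by
    intro n
    by_contra h
    exact hcon ⟨n, not_le.1 h⟩
  clear hcon
  have hn : 0 < a ^ 2 + b ^ 2 := by
    rcases hab with h | h
    · have := sq_pos_of_ne_zero h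
      nlinarith [sq_nonneg b]
    · have := sq_pos_of_ne_zero h
      nlinarith [sq_nonneg a]
  -- a direction along the line in which the path is unbounded
  obtain ⟨σ, hσ, hdir⟩ := exists_direction (fun n => -b * (z n).re + a * (z n).im)
    (unbounded_along a b c W hn z hinj hreg)
  have hσ2 : σ ^ 2 = 1 := by
    rcases hσ with rfl | rfl <;> norm_num
  -- the choice of `K`
  have hlog0 : 0 ≤ Real.log (3 * (1 + (|b / a| + 1) ^ 2)) := by
    apply Real.log_nonneg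
    have : (0 : ℝ) ≤ (|b / a| + 1) ^ 2 := sq_nonneg _
    linarith
  have hC0 : 0 ≤ 40 * (2 * W ^ 2 + D ^ 2 + 2 * (|a| + |c|) ^ 2 / (a ^ 2 + b ^ 2)
      + (3 / 32) * (Real.log (3 * (1 + (|b / a| + 1) ^ 2)) + 14 / 5)) := by
    have h2 : 0 ≤ 2 * (|a| + |c|) ^ 2 / (a ^ 2 + b ^ 2) := div_nonneg (by positivity) hn.le
    have h3 : 0 ≤ W ^ 2 := sq_nonneg W
    have h4 : 0 ≤ D ^ 2 := sq_nonneg D
    linarith
  have hC50 : 0 ≤ 3 * (2 + 2 * D ^ 2 + (Real.log (3 * (1 + (|b / a| + 1) ^ 2)) + 24 / 5) / 16) := by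
    have h4 : 0 ≤ D ^ 2 := sq_nonneg D
    linarith
  have hS0 : 0 ≤ ((σ * (-b * ((z 0).re : ℝ) + a * ((z 0).im : ℝ))) ^ 2 + a ^ 2) / (a ^ 2 + b ^ 2) :=
    div_nonneg (by positivity) hn.le
  obtain ⟨K, hKge⟩ := exists_nat_ge (2
    + 3 * (2 + 2 * D ^ 2 + (Real.log (3 * (1 + (|b / a| + 1) ^ 2)) + 24 / 5) / 16)
    + (((σ * (-b * ((z 0).re : ℝ) + a * ((z 0).im : ℝ))) ^ 2 + a ^ 2) / (a ^ 2 + b ^ 2) + 2)
    + 40 * (2 * W ^ 2 + D ^ 2 + 2 * (|a| + |c|) ^ 2 / (a ^ 2 + b ^ 2)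
      + (3 / 32) * (Real.log (3 * (1 + (|b / a| + 1) ^ 2)) + 14 / 5)))
  have hK2 : 2 ≤ K := by
    have : (2 : ℝ) ≤ (K : ℝ) := by linarith
    exact_mod_cast this
  have hKD : 3 * (2 + 2 * D ^ 2 + (Real.log (3 * (1 + (|b / a| + 1) ^ 2)) + 24 / 5) / 16)
      ≤ (K : ℝ) := by linarith
  have hKS : (σ * (-b * ((z 0).re : ℝ) + a * ((z 0).im : ℝ))) ^ 2 + a ^ 2 + 2 * (a ^ 2 + b ^ 2)
      ≤ (K : ℝ) * (a ^ 2 + b ^ 2) := by
    have h1 : ((σ * (-b * ((z 0).re : ℝ) + a * ((z 0).im : ℝ))) ^ 2 + a ^ 2) / (a ^ 2 + b ^ 2) + 2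
        ≤ (K : ℝ) := by linarith
    have h2 := mul_le_mul_of_nonneg_right h1 hn.le
    have h3 : (((σ * (-b * ((z 0).re : ℝ) + a * ((z 0).im : ℝ))) ^ 2 + a ^ 2) / (a ^ 2 + b ^ 2) + 2)
        * (a ^ 2 + b ^ 2)
        = (σ * (-b * ((z 0).re : ℝ) + a * ((z 0).im : ℝ))) ^ 2 + a ^ 2 + 2 * (a ^ 2 + b ^ 2) := by
      field_simp
    linarith
  have hKC : 40 * (2 * W ^ 2 + D ^ 2 + 2 * (|a| + |c|) ^ 2 / (a ^ 2 + b ^ 2)
      + (3 / 32) * (Real.log (3 * (1 + (|b / a| + 1) ^ 2)) + 14 / 5)) ≤ (K : ℝ) := by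
    linarith
  have hK0r : (0 : ℝ) ≤ (K : ℝ) := Nat.cast_nonneg K
  clear hKge hS0 hC0 hC50 hlog0
  -- the barrier point
  obtain ⟨T, hTprime, hTbig, hT1, hT2, hT3, hTlog⟩ := exists_barrier a b σ hσ K
  have hfar : σ * (-b * ((z 0).re : ℝ) + a * ((z 0).im : ℝ)) < σ * (-b * (T.re : ℝ) + a * (T.im : ℝ)) :=
    far_aux _ σ _ K (2 * (K : ℝ) + 2) (a ^ 2 + b ^ 2) a hσ2 hn hKS le_rfl hK0r hT2 hT3
  -- the path has a point in the disc around the barrier point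
  obtain ⟨m, hm⟩ := near_barrier' a b c W D σ hn hσ2
    (fun n => ((z n).re : ℝ)) (fun n => ((z n).im : ℝ)) (T.re : ℝ) (T.im : ℝ) (K : ℝ)
    (Real.log (3 * (1 + (|b / a| + 1) ^ 2))) hreg hstep
    (by obtain ⟨n, hn'⟩ := hdir (σ * (-b * (T.re : ℝ) + a * (T.im : ℝ))); exact ⟨n, hn'.le⟩)
    hfar hT1 hTlog hKC
  -- but it never enters that disc
  have hout : (K : ℤ) < (z m - T).norm := avoids_disc' K hK2 T hTprime hTbig z hinj hirr
    (fun n hw => step_near D K _ T (z n) (z (n + 1)) (hstep n) hTlog hKD hw) m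
  have hXnorm : (((z m - T).norm : ℤ) : ℝ)
      = (((z m).re : ℝ) - (T.re : ℝ)) ^ 2 + (((z m).im : ℝ) - (T.im : ℝ)) ^ 2 := by
    rw [Zsqrtd.norm_def]
    simp only [Zsqrtd.re_sub, Zsqrtd.im_sub]
    push_cast
    ring
  have hfin : (((z m - T).norm : ℤ) : ℝ) ≤ ((K : ℤ) : ℝ) := by
    rw [hXnorm]
    push_cast
    exact hm
  have hfin' : (z m - T).norm ≤ (K : ℤ) := by exact_mod_cast hfin
  omega

/-- An infinite sequence of distinct Gaussian primes with slowly growing steps leaves every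
region `dist(z, ℓ) ^ 2 ≤ W ^ 2 + (1 / 32) log (1 + |z| ^ 2)` around the line
`ℓ : a x + b y = c`, again and again. -/
theorem leaves_log_region_grow (a b c D W : ℝ) (hab : a ≠ 0 ∨ b ≠ 0) (z : ℕ → GaussianInt)
    (hinj : Function.Injective z) (hirr : ∀ n, Irreducible (z n))
    (hstep : ∀ n, (((z (n + 1)).re : ℝ) - (z n).re) ^ 2
      + (((z (n + 1)).im : ℝ) - (z n).im) ^ 2
        ≤ D ^ 2 + (1 / 32) * Real.log (1 + (((z n).re : ℝ) ^ 2 + ((z n).im : ℝ) ^ 2))) (N : ℕ) :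
    ∃ n, N ≤ n ∧ (a ^ 2 + b ^ 2) * (W ^ 2
        + (1 / 32) * Real.log (1 + (((z n).re : ℝ) ^ 2 + ((z n).im : ℝ) ^ 2)))
      < (a * (z n).re + b * (z n).im - c) ^ 2 := by
  have hinj' : Function.Injective (fun k => z (N + k)) := by
    intro k1 k2 h
    have h1 := hinj h
    omega
  obtain ⟨k, hk⟩ := leaves_log_region_grow_aux a b c D W hab (fun k => z (N + k)) hinj'
    (fun k => hirr (N + k)) (fun k => hstep (N + k))
  exact ⟨N + k, Nat.le_add_right N k, hk⟩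

end Vale.Agent.Lib.Helper5.P015GrowMoat
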