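import Mathlib
import Vale.Agent.Lib.Helper5.P015CurvePoly
import Vale.Agent.Lib.Helper5.P015GrowMoat

/-!
Gaussian primes near the whole graph of an integer polynomial.

An infinite sequence of distinct Gaussian primes with bounded steps cannot stay within bounded
distance of the curve `y = p x`, for any polynomial `p` with integer coefficients and degree at
least `1`.  The abscissae of such a sequence are unbounded on one side; after a reflection this
is the right side and the leading coefficient is positive.  The sequence then has a point far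
out on the right branch above the height of a barrier point, and the last time before that at
which its ordinate was below that height it enters the disc around the barrier point.
-/

open scoped GaussianInt
open Polynomial

namespace Vale.Agent.Lib.Helper5.P015CurveFull

open Vale.Agent.Lib.Helper5.P015Moat Vale.Agent.Lib.Helper5.P015LogMoat
open Vale.Agent.Lib.Helper5.P015Effective Vale.Agent.Lib.Helper5.P015Curve
open Vale.Agent.Lib.Helper5.P015CurvePoly Vale.Agent.Lib.Helper5.P015GrowMoat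

/-- The core for a graph with two branches: the abscissae are unbounded to the right. -/
theorem core_right (f : ℝ → ℝ) (t0 c : ℝ) (ht0 : 0 ≤ t0)
    (hE : ∀ s t, t0 ≤ t → t ≤ s → s - t ≤ f s - f t)
    (hbd : ∀ T : ℝ, ∃ F : ℝ, ∀ t, |t| ≤ T → f t ≤ F)
    (hbar : ∀ K : ℕ, ∀ B : ℝ, ∃ T : GaussianInt,
      (∀ p : ℕ, p.Prime → p ≤ K → ((p : ℕ) : GaussianInt) ∣ T) ∧
      2 * (K : ℤ) ^ 2 + 2 * K + 2 ≤ T.norm ∧ B ≤ (T.re : ℝ) ∧ |(T.im : ℝ) - f T.re| ≤ c)
    (D W : ℝ) (hD : 0 ≤ D) (hW : 0 ≤ W) (z : ℕ → GaussianInt) (hinj : Function.Injective z)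
    (hirr : ∀ n, Irreducible (z n))
    (hstep : ∀ n, (((z (n + 1)).re : ℝ) - (z n).re) ^ 2
      + (((z (n + 1)).im : ℝ) - (z n).im) ^ 2 ≤ D ^ 2)
    (hnear : ∀ n, ∃ t : ℝ,
      (((z n).re : ℝ) - t) ^ 2 + (((z n).im : ℝ) - f t) ^ 2 ≤ W ^ 2)
    (hunb : ∀ X : ℝ, ∃ n, X < ((z n).re : ℝ)) : False := by
  obtain ⟨F1, hF1⟩ := hbd (t0 + W + D + 1)
  obtain ⟨K, hK⟩ := exists_nat_ge ((D + 1) ^ 2 + (2 * W + D) ^ 2 + (D + |c|) ^ 2 + 2)
  have hK2 : 2 ≤ K := by
    have h1 : (2 : ℝ) ≤ (K : ℝ) := by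
      nlinarith [sq_nonneg (D + 1), sq_nonneg (2 * W + D), sq_nonneg (D + |c|)]
    exact_mod_cast h1
  have hKD : (|D| + 1) ^ 2 ≤ (K : ℝ) := by
    rw [abs_of_nonneg hD]
    nlinarith [sq_nonneg (2 * W + D), sq_nonneg (D + |c|)]
  obtain ⟨T, hTprime, hTbig, hTre, hTim⟩ := hbar K
    (|t0| + |((z 0).im : ℝ)| + |F1| + W + |f t0| + 1)
  have hc0 : 0 ≤ c := le_trans (abs_nonneg _) hTim
  have hτ0 : t0 ≤ (T.re : ℝ) := by
    have a1 := le_abs_self t0
    have a2 := abs_nonneg ((z 0).im : ℝ)
    have a3 := abs_nonneg F1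
    have a4 := abs_nonneg (f t0)
    linarith
  have hfτ : |t0| + |((z 0).im : ℝ)| + |F1| + W + |f t0| + 1 - t0 + f t0 ≤ f T.re := by
    have := hE T.re t0 le_rfl hτ0
    linarith
  have hfτ1 : ((z 0).im : ℝ) < f T.re := by
    have a1 := le_abs_self t0
    have a2 := le_abs_self ((z 0).im : ℝ)
    have a3 := abs_nonneg F1
    have a4 := neg_abs_le (f t0)
    linarith
  have hfτ2 : F1 + W < f T.re := by
    have a1 := le_abs_self t0
    have a2 := abs_nonneg ((z 0).im : ℝ)
    have a3 := le_abs_self F1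
    have a4 := neg_abs_le (f t0)
    linarith
  -- a point at least as high as the barrier is far from the axis, on the side of its parameter
  have hhigh : ∀ i, f T.re ≤ ((z i).im : ℝ) → ∀ t : ℝ,
      (((z i).re : ℝ) - t) ^ 2 + (((z i).im : ℝ) - f t) ^ 2 ≤ W ^ 2 →
      (((z i).re : ℝ) < -D ∧ t < -t0) ∨ (D < ((z i).re : ℝ) ∧ t0 ≤ t) := by
    intro i hi t hnr
    obtain ⟨h1, h2⟩ := near_abs _ _ _ _ W hW hnr
    rw [abs_le] at h1 h2
    have ht : t0 + W + D + 1 < |t| := by
      by_contra h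
      have := hF1 t (not_lt.1 h)
      linarith
    rcases abs_cases t with ⟨he, _⟩ | ⟨he, _⟩
    · rw [he] at ht
      right
      constructor <;> linarith
    · rw [he] at ht
      left
      constructor <;> linarith
  -- a point far out on the right branch, above the barrier
  obtain ⟨N, hN⟩ := hunb ((T.re : ℝ) + 2 * W)
  have hNy : f T.re ≤ ((z N).im : ℝ) := by
    obtain ⟨t, hnr⟩ := hnear N
    obtain ⟨h1, h2⟩ := near_abs _ _ _ _ W hW hnr
    rw [abs_le] at h1 h2
    have htτ : (T.re : ℝ) ≤ t := by linarith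
    have := hE t T.re hτ0 htτ
    linarith
  have hNx : 0 ≤ ((z N).re : ℝ) := by linarith
  -- the last index before `N` with ordinate below the barrier
  obtain ⟨m, hm_spec, hm_le, hm_max⟩ : ∃ m, ((z m).im : ℝ) < f T.re ∧ m ≤ N ∧
      ∀ i, m < i → i ≤ N → f T.re ≤ ((z i).im : ℝ) := by
    classical
    refine ⟨Nat.findGreatest (fun i => ((z i).im : ℝ) < f T.re) N, ?_, Nat.findGreatest_le N, ?_⟩
    · exact Nat.findGreatest_spec (P := fun i => ((z i).im : ℝ) < f T.re) (Nat.zero_le N) hfτ1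
    · intro i hi hiN
      exact not_lt.1 (Nat.findGreatest_is_greatest hi hiN)
  have hm_lt : m < N := by
    rcases Nat.lt_or_ge m N with h | h
    · exact h
    · have e : m = N := le_antisymm hm_le h
      rw [e] at hm_spec
      linarith
  -- all points after `m` up to `N` are on the right
  have hpos : ∀ k, m + 1 + k ≤ N → D < ((z (N - k)).re : ℝ) := by
    intro k
    induction k with
    | zero =>
      intro _
      obtain ⟨t, hnr⟩ := hnear N
      rcases hhigh N hNy t hnr with h | h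
      · exfalso
        linarith [h.1]
      · simpa using h.1
    | succ k ih =>
      intro hk
      have ih' := ih (by omega)
      have hi1 : m < N - (k + 1) := by omega
      have hi2 : N - (k + 1) ≤ N := Nat.sub_le _ _
      have hs := hstep (N - (k + 1))
      have e : N - (k + 1) + 1 = N - k := by omega
      rw [e] at hs
      have hdx : |((z (N - k)).re : ℝ) - (z (N - (k + 1))).re| ≤ D :=
        abs_le_of_sq_le_sq
          (by nlinarith [sq_nonneg (((z (N - k)).im : ℝ) - (z (N - (k + 1))).im)]) hD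
      rw [abs_le] at hdx
      obtain ⟨t, hnr⟩ := hnear (N - (k + 1))
      rcases hhigh _ (hm_max _ hi1 hi2) t hnr with h | h
      · exfalso
        linarith [h.1]
      · exact h.1
  have hn1 : f T.re ≤ ((z (m + 1)).im : ℝ) := hm_max (m + 1) (Nat.lt_succ_self m) hm_lt
  have hx1 : D < ((z (m + 1)).re : ℝ) := by
    have h := hpos (N - (m + 1)) (by omega)
    have e : N - (N - (m + 1)) = m + 1 := by omega
    rwa [e] at h
  have hs := hstep m
  have hdy : |((z (m + 1)).im : ℝ) - (z m).im| ≤ D :=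
    abs_le_of_sq_le_sq (by nlinarith [sq_nonneg (((z (m + 1)).re : ℝ) - (z m).re)]) hD
  rw [abs_le] at hdy
  have hn2 : ((z (m + 1)).im : ℝ) ≤ f T.re + D := by linarith
  obtain ⟨t, hnr⟩ := hnear (m + 1)
  obtain ⟨h1, h2⟩ := near_abs _ _ _ _ W hW hnr
  have htt0 : t0 ≤ t := by
    rcases hhigh _ hn1 t hnr with h | h
    · exfalso
      linarith [h.1]
    · exact h.2
  have hexp : |t - (T.re : ℝ)| ≤ |f t - f T.re| := by
    rcases le_total t (T.re : ℝ) with hle | hle
    · have h3 := hE T.re t htt0 hle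
      rw [abs_of_nonpos (by linarith), abs_of_nonpos (by linarith)]
      linarith
    · have h3 := hE t T.re hτ0 hle
      rw [abs_of_nonneg (by linarith), abs_of_nonneg (by linarith)]
      linarith
  have hdisc := crossing_arith _ _ t (f t) (T.re : ℝ) (f T.re) (T.im : ℝ) D W c hW hD h1 h2 hn1
    hn2 hexp hTim
  have hin : (z (m + 1) - T).norm ≤ K := by
    have h3 : (((z (m + 1) - T).norm : ℤ) : ℝ) ≤ ((K : ℤ) : ℝ) := by
      have e : (((z (m + 1) - T).norm : ℤ) : ℝ)
          = (((z (m + 1)).re : ℝ) - T.re) ^ 2 + (((z (m + 1)).im : ℝ) - T.im) ^ 2 := by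
        rw [Zsqrtd.norm_def]
        simp only [Zsqrtd.re_sub, Zsqrtd.im_sub]
        push_cast
        ring
      rw [e]
      have h4 : (D + c) ^ 2 = (D + |c|) ^ 2 := by rw [abs_of_nonneg hc0]
      push_cast
      nlinarith [sq_nonneg (D + 1)]
    exact_mod_cast h3
  have htrap := trapped K hK2 D hKD T hTprime hTbig z hirr hstep (m + 1) hin
  have hinj' : Function.Injective (fun i => z (m + 1 + i)) := by
    intro i j h
    have := hinj h
    omega
  have hsub : Set.range (fun i => z (m + 1 + i)) ⊆ {w : GaussianInt | (w - T).norm = 1} := by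
    rintro w ⟨i, rfl⟩
    exact htrap i
  exact (Set.infinite_range_of_injective hinj') ((finite_near T).subset hsub)

/-- A real polynomial is bounded on bounded sets. -/
theorem poly_bdd (P : Polynomial ℝ) (T : ℝ) : ∃ F : ℝ, ∀ t, |t| ≤ T → |P.eval t| ≤ F := by
  obtain ⟨F0, hF0⟩ := (isCompact_Icc (a := -T) (b := T)).bddAbove_image
    (continuous_abs.comp P.continuous).continuousOn
  refine ⟨F0, fun t ht => ?_⟩
  rw [abs_le] at ht
  exact hF0 ⟨t, ⟨ht.1, ht.2⟩, rfl⟩

/-- Positive leading coefficient, abscissae unbounded to the right. -/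
theorem leaves_graph_pos (p : Polynomial ℤ) (hdeg : 1 ≤ p.natDegree) (hlc : 0 < p.leadingCoeff)
    (D W : ℝ) (z : ℕ → GaussianInt) (hinj : Function.Injective z)
    (hirr : ∀ n, Irreducible (z n))
    (hstep : ∀ n, (((z (n + 1)).re : ℝ) - (z n).re) ^ 2
      + (((z (n + 1)).im : ℝ) - (z n).im) ^ 2 ≤ D ^ 2)
    (hunb : ∀ X : ℝ, ∃ n, X < ((z n).re : ℝ)) :
    ∃ n, ∀ t : ℝ,
      W ^ 2 < (((z n).re : ℝ) - t) ^ 2 + (((z n).im : ℝ) - Polynomial.aeval t p) ^ 2 := by
  by_contra hcon
  have hinjc : Function.Injective (Int.castRingHom ℝ) := Int.cast_injective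
  set P : Polynomial ℝ := p.map (Int.castRingHom ℝ) with hP
  have hPdeg : 1 ≤ P.natDegree := by
    rw [hP, natDegree_map_eq_of_injective hinjc]
    exact hdeg
  have hPlc : 1 ≤ P.leadingCoeff := by
    rw [hP, leadingCoeff_map_of_injective hinjc, eq_intCast]
    have : (1 : ℤ) ≤ p.leadingCoeff := hlc
    exact_mod_cast this
  have haeval : ∀ t : ℝ, Polynomial.aeval t p = P.eval t := by
    intro t
    rw [hP, aeval_def, eval_map, algebraMap_int_eq]
  obtain ⟨t0, ht0, hE⟩ := expanding P hPdeg hPlc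
  have hbd : ∀ T : ℝ, ∃ F : ℝ, ∀ t, |t| ≤ T → P.eval t ≤ F := by
    intro T
    obtain ⟨F, hF⟩ := poly_bdd P T
    exact ⟨F, fun t ht => (le_abs_self _).trans (hF t ht)⟩
  have hnear : ∀ n, ∃ t : ℝ,
      (((z n).re : ℝ) - t) ^ 2 + (((z n).im : ℝ) - P.eval t) ^ 2 ≤ |W| ^ 2 := by
    intro n
    by_contra h
    apply hcon
    refine ⟨n, fun t => ?_⟩
    by_contra h'
    apply h
    refine ⟨t, ?_⟩
    rw [sq_abs, ← haeval t]
    exact not_lt.1 h'
  have hstep' : ∀ n, (((z (n + 1)).re : ℝ) - (z n).re) ^ 2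
      + (((z (n + 1)).im : ℝ) - (z n).im) ^ 2 ≤ |D| ^ 2 := by
    intro n
    rw [sq_abs]
    exact hstep n
  exact core_right (fun t => P.eval t) t0 |((p.eval 0 : ℤ) : ℝ)| ht0 hE hbd
    (fun K B => barrier_poly p K B) |D| |W| (abs_nonneg D) (abs_nonneg W) z hinj hirr hstep'
    hnear hunb

theorem irreducible_star (w : GaussianInt) (h : Irreducible w) : Irreducible (star w) := by
  have h1 := h.map (starRingAut : RingAut GaussianInt)
  rwa [starRingAut_apply] at h1

theorem irreducible_neg' (w : GaussianInt) (h : Irreducible w) : Irreducible (-w) := by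
  have h1 : Irreducible ((-1 : GaussianInt) * w) := (irreducible_isUnit_mul isUnit_one.neg).2 h
  rwa [neg_one_mul] at h1

/-- Any leading coefficient, abscissae unbounded to the right. -/
theorem leaves_graph_right (p : Polynomial ℤ) (hdeg : 1 ≤ p.natDegree)
    (D W : ℝ) (z : ℕ → GaussianInt) (hinj : Function.Injective z)
    (hirr : ∀ n, Irreducible (z n))
    (hstep : ∀ n, (((z (n + 1)).re : ℝ) - (z n).re) ^ 2
      + (((z (n + 1)).im : ℝ) - (z n).im) ^ 2 ≤ D ^ 2)
    (hunb : ∀ X : ℝ, ∃ n, X < ((z n).re : ℝ)) :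
    ∃ n, ∀ t : ℝ,
      W ^ 2 < (((z n).re : ℝ) - t) ^ 2 + (((z n).im : ℝ) - Polynomial.aeval t p) ^ 2 := by
  have hp0 : p ≠ 0 := by
    rintro rfl
    simp at hdeg
  rcases lt_or_gt_of_ne (leadingCoeff_ne_zero.2 hp0) with hneg | hpos
  · -- negative leading coefficient: reflect in the real axis
    have h := leaves_graph_pos (-p) (by rw [natDegree_neg]; exact hdeg)
      (by rw [leadingCoeff_neg]; linarith) D W (fun n => star (z n))
      (fun a b hab => hinj (star_injective hab))
      (fun n => irreducible_star _ (hirr n))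
      (fun n => by
        have h0 := hstep n
        simp only [Zsqrtd.re_star, Zsqrtd.im_star]
        push_cast
        nlinarith [h0])
      (fun X => by
        obtain ⟨n, hn⟩ := hunb X
        refine ⟨n, ?_⟩
        simp only [Zsqrtd.re_star]
        exact hn)
    obtain ⟨n, hn⟩ := h
    refine ⟨n, fun t => ?_⟩
    have h1 := hn t
    simp only [Zsqrtd.re_star, Zsqrtd.im_star, map_neg] at h1
    push_cast at h1
    nlinarith [h1]
  · exact leaves_graph_pos p hdeg hpos D W z hinj hirr hstep hunb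

/-- The abscissae of a sequence of distinct Gaussian integers near the graph of a polynomial are
unbounded on one side. -/
theorem x_unbounded (P : Polynomial ℝ) (W : ℝ) (z : ℕ → GaussianInt)
    (hinj : Function.Injective z)
    (hnear : ∀ n, ∃ t : ℝ,
      (((z n).re : ℝ) - t) ^ 2 + (((z n).im : ℝ) - P.eval t) ^ 2 ≤ W ^ 2) :
    (∀ X : ℝ, ∃ n, X < ((z n).re : ℝ)) ∨ (∀ X : ℝ, ∃ n, ((z n).re : ℝ) < -X) := by
  by_contra hcon
  rw [not_or] at hcon
  obtain ⟨h1, h2⟩ := hcon
  push Not at h1 h2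
  obtain ⟨X1, hX1⟩ := h1
  obtain ⟨X2, hX2⟩ := h2
  obtain ⟨F, hF⟩ := poly_bdd P (|X1| + |X2| + |W|)
  have hbound : ∀ n, (((z n).norm : ℤ) : ℝ) ≤ (|X1| + |X2|) ^ 2 + (F + |W|) ^ 2 := by
    intro n
    obtain ⟨t, hnr⟩ := hnear n
    have hnr' : (((z n).re : ℝ) - t) ^ 2 + (((z n).im : ℝ) - P.eval t) ^ 2 ≤ |W| ^ 2 := by
      rwa [sq_abs]
    obtain ⟨h1, h2⟩ := near_abs _ _ _ _ |W| (abs_nonneg W) hnr'
    rw [abs_le] at h1 h2
    have a1 := le_abs_self X1
    have a2 := le_abs_self X2
    have a3 := abs_nonneg X1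
    have a4 := abs_nonneg X2
    have hx1 := hX1 n
    have hx2 := hX2 n
    have ht : |t| ≤ |X1| + |X2| + |W| := by
      rw [abs_le]
      constructor <;> linarith
    have hf := hF t ht
    rw [abs_le] at hf
    have hx3 : ((z n).re : ℝ) ^ 2 ≤ (|X1| + |X2|) ^ 2 := sq_le_sq' (by linarith) (by linarith)
    have hy3 : ((z n).im : ℝ) ^ 2 ≤ (F + |W|) ^ 2 := sq_le_sq' (by linarith) (by linarith)
    have e : (((z n).norm : ℤ) : ℝ) = ((z n).re : ℝ) ^ 2 + ((z n).im : ℝ) ^ 2 := by
      rw [Zsqrtd.norm_def]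
      push_cast
      ring
    rw [e]
    linarith
  have hsub : Set.range z ⊆ {w : GaussianInt | ((w.norm : ℤ) : ℝ)
      ≤ (|X1| + |X2|) ^ 2 + (F + |W|) ^ 2} := by
    rintro w ⟨n, rfl⟩
    exact hbound n
  exact (Set.infinite_range_of_injective hinj) ((finite_norm_le _).subset hsub)

/-- An infinite sequence of distinct Gaussian primes with bounded steps cannot stay within
bounded distance of the graph `{(t, p t) : t ∈ ℝ}` of an integer polynomial of degree at
least `1`. -/
theorem leaves_graph (p : Polynomial ℤ) (hdeg : 1 ≤ p.natDegree)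
    (D W : ℝ) (z : ℕ → GaussianInt) (hinj : Function.Injective z)
    (hirr : ∀ n, Irreducible (z n))
    (hstep : ∀ n, (((z (n + 1)).re : ℝ) - (z n).re) ^ 2
      + (((z (n + 1)).im : ℝ) - (z n).im) ^ 2 ≤ D ^ 2) :
    ∃ n, ∀ t : ℝ,
      W ^ 2 < (((z n).re : ℝ) - t) ^ 2 + (((z n).im : ℝ) - Polynomial.aeval t p) ^ 2 := by
  by_contra hcon
  have haeval : ∀ t : ℝ, Polynomial.aeval t p = (p.map (Int.castRingHom ℝ)).eval t := by
    intro t
    rw [aeval_def, eval_map, algebraMap_int_eq]
  have hnear : ∀ n, ∃ t : ℝ, (((z n).re : ℝ) - t) ^ 2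
      + (((z n).im : ℝ) - (p.map (Int.castRingHom ℝ)).eval t) ^ 2 ≤ W ^ 2 := by
    intro n
    by_contra h
    apply hcon
    refine ⟨n, fun t => ?_⟩
    by_contra h'
    apply h
    refine ⟨t, ?_⟩
    rw [← haeval t]
    exact not_lt.1 h'
  rcases x_unbounded _ W z hinj hnear with hu | hu
  · exact hcon (leaves_graph_right p hdeg D W z hinj hirr hstep hu)
  · -- reflect in the imaginary axis
    have hq : 1 ≤ (p.comp (-X)).natDegree := by
      rw [natDegree_comp, natDegree_neg, natDegree_X, mul_one]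
      exact hdeg
    have h := leaves_graph_right (p.comp (-X)) hq D W (fun n => -star (z n))
      (fun a b hab => hinj (star_injective (neg_injective hab)))
      (fun n => irreducible_neg' _ (irreducible_star _ (hirr n)))
      (fun n => by
        have h0 := hstep n
        simp only [Zsqrtd.re_neg, Zsqrtd.im_neg, Zsqrtd.re_star, Zsqrtd.im_star]
        push_cast
        nlinarith [h0])
      (fun Y => by
        obtain ⟨n, hn⟩ := hu Y
        refine ⟨n, ?_⟩
        simp only [Zsqrtd.re_neg, Zsqrtd.re_star]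
        push_cast
        linarith)
    obtain ⟨n, hn⟩ := h
    apply hcon
    refine ⟨n, fun t => ?_⟩
    have h1 := hn (-t)
    simp only [Zsqrtd.re_neg, Zsqrtd.im_neg, Zsqrtd.re_star, Zsqrtd.im_star, aeval_comp,
      map_neg, aeval_X, neg_neg] at h1
    push_cast at h1
    nlinarith [h1]

/-- Final form: for every integer polynomial `p`, infinitely many terms of the sequence are at
distance more than `W` from the curve `y = p x`. -/
theorem leaves_graph_io (p : Polynomial ℤ) (D W : ℝ) (z : ℕ → GaussianInt)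
    (hinj : Function.Injective z) (hirr : ∀ n, Irreducible (z n))
    (hstep : ∀ n, (((z (n + 1)).re : ℝ) - (z n).re) ^ 2
      + (((z (n + 1)).im : ℝ) - (z n).im) ^ 2 ≤ D ^ 2) (N : ℕ) :
    ∃ n, N ≤ n ∧ ∀ t : ℝ,
      W ^ 2 < (((z n).re : ℝ) - t) ^ 2 + (((z n).im : ℝ) - Polynomial.aeval t p) ^ 2 := by
  rcases Nat.eq_zero_or_pos p.natDegree with h0 | h1
  · -- a constant polynomial: a horizontal line
    have hp : p = C (p.coeff 0) := eq_C_of_natDegree_eq_zero h0
    have hlog : ∀ n, 0 ≤ Real.log (1 + (((z n).re : ℝ) ^ 2 + ((z n).im : ℝ) ^ 2)) := fun n =>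
      Real.log_nonneg (by nlinarith [sq_nonneg ((z n).re : ℝ), sq_nonneg ((z n).im : ℝ)])
    have hstep' : ∀ n, (((z (n + 1)).re : ℝ) - (z n).re) ^ 2
        + (((z (n + 1)).im : ℝ) - (z n).im) ^ 2
        ≤ D ^ 2 + (1 / 32) * Real.log (1 + (((z n).re : ℝ) ^ 2 + ((z n).im : ℝ) ^ 2)) := by
      intro n
      have h1 := hstep n
      have h2 := hlog n
      linarith
    obtain ⟨n, hn, h⟩ := leaves_log_region_grow 0 1 ((p.coeff 0 : ℤ) : ℝ) D W
      (Or.inr one_ne_zero) z hinj hirr hstep' N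
    refine ⟨n, hn, fun t => ?_⟩
    have h2 := hlog n
    have ha : Polynomial.aeval t p = ((p.coeff 0 : ℤ) : ℝ) := by
      conv_lhs => rw [hp]
      rw [aeval_C]
      simp
    rw [ha]
    nlinarith [sq_nonneg (((z n).re : ℝ) - t)]
  · obtain ⟨k, hk⟩ := leaves_graph p h1 D W (fun i => z (N + i))
      (fun a b hab => by
        have := hinj hab
        omega)
      (fun i => hirr _) (fun i => hstep (N + i))
    exact ⟨N + k, Nat.le_add_right _ _, hk⟩

end Vale.Agent.Lib.Helper5.P015CurveFull
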