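import Mathlib
import Vale.Agent.Lib.Helper5.P015LogMoat

/-!
Prime-free discs centred on an arbitrary straight line, with a bound for their position.

For the line `a x + b y = c` and a radius `R`, take `K` about `4 (|R| + 2) ^ 2` and the barrier
point `T` of `P015LogMoat.exists_barrier`: every rational prime `p ≤ K` divides `T`, the point
`T` lies next to the parallel of the line through the origin, and `|T| ^ 2 ≤ C 2 ^ (12 K)`.
A disc of radius `R` centred on the line at distance between `|R| + 2` and a constant more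
from `T` lies in the annulus `2 ≤ N(z - T) ≤ K`, so it contains no Gaussian prime.
-/

open scoped GaussianInt
open Nat

namespace Vale.Agent.Lib.Helper5.P015Discs

open Vale.Agent.Lib.Helper5.P015Moat Vale.Agent.Lib.Helper5.P015LogMoat

/-- If `(u, v)` is within `r` of `(dx, dy)`, whose length is at least `r + 2`, then `(u, v)` has
squared length at least `4`, and at most twice the squared length of `(dx, dy)` plus `2 r ^ 2`. -/
theorem disc_annulus (u v dx dy r Dmax : ℝ) (hr : 0 ≤ r) (hd1 : (r + 2) ^ 2 ≤ dx ^ 2 + dy ^ 2)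
    (hd2 : dx ^ 2 + dy ^ 2 ≤ Dmax) (he : (u - dx) ^ 2 + (v - dy) ^ 2 ≤ r ^ 2) :
    4 ≤ u ^ 2 + v ^ 2 ∧ u ^ 2 + v ^ 2 ≤ 2 * Dmax + 2 * r ^ 2 := by
  constructor
  · rcases hr.eq_or_lt with h0 | hpos
    · rw [← h0] at he hd1
      have h1 : (u - dx) ^ 2 = 0 := by nlinarith [sq_nonneg (u - dx), sq_nonneg (v - dy)]
      have h2 : (v - dy) ^ 2 = 0 := by nlinarith [sq_nonneg (u - dx), sq_nonneg (v - dy)]
      have h3 : u = dx := by
        have := pow_eq_zero_iff (two_ne_zero) |>.1 h1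
        linarith
      have h4 : v = dy := by
        have := pow_eq_zero_iff (two_ne_zero) |>.1 h2
        linarith
      rw [h3, h4]
      linarith
    · have h1 : 2 * r * (r + 2) ^ 2 ≤ 2 * r * (dx ^ 2 + dy ^ 2) :=
        mul_le_mul_of_nonneg_left hd1 (by positivity)
      have h2 : (4 + 2 * r) * ((u - dx) ^ 2 + (v - dy) ^ 2) ≤ (4 + 2 * r) * r ^ 2 :=
        mul_le_mul_of_nonneg_left he (by positivity)
      have s1 : 0 ≤ (r * u - 2 * (dx - u)) ^ 2 + (r * v - 2 * (dy - v)) ^ 2 := by positivity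
      have key : (r * (r + 2)) * 4 ≤ (r * (r + 2)) * (u ^ 2 + v ^ 2) := by nlinarith
      exact le_of_mul_le_mul_left key (by positivity)
  · nlinarith [sq_nonneg (u - 2 * dx), sq_nonneg (v - 2 * dy)]

/-- A disc of radius `r` whose centre `T + (ox, oy)` is at distance at least `r + 2` from a
barrier point `T`, and not too far from it, contains no Gaussian prime. -/
theorem disc_free (K : ℕ) (hK : 2 ≤ K) (T : GaussianInt)
    (hT : ∀ p : ℕ, p.Prime → p ≤ K → ((p : ℕ) : GaussianInt) ∣ T)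
    (hTbig : 2 * (K : ℤ) ^ 2 + 2 * K + 2 ≤ T.norm) (ox oy r : ℝ) (hr : 0 ≤ r)
    (h1 : (r + 2) ^ 2 ≤ ox ^ 2 + oy ^ 2) (h2 : 2 * (ox ^ 2 + oy ^ 2) + 2 * r ^ 2 ≤ (K : ℝ))
    (z : GaussianInt) (hz : Irreducible z) :
    r ^ 2 < ((z.re : ℝ) - ((T.re : ℝ) + ox)) ^ 2 + ((z.im : ℝ) - ((T.im : ℝ) + oy)) ^ 2 := by
  by_contra hcon
  rw [not_lt] at hcon
  have hcon' : (((z.re : ℝ) - T.re) - ox) ^ 2 + (((z.im : ℝ) - T.im) - oy) ^ 2 ≤ r ^ 2 := by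
    have e1 : ((z.re : ℝ) - T.re) - ox = (z.re : ℝ) - ((T.re : ℝ) + ox) := by ring
    have e2 : ((z.im : ℝ) - T.im) - oy = (z.im : ℝ) - ((T.im : ℝ) + oy) := by ring
    rw [e1, e2]
    exact hcon
  obtain ⟨hlo, hhi⟩ := disc_annulus ((z.re : ℝ) - T.re) ((z.im : ℝ) - T.im) ox oy r
    (ox ^ 2 + oy ^ 2) hr h1 le_rfl hcon'
  have hnorm : (((z - T).norm : ℤ) : ℝ) = ((z.re : ℝ) - T.re) ^ 2 + ((z.im : ℝ) - T.im) ^ 2 := by
    rw [Zsqrtd.norm_def]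
    simp only [Zsqrtd.re_sub, Zsqrtd.im_sub]
    push_cast
    ring
  have hlo' : 2 ≤ (z - T).norm := by
    have : ((2 : ℤ) : ℝ) ≤ (((z - T).norm : ℤ) : ℝ) := by
      rw [hnorm]
      push_cast
      linarith
    exact_mod_cast this
  have hhi' : (z - T).norm ≤ K := by
    have : (((z - T).norm : ℤ) : ℝ) ≤ (((K : ℕ) : ℤ) : ℝ) := by
      rw [hnorm]
      push_cast
      linarith
    exact_mod_cast this
  have hbig : (K : ℤ) ^ 2 < z.norm := by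
    have h3 : T.norm ≤ 2 * z.norm + 2 * (z - T).norm := by
      rw [Zsqrtd.norm_def, Zsqrtd.norm_def, Zsqrtd.norm_def]
      simp only [Zsqrtd.re_sub, Zsqrtd.im_sub]
      nlinarith [sq_nonneg (2 * z.re - T.re), sq_nonneg (2 * z.im - T.im)]
    linarith
  exact not_irreducible_near' K hK T z hT hbig (Or.inr ⟨hlo', hhi'⟩) hz

/-- A point of the line `a x + b y = c` at a prescribed distance, up to a bounded error, from a
point `(tx, ty)` next to the parallel line through the origin. -/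
theorem exists_offset (a b c tx ty ρ : ℝ) (hn : 0 < a ^ 2 + b ^ 2) (_hρ : 0 ≤ ρ)
    (ht : |a * tx + b * ty| ≤ |a|) :
    ∃ ox oy : ℝ, a * (tx + ox) + b * (ty + oy) = c ∧ ρ ^ 2 ≤ ox ^ 2 + oy ^ 2 ∧
      ox ^ 2 + oy ^ 2 ≤ ρ ^ 2 + (|c| + |a|) ^ 2 / (a ^ 2 + b ^ 2) := by
  have hsq : Real.sqrt (a ^ 2 + b ^ 2) ^ 2 = a ^ 2 + b ^ 2 := Real.sq_sqrt hn.le
  have hsqpos : 0 < Real.sqrt (a ^ 2 + b ^ 2) := Real.sqrt_pos.2 hn
  obtain ⟨l, hl⟩ : ∃ l : ℝ, l ^ 2 * (a ^ 2 + b ^ 2) = ρ ^ 2 := by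
    refine ⟨ρ / Real.sqrt (a ^ 2 + b ^ 2), ?_⟩
    rw [div_pow, hsq]
    field_simp
  obtain ⟨μ, hμ⟩ : ∃ μ : ℝ, μ * (a ^ 2 + b ^ 2) = c - (a * tx + b * ty) := by
    refine ⟨(c - (a * tx + b * ty)) / (a ^ 2 + b ^ 2), ?_⟩
    field_simp
  have hμ2 : μ ^ 2 * (a ^ 2 + b ^ 2) ≤ (|c| + |a|) ^ 2 / (a ^ 2 + b ^ 2) := by
    rw [le_div_iff₀ hn]
    have h1 : μ ^ 2 * (a ^ 2 + b ^ 2) * (a ^ 2 + b ^ 2) = (c - (a * tx + b * ty)) ^ 2 := by
      rw [← hμ]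
      ring
    rw [h1]
    have h2 : |c - (a * tx + b * ty)| ≤ |c| + |a| := by
      have := abs_sub c (a * tx + b * ty)
      linarith
    have h3 : (c - (a * tx + b * ty)) ^ 2 = |c - (a * tx + b * ty)| ^ 2 := (sq_abs _).symm
    rw [h3]
    exact pow_le_pow_left₀ (abs_nonneg _) h2 2
  have hμ0 : 0 ≤ μ ^ 2 * (a ^ 2 + b ^ 2) := by positivity
  have hd : (l * (-b) + μ * a) ^ 2 + (l * a + μ * b) ^ 2
      = ρ ^ 2 + μ ^ 2 * (a ^ 2 + b ^ 2) := by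
    rw [← hl]
    ring
  refine ⟨l * (-b) + μ * a, l * a + μ * b, ?_, ?_, ?_⟩
  · have h1 : a * (tx + (l * (-b) + μ * a)) + b * (ty + (l * a + μ * b))
        = (a * tx + b * ty) + μ * (a ^ 2 + b ^ 2) := by ring
    rw [h1, hμ]
    ring
  · rw [hd]
    linarith
  · rw [hd]
    linarith

/-- The size of the barrier point in exponential form. -/
theorem size_bound (NT logC Kr ρ δ2 : ℝ) (hC : 0 < logC)
    (hlog : Real.log (1 + 2 * NT) ≤ Real.log logC + (12 * Kr + 4) * (7 / 10))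
    (hNT : 0 ≤ NT) (hK : Kr ≤ 4 * ρ ^ 2 + 2 * δ2 + 3) :
    2 * NT ≤ logC * Real.exp (84 / 5 * δ2 + 28) * Real.exp (34 * ρ ^ 2) := by
  have h1 : 1 + 2 * NT ≤ Real.exp (Real.log logC + (12 * Kr + 4) * (7 / 10)) :=
    (Real.log_le_iff_le_exp (by linarith)).1 hlog
  rw [Real.exp_add, Real.exp_log hC] at h1
  have h2 : (12 * Kr + 4) * (7 / 10) ≤ (84 / 5 * δ2 + 28) + 34 * ρ ^ 2 := by
    nlinarith [sq_nonneg ρ]
  have h3 : Real.exp ((12 * Kr + 4) * (7 / 10))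
      ≤ Real.exp (84 / 5 * δ2 + 28) * Real.exp (34 * ρ ^ 2) := by
    rw [← Real.exp_add]
    exact Real.exp_le_exp.2 h2
  have h4 : logC * Real.exp ((12 * Kr + 4) * (7 / 10))
      ≤ logC * (Real.exp (84 / 5 * δ2 + 28) * Real.exp (34 * ρ ^ 2)) :=
    mul_le_mul_of_nonneg_left h3 hC.le
  calc 2 * NT ≤ logC * Real.exp ((12 * Kr + 4) * (7 / 10)) := by linarith
    _ ≤ logC * (Real.exp (84 / 5 * δ2 + 28) * Real.exp (34 * ρ ^ 2)) := h4
    _ = logC * Real.exp (84 / 5 * δ2 + 28) * Real.exp (34 * ρ ^ 2) := by ring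

/-- The position of the centre of the disc. -/
theorem centre_bound (tx ty ox oy E Cab ρ δ2 X : ℝ) (hδ : 0 ≤ δ2)
    (hsize : 2 * (tx ^ 2 + ty ^ 2) ≤ Cab * E * X)
    (ho : ox ^ 2 + oy ^ 2 ≤ ρ ^ 2 + δ2) (hX1 : 1 ≤ X) (hX2 : ρ ^ 2 ≤ X) :
    (tx + ox) ^ 2 + (ty + oy) ^ 2 ≤ (Cab * E + 2 + 2 * δ2) * X := by
  have h1 : (tx + ox) ^ 2 + (ty + oy) ^ 2 ≤ 2 * (tx ^ 2 + ty ^ 2) + 2 * (ox ^ 2 + oy ^ 2) := by
    nlinarith [sq_nonneg (tx - ox), sq_nonneg (ty - oy)]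
  have h2 : (Cab * E + 2 + 2 * δ2) * X = Cab * E * X + 2 * X + 2 * δ2 * X := by ring
  rw [h2]
  have h3 : 2 * δ2 ≤ 2 * δ2 * X := by nlinarith
  linarith

/-- The natural number `K` used for the radius `r`. -/
theorem exists_K (ρ δ2 : ℝ) (_hρ : 0 ≤ ρ) (hδ : 0 ≤ δ2) :
    ∃ K : ℕ, 2 ≤ K ∧ 4 * ρ ^ 2 + 2 * δ2 + 2 ≤ (K : ℝ) ∧ (K : ℝ) ≤ 4 * ρ ^ 2 + 2 * δ2 + 3 := by
  have hK0 : 0 ≤ 4 * ρ ^ 2 + 2 * δ2 := by positivity
  refine ⟨⌈4 * ρ ^ 2 + 2 * δ2⌉₊ + 2, by omega, ?_, ?_⟩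
  · push_cast
    have := Nat.le_ceil (4 * ρ ^ 2 + 2 * δ2)
    linarith
  · push_cast
    have := Nat.ceil_lt_add_one hK0
    linarith

/-- On every straight line `a x + b y = c` and for every `R` there is a disc of radius `R`,
centred on the line at a point `(x, y)` with `x ^ 2 + y ^ 2 ≤ C exp (34 (|R| + 2) ^ 2)`, which
contains no Gaussian prime; the constant `C` depends only on the line. -/
theorem exists_disc_quant (a b c : ℝ) (hab : a ≠ 0 ∨ b ≠ 0) :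
    ∃ C : ℝ, ∀ R : ℝ, ∃ x y : ℝ, a * x + b * y = c ∧
      x ^ 2 + y ^ 2 ≤ C * Real.exp (34 * (|R| + 2) ^ 2) ∧
      ∀ z : GaussianInt, Irreducible z →
        R ^ 2 < ((z.re : ℝ) - x) ^ 2 + ((z.im : ℝ) - y) ^ 2 := by
  have hn : 0 < a ^ 2 + b ^ 2 := by
    rcases hab with h | h
    · have := sq_pos_of_ne_zero h
      nlinarith [sq_nonneg b]
    · have := sq_pos_of_ne_zero h
      nlinarith [sq_nonneg a]
  have hδ0 : 0 ≤ (|c| + |a|) ^ 2 / (a ^ 2 + b ^ 2) := div_nonneg (sq_nonneg _) hn.le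
  have hCab0 : 0 < 3 * (1 + (|b / a| + 1) ^ 2) := by
    have : (0 : ℝ) ≤ (|b / a| + 1) ^ 2 := sq_nonneg _
    linarith
  refine ⟨3 * (1 + (|b / a| + 1) ^ 2)
    * Real.exp (84 / 5 * ((|c| + |a|) ^ 2 / (a ^ 2 + b ^ 2)) + 28) + 2
    + 2 * ((|c| + |a|) ^ 2 / (a ^ 2 + b ^ 2)), ?_⟩
  intro R
  have hr0 : 0 ≤ |R| := abs_nonneg R
  have hρ0 : 0 ≤ |R| + 2 := by linarith
  obtain ⟨K, hK2, hKlo, hKhi⟩ := exists_K (|R| + 2) _ hρ0 hδ0
  obtain ⟨T, hTprime, hTbig, hT1, _, _, hTlog⟩ := exists_barrier a b 1 (Or.inl rfl) K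
  obtain ⟨ox, oy, hline, holo, hohi⟩ := exists_offset a b c (T.re : ℝ) (T.im : ℝ) (|R| + 2) hn
    hρ0 hT1
  have hNT0 : 0 ≤ (T.re : ℝ) ^ 2 + (T.im : ℝ) ^ 2 := by positivity
  have hsize := size_bound _ _ (K : ℝ) (|R| + 2) _ hCab0 hTlog hNT0 hKhi
  have hexp1 : (1 : ℝ) ≤ Real.exp (34 * (|R| + 2) ^ 2) := Real.one_le_exp (by positivity)
  have hexp2 : (|R| + 2) ^ 2 ≤ Real.exp (34 * (|R| + 2) ^ 2) := by
    have h1 : 34 * (|R| + 2) ^ 2 + 1 ≤ Real.exp (34 * (|R| + 2) ^ 2) := Real.add_one_le_exp _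
    nlinarith [sq_nonneg (|R| + 2)]
  refine ⟨(T.re : ℝ) + ox, (T.im : ℝ) + oy, hline, ?_, ?_⟩
  · exact centre_bound _ _ ox oy _ _ (|R| + 2) _ _ hδ0 hsize hohi hexp1 hexp2
  · intro z hz
    have h1 := disc_free K hK2 T hTprime hTbig ox oy |R| hr0 holo
      (by nlinarith [sq_nonneg |R|]) z hz
    rw [sq_abs] at h1
    exact h1

end Vale.Agent.Lib.Helper5.P015Discs
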