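import Mathlib
import Vale.Agent.Lib.Helper5.P015Effective

/-!
Gaussian primes in a strip around a line of rational direction: an explicit bound.

Let `u, v` be integers, not both zero, and `M = K# (2 K + 2)`.  Every nonzero multiple
`j M (u + v i)` is the centre of a disc of squared radius `K` in which the only possible Gaussian
primes are its four neighbours.  A path of Gaussian primes with steps of length at most `D`
inside a strip around the line through the origin of direction `(u, v)` which reaches such a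
point along the line lands in that disc and is trapped.  Hence the coordinate `u x + v y` along
such a path stays within `(2 M + 1) (u ^ 2 + v ^ 2)` of its first value.
-/

open scoped GaussianInt
open Nat

namespace Vale.Agent.Lib.Helper5.P015EffectiveQ

open Vale.Agent.Lib.Helper5.P015Moat Vale.Agent.Lib.Helper5.P015LogMoat
open Vale.Agent.Lib.Helper5.P015Effective

/-- The norm of `z - T` in the coordinates along and across the direction `(u, v)`. -/
theorem norm_coords (z T : GaussianInt) (u v : ℤ) :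
    (z - T).norm * (u * u + v * v)
      = (u * (z.re - T.re) + v * (z.im - T.im)) ^ 2
        + (v * (z.re - T.re) - u * (z.im - T.im)) ^ 2 := by
  rw [Zsqrtd.norm_def]
  simp only [Zsqrtd.re_sub, Zsqrtd.im_sub]
  ring

/-- A neighbour of `T` has coordinate along `(u, v)` within `u ^ 2 + v ^ 2` of that of `T`. -/
theorem coord_near_of_norm_one (z T : GaussianInt) (u v : ℤ) (hN : 1 ≤ u * u + v * v)
    (h : (z - T).norm = 1) :
    |u * (z.re - T.re) + v * (z.im - T.im)| ≤ u * u + v * v := by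
  have h1 := norm_coords z T u v
  rw [h, one_mul] at h1
  rw [abs_le]
  constructor <;>
    nlinarith [sq_nonneg (v * (z.re - T.re) - u * (z.im - T.im))]

/-- The barrier points on the line through the origin of direction `(u, v)`. -/
theorem barrier_dir (K : ℕ) (u v : ℤ) (hN : 1 ≤ u * u + v * v) (j : ℤ) (hj : j ≠ 0) :
    ∃ T : GaussianInt, T.re = j * ((primorial K * (2 * K + 2) : ℕ) : ℤ) * u ∧
      T.im = j * ((primorial K * (2 * K + 2) : ℕ) : ℤ) * v ∧
      (∀ p : ℕ, p.Prime → p ≤ K → ((p : ℕ) : GaussianInt) ∣ T) ∧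
      2 * (K : ℤ) ^ 2 + 2 * K + 2 ≤ T.norm := by
  obtain ⟨h1, h2⟩ := barrier_real K j hj
  refine ⟨((j * ((primorial K * (2 * K + 2) : ℕ) : ℤ) : ℤ) : GaussianInt) * ⟨u, v⟩, ?_, ?_, ?_, ?_⟩
  · simp
  · simp
  · intro p hp hpK
    exact Dvd.dvd.mul_right (h1 p hp hpK) _
  · rw [Zsqrtd.norm_mul]
    have h3 : (⟨u, v⟩ : GaussianInt).norm = u * u + v * v := by
      rw [Zsqrtd.norm_def]
      ring
    rw [h3]
    have h4 : (0 : ℤ) ≤ 2 * (K : ℤ) ^ 2 + 2 * K + 2 := by positivity
    nlinarith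

/-- Real arithmetic: a point of the strip whose coordinate along the line is within a step of
that of `T` lies in the disc around `T`. -/
theorem in_disc (nz s t D V Kr Nw : ℝ) (hNw : 0 < Nw) (hn : nz * Nw = s ^ 2 + t ^ 2)
    (hs : s ^ 2 ≤ D ^ 2 * Nw) (ht : t ^ 2 ≤ V * Nw) (hK : D ^ 2 + V ≤ Kr) : nz ≤ Kr := by
  have h1 : nz * Nw ≤ Kr * Nw := by
    have h2 : (D ^ 2 + V) * Nw ≤ Kr * Nw := mul_le_mul_of_nonneg_right hK hNw.le
    nlinarith
  exact le_of_mul_le_mul_right h1 hNw

/-- A step of length at most `D` changes the coordinate along `(u, v)` by at most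
`D sqrt (u ^ 2 + v ^ 2)`. -/
theorem step_coord (u v dx dy D : ℝ) (h : dx ^ 2 + dy ^ 2 ≤ D ^ 2) :
    (u * dx + v * dy) ^ 2 ≤ D ^ 2 * (u * u + v * v) := by
  have h1 : (u * dx + v * dy) ^ 2 ≤ (u * u + v * v) * (dx ^ 2 + dy ^ 2) := by
    nlinarith [sq_nonneg (u * dy - v * dx)]
  have h2 : (u * u + v * v) * (dx ^ 2 + dy ^ 2) ≤ (u * u + v * v) * D ^ 2 :=
    mul_le_mul_of_nonneg_left h (by nlinarith [mul_self_nonneg u, mul_self_nonneg v])
  linarith

/-- A path of Gaussian primes in a strip around the line through the origin of direction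
`(u, v)`, with steps of length at most `D`, which starts before the barrier point
`j M (u + v i)` never gets more than `u ^ 2 + v ^ 2` beyond it in the coordinate
`u x + v y`. -/
theorem right_barrier_dir (K : ℕ) (hK : 2 ≤ K) (D V : ℝ) (hKD : (|D| + 1) ^ 2 + V ≤ (K : ℝ))
    (u v : ℤ) (hN : 1 ≤ u * u + v * v)
    (z : ℕ → GaussianInt) (hirr : ∀ n, Irreducible (z n))
    (hstep : ∀ n, (((z (n + 1)).re : ℝ) - (z n).re) ^ 2
      + (((z (n + 1)).im : ℝ) - (z n).im) ^ 2 ≤ D ^ 2)
    (hstrip : ∀ n, ((v : ℝ) * (z n).re - (u : ℝ) * (z n).im) ^ 2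
      ≤ V * ((u : ℝ) * u + (v : ℝ) * v))
    (j : ℤ) (hj : j ≠ 0)
    (h0 : u * (z 0).re + v * (z 0).im
      ≤ j * ((primorial K * (2 * K + 2) : ℕ) : ℤ) * (u * u + v * v)) (n : ℕ) :
    u * (z n).re + v * (z n).im
      ≤ j * ((primorial K * (2 * K + 2) : ℕ) : ℤ) * (u * u + v * v) + (u * u + v * v) := by
  set M : ℤ := ((primorial K * (2 * K + 2) : ℕ) : ℤ) with hM
  obtain ⟨T, hTre, hTim, hTprime, hTbig⟩ := barrier_dir K u v hN j hj
  rw [← hM] at hTre hTim
  have hD1 : (|D| + 1) ^ 2 ≤ (K : ℝ) := by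
    have hV0 : 0 ≤ V := by
      have h1 := hstrip 0
      have h2 : (0 : ℝ) < (u : ℝ) * u + (v : ℝ) * v := by exact_mod_cast (by omega : 0 < u * u + v * v)
      by_contra hneg
      rw [not_le] at hneg
      nlinarith [sq_nonneg ((v : ℝ) * (z 0).re - (u : ℝ) * (z 0).im)]
    linarith
  have hDV : D ^ 2 + V ≤ (K : ℝ) := by
    have h1 : D ^ 2 = |D| ^ 2 := (sq_abs D).symm
    nlinarith [abs_nonneg D]
  have hNwR : (0 : ℝ) < (u : ℝ) * u + (v : ℝ) * v := by
    exact_mod_cast (by omega : 0 < u * u + v * v)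
  -- the coordinate of `T`
  have hsT : u * T.re + v * T.im = j * M * (u * u + v * v) := by
    rw [hTre, hTim]
    ring
  have htT : v * T.re - u * T.im = 0 := by
    rw [hTre, hTim]
    ring
  by_cases hex : ∃ k, j * M * (u * u + v * v) ≤ u * (z k).re + v * (z k).im
  · classical
    set n₀ : ℕ := Nat.find hex with hn₀
    have hn1 : j * M * (u * u + v * v) ≤ u * (z n₀).re + v * (z n₀).im := Nat.find_spec hex
    -- the point `z n₀` is within a step of `T` along the line
    have hclose : (((u * (z n₀).re + v * (z n₀).im - j * M * (u * u + v * v) : ℤ) : ℝ)) ^ 2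
        ≤ D ^ 2 * ((u : ℝ) * u + (v : ℝ) * v) := by
      by_cases h00 : n₀ = 0
      · have h1 : u * (z n₀).re + v * (z n₀).im = j * M * (u * u + v * v) := by
          rw [h00] at hn1 ⊢
          exact le_antisymm h0 hn1
        rw [h1]
        simp only [sub_self, Int.cast_zero, ne_eq, OfNat.ofNat_ne_zero, not_false_eq_true,
          zero_pow]
        positivity
      · obtain ⟨m', hm'⟩ := Nat.exists_eq_succ_of_ne_zero h00
        have h1 : u * (z m').re + v * (z m').im < j * M * (u * u + v * v) := by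
          have : ¬ j * M * (u * u + v * v) ≤ u * (z m').re + v * (z m').im :=
            Nat.find_min hex (by rw [← hn₀, hm']; exact Nat.lt_succ_self m')
          exact not_le.1 this
        have hs := hstep m'
        rw [← Nat.succ_eq_add_one, ← hm'] at hs
        have hsc := step_coord (u : ℝ) (v : ℝ) _ _ D hs
        have h2 : ((u * (z m').re + v * (z m').im : ℤ) : ℝ)
            < ((j * M * (u * u + v * v) : ℤ) : ℝ) := by exact_mod_cast h1
        have h3 : ((j * M * (u * u + v * v) : ℤ) : ℝ)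
            ≤ ((u * (z n₀).re + v * (z n₀).im : ℤ) : ℝ) := by exact_mod_cast hn1
        push_cast at h2 h3 ⊢
        nlinarith
    have hin : (z n₀ - T).norm ≤ K := by
      have h1 : (((z n₀ - T).norm : ℤ) : ℝ) ≤ ((K : ℤ) : ℝ) := by
        have hnc := norm_coords (z n₀) T u v
        have hnc' : (((z n₀ - T).norm : ℤ) : ℝ) * ((u : ℝ) * u + (v : ℝ) * v)
            = (((u * (z n₀).re + v * (z n₀).im - j * M * (u * u + v * v) : ℤ) : ℝ)) ^ 2
              + ((v : ℝ) * (z n₀).re - (u : ℝ) * (z n₀).im) ^ 2 := by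
          have e1 : u * ((z n₀).re - T.re) + v * ((z n₀).im - T.im)
              = u * (z n₀).re + v * (z n₀).im - j * M * (u * u + v * v) := by
            rw [← hsT]
            ring
          have e2 : v * ((z n₀).re - T.re) - u * ((z n₀).im - T.im)
              = v * (z n₀).re - u * (z n₀).im := by
            have : v * ((z n₀).re - T.re) - u * ((z n₀).im - T.im)
                = v * (z n₀).re - u * (z n₀).im - (v * T.re - u * T.im) := by ring
            rw [this, htT, sub_zero]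
          rw [e1, e2] at hnc
          have := congrArg (fun t : ℤ => (t : ℝ)) hnc
          push_cast at this ⊢
          linarith
        have := in_disc _ _ _ D V (K : ℝ) _ hNwR hnc' hclose (hstrip n₀) hDV
        simpa using this
      exact_mod_cast h1
    have htrap := trapped K hK D hD1 T hTprime hTbig z hirr hstep n₀ hin
    rcases lt_or_ge n n₀ with hlt | hge
    · have : ¬ j * M * (u * u + v * v) ≤ u * (z n).re + v * (z n).im :=
        Nat.find_min hex (by rw [← hn₀]; exact hlt)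
      omega
    · obtain ⟨i, rfl⟩ := Nat.exists_eq_add_of_le hge
      have h1 := coord_near_of_norm_one _ _ u v hN (htrap i)
      rw [abs_le] at h1
      have h2 : u * ((z (n₀ + i)).re - T.re) + v * ((z (n₀ + i)).im - T.im)
          = u * (z (n₀ + i)).re + v * (z (n₀ + i)).im - j * M * (u * u + v * v) := by
        rw [← hsT]
        ring
      rw [h2] at h1
      linarith [h1.2]
  · have h1 : ¬ j * M * (u * u + v * v) ≤ u * (z n).re + v * (z n).im := fun h => hex ⟨n, h⟩
    omega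

/-- The mirror image of `right_barrier_dir`. -/
theorem left_barrier_dir (K : ℕ) (hK : 2 ≤ K) (D V : ℝ) (hKD : (|D| + 1) ^ 2 + V ≤ (K : ℝ))
    (u v : ℤ) (hN : 1 ≤ u * u + v * v)
    (z : ℕ → GaussianInt) (hirr : ∀ n, Irreducible (z n))
    (hstep : ∀ n, (((z (n + 1)).re : ℝ) - (z n).re) ^ 2
      + (((z (n + 1)).im : ℝ) - (z n).im) ^ 2 ≤ D ^ 2)
    (hstrip : ∀ n, ((v : ℝ) * (z n).re - (u : ℝ) * (z n).im) ^ 2
      ≤ V * ((u : ℝ) * u + (v : ℝ) * v))
    (j : ℤ) (hj : j ≠ 0)
    (h0 : j * ((primorial K * (2 * K + 2) : ℕ) : ℤ) * (u * u + v * v)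
      ≤ u * (z 0).re + v * (z 0).im) (n : ℕ) :
    j * ((primorial K * (2 * K + 2) : ℕ) : ℤ) * (u * u + v * v) - (u * u + v * v)
      ≤ u * (z n).re + v * (z n).im := by
  have h := right_barrier_dir K hK D V hKD u v hN (fun k => -z k)
    (fun k => Associated.irreducible ⟨-1, mul_neg_one (z k)⟩ (hirr k))
    (fun k => by
      have := hstep k
      simp only [Zsqrtd.re_neg, Zsqrtd.im_neg]
      push_cast
      nlinarith)
    (fun k => by
      have := hstrip k
      simp only [Zsqrtd.re_neg, Zsqrtd.im_neg]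
      push_cast
      nlinarith) (-j) (neg_ne_zero.2 hj)
    (by simp only [Zsqrtd.re_neg, Zsqrtd.im_neg]; linarith) n
  simp only [Zsqrtd.re_neg, Zsqrtd.im_neg] at h
  linarith

/-- The modulus `K# (2 K + 2)` is less than `2 ^ (3 K + 1)`. -/
theorem modulus_lt (K : ℕ) (hK : 2 ≤ K) :
    ((primorial K * (2 * K + 2) : ℕ) : ℤ) < 2 ^ (3 * K + 1) := by
  have h1 : primorial K ≤ 4 ^ K := primorial_le_four_pow K
  have hP0 : 0 < primorial K := primorial_pos K
  have h2 : 2 * K + 2 < 2 ^ (K + 1) := by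
    obtain ⟨k, rfl⟩ : ∃ k, K = k + 2 := ⟨K - 2, by omega⟩
    have h3 : k < 2 ^ k := Nat.lt_two_pow_self
    have h4 : 2 ^ (k + 2 + 1) = 8 * 2 ^ k := by
      rw [pow_add, pow_add]
      ring
    rw [h4]
    omega
  have h5 : primorial K * (2 * K + 2) < 4 ^ K * 2 ^ (K + 1) :=
    calc primorial K * (2 * K + 2) < primorial K * 2 ^ (K + 1) :=
          Nat.mul_lt_mul_of_pos_left h2 hP0
      _ ≤ 4 ^ K * 2 ^ (K + 1) := Nat.mul_le_mul_right _ h1
  have h6 : 4 ^ K * 2 ^ (K + 1) = 2 ^ (3 * K + 1) := by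
    have h4 : (4 : ℕ) ^ K = 2 ^ (2 * K) := by
      rw [pow_mul]
      norm_num
    rw [h4, ← pow_add]
    congr 1
    ring
  rw [h6] at h5
  exact_mod_cast h5

/-- Along a path of Gaussian primes in a strip around the line through the origin of direction
`(u, v)`, with steps of length at most `D`, the coordinate `u x + v y` stays within
`2 ^ (3 K + 2) (u ^ 2 + v ^ 2)` of its first value. -/
theorem strip_bound_dir (K : ℕ) (hK : 2 ≤ K) (D V : ℝ) (hKD : (|D| + 1) ^ 2 + V ≤ (K : ℝ))
    (u v : ℤ) (hN : 1 ≤ u * u + v * v)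
    (z : ℕ → GaussianInt) (hirr : ∀ n, Irreducible (z n))
    (hstep : ∀ n, (((z (n + 1)).re : ℝ) - (z n).re) ^ 2
      + (((z (n + 1)).im : ℝ) - (z n).im) ^ 2 ≤ D ^ 2)
    (hstrip : ∀ n, ((v : ℝ) * (z n).re - (u : ℝ) * (z n).im) ^ 2
      ≤ V * ((u : ℝ) * u + (v : ℝ) * v)) (n : ℕ) :
    |u * ((z n).re - (z 0).re) + v * ((z n).im - (z 0).im)|
      ≤ 2 ^ (3 * K + 2) * (u * u + v * v) := by
  have hMlt := modulus_lt K hK
  have hr0 := right_barrier_dir K hK D V hKD u v hN z hirr hstep hstrip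
  have hl0 := left_barrier_dir K hK D V hKD u v hN z hirr hstep hstrip
  have hMpos0 : (0 : ℤ) < ((primorial K * (2 * K + 2) : ℕ) : ℤ) := by
    have hP0 : 0 < primorial K := primorial_pos K
    have : 0 < primorial K * (2 * K + 2) := Nat.mul_pos hP0 (by omega)
    exact_mod_cast this
  generalize ((primorial K * (2 * K + 2) : ℕ) : ℤ) = M0 at hMlt hr0 hl0 hMpos0
  have hMpos : 0 < M0 * (u * u + v * v) := by positivity
  have hx : ∀ k, u * (z k).re + v * (z k).im = u * (z k).re + v * (z k).im := fun _ => rfl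
  generalize hx₀ : u * (z 0).re + v * (z 0).im = x₀ at hr0 hl0
  generalize hMM : M0 * (u * u + v * v) = MM at hMpos
  have hdiv : x₀ % MM + MM * (x₀ / MM) = x₀ := Int.emod_add_mul_ediv x₀ MM
  have hmod0 : 0 ≤ x₀ % MM := Int.emod_nonneg _ hMpos.ne'
  have hmod1 : x₀ % MM < MM := Int.emod_lt_of_pos _ hMpos
  obtain ⟨jr, hjr0, hjr1, hjr2⟩ : ∃ j : ℤ, j ≠ 0 ∧ x₀ ≤ j * MM ∧ j * MM ≤ x₀ + 2 * MM := by
    by_cases h : x₀ / MM + 1 = 0
    · refine ⟨1, one_ne_zero, ?_, ?_⟩
      · have : x₀ / MM = -1 := by omega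
        rw [this] at hdiv
        linarith
      · have : x₀ / MM = -1 := by omega
        rw [this] at hdiv
        linarith
    · refine ⟨x₀ / MM + 1, h, ?_, ?_⟩
      · nlinarith
      · nlinarith
  obtain ⟨jl, hjl0, hjl1, hjl2⟩ : ∃ j : ℤ, j ≠ 0 ∧ j * MM ≤ x₀ ∧ x₀ - 2 * MM ≤ j * MM := by
    by_cases h : x₀ / MM = 0
    · refine ⟨-1, by norm_num, ?_, ?_⟩
      · rw [h] at hdiv
        linarith
      · rw [h] at hdiv
        linarith
    · refine ⟨x₀ / MM, h, ?_, ?_⟩
      · nlinarith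
      · nlinarith
  have hr := hr0 jr hjr0 (by rw [mul_assoc, hMM]; exact hjr1) n
  have hl := hl0 jl hjl0 (by rw [mul_assoc, hMM]; exact hjl1) n
  rw [mul_assoc, hMM] at hr hl
  have hpow : (2 : ℤ) ^ (3 * K + 2) = 2 * 2 ^ (3 * K + 1) := by
    rw [show 3 * K + 2 = (3 * K + 1) + 1 by ring, pow_succ]
    ring
  have hgoal : u * ((z n).re - (z 0).re) + v * ((z n).im - (z 0).im)
      = (u * (z n).re + v * (z n).im) - x₀ := by
    rw [← hx₀]
    ring
  have hbig : 2 * MM + (u * u + v * v) ≤ 2 ^ (3 * K + 2) * (u * u + v * v) := by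
    rw [hpow, ← hMM]
    nlinarith
  rw [hgoal, abs_le]
  constructor
  · linarith
  · linarith

/-- A strip around a line at distance at most `C` from the origin lies in a wider strip around
the parallel line through the origin. -/
theorem strip_shift (t c W C Nw : ℝ) (hNw : 0 ≤ Nw) (hC : 0 ≤ C)
    (h1 : (t - c) ^ 2 ≤ W ^ 2 * Nw) (h2 : c ^ 2 ≤ C ^ 2 * Nw) :
    t ^ 2 ≤ (|W| + C) ^ 2 * Nw := by
  have hW : W ^ 2 = |W| ^ 2 := (sq_abs W).symm
  have h3 : ((t - c) * c) ^ 2 ≤ (|W| * C * Nw) ^ 2 := by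
    have e1 : ((t - c) * c) ^ 2 = (t - c) ^ 2 * c ^ 2 := by ring
    have e2 : (|W| * C * Nw) ^ 2 = (W ^ 2 * Nw) * (C ^ 2 * Nw) := by
      rw [hW]
      ring
    rw [e1, e2]
    exact mul_le_mul h1 h2 (sq_nonneg c) (by positivity)
  have h4 : (t - c) * c ≤ |W| * C * Nw :=
    le_trans (le_abs_self _) (abs_le_of_sq_le_sq h3 (by positivity))
  have e3 : t ^ 2 = (t - c) ^ 2 + 2 * ((t - c) * c) + c ^ 2 := by ring
  have e4 : (|W| + C) ^ 2 * Nw = |W| ^ 2 * Nw + 2 * (|W| * C * Nw) + C ^ 2 * Nw := by ring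
  rw [hW] at h1
  linarith

/-- Paths of Gaussian primes in a strip around a line of rational direction: if the line
`v x - u y = c` is at distance at most `C` from the origin and `(|D| + 1) ^ 2 + (|W| + C) ^ 2 ≤ K`,
then along every path of Gaussian primes with steps of length at most `D` within distance `W`
of the line, the coordinate `u x + v y` stays within `2 ^ (3 K + 2) (u ^ 2 + v ^ 2)` of its
first value. -/
theorem rational_strip_bound (u v : ℤ) (huv : u ≠ 0 ∨ v ≠ 0) (c C D W : ℝ) (K : ℕ) (hC : 0 ≤ C)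
    (hc : c ^ 2 ≤ C ^ 2 * ((u : ℝ) ^ 2 + (v : ℝ) ^ 2))
    (hKD : (|D| + 1) ^ 2 + (|W| + C) ^ 2 ≤ (K : ℝ))
    (z : ℕ → GaussianInt) (hirr : ∀ n, Irreducible (z n))
    (hstep : ∀ n, (((z (n + 1)).re : ℝ) - (z n).re) ^ 2
      + (((z (n + 1)).im : ℝ) - (z n).im) ^ 2 ≤ D ^ 2)
    (hstrip : ∀ n, ((v : ℝ) * (z n).re - (u : ℝ) * (z n).im - c) ^ 2
      ≤ W ^ 2 * ((u : ℝ) ^ 2 + (v : ℝ) ^ 2)) (n : ℕ) :
    |u * ((z n).re - (z 0).re) + v * ((z n).im - (z 0).im)|
      ≤ 2 ^ (3 * K + 2) * (u ^ 2 + v ^ 2) := by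
  have hN : 1 ≤ u * u + v * v := by
    rcases huv with h | h
    · have h1 : 1 ≤ u * u := by
        rcases lt_or_gt_of_ne h with h' | h' <;> nlinarith
      nlinarith [mul_self_nonneg v]
    · have h1 : 1 ≤ v * v := by
        rcases lt_or_gt_of_ne h with h' | h' <;> nlinarith
      nlinarith [mul_self_nonneg u]
  have hNw : (0 : ℝ) ≤ (u : ℝ) ^ 2 + (v : ℝ) ^ 2 := by positivity
  have e : (u : ℝ) * u + (v : ℝ) * v = (u : ℝ) ^ 2 + (v : ℝ) ^ 2 := by ring
  have e' : u ^ 2 + v ^ 2 = u * u + v * v := by ring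
  rw [e']
  by_cases hK : 2 ≤ K
  · refine strip_bound_dir K hK D ((|W| + C) ^ 2) hKD u v hN z hirr hstep (fun k => ?_) n
    rw [e]
    exact strip_shift _ c W C _ hNw hC (hstrip k) hc
  · have hK1 : (K : ℝ) ≤ 1 := by
      have : K ≤ 1 := by omega
      exact_mod_cast this
    have hD0 : |D| = 0 := by
      have h1 : 0 ≤ |D| := abs_nonneg D
      nlinarith [sq_nonneg (|W| + C)]
    have hD : D = 0 := abs_eq_zero.1 hD0
    have hconst : ∀ k, (z k).re = (z 0).re ∧ (z k).im = (z 0).im := by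
      intro k
      induction k with
      | zero => exact ⟨rfl, rfl⟩
      | succ k ih =>
        have hs := hstep k
        rw [hD] at hs
        have h2 : (((z (k + 1)).re : ℝ) - (z k).re) ^ 2 ≤ 0 := by
          nlinarith [sq_nonneg (((z (k + 1)).im : ℝ) - (z k).im)]
        have h2' : (((z (k + 1)).im : ℝ) - (z k).im) ^ 2 ≤ 0 := by
          nlinarith [sq_nonneg (((z (k + 1)).re : ℝ) - (z k).re)]
        have h3 : ((z (k + 1)).re : ℝ) - (z k).re = 0 := by
          have h4 := sq_nonneg (((z (k + 1)).re : ℝ) - (z k).re)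
          exact pow_eq_zero_iff (two_ne_zero) |>.1 (le_antisymm h2 h4)
        have h3' : ((z (k + 1)).im : ℝ) - (z k).im = 0 := by
          have h4 := sq_nonneg (((z (k + 1)).im : ℝ) - (z k).im)
          exact pow_eq_zero_iff (two_ne_zero) |>.1 (le_antisymm h2' h4)
        have h5 : ((z (k + 1)).re : ℝ) = ((z k).re : ℝ) := by linarith
        have h5' : ((z (k + 1)).im : ℝ) = ((z k).im : ℝ) := by linarith
        have h6 : (z (k + 1)).re = (z k).re := by exact_mod_cast h5
        have h6' : (z (k + 1)).im = (z k).im := by exact_mod_cast h5'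
        exact ⟨by rw [h6, ih.1], by rw [h6', ih.2]⟩
    rw [(hconst n).1, (hconst n).2, sub_self, sub_self, mul_zero, mul_zero, add_zero, abs_zero]
    positivity

end Vale.Agent.Lib.Helper5.P015EffectiveQ
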