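import Mathlib
import Vale.Agent.Lib.Helper5.P015LogMoat

/-!
Gaussian primes near a finite union of straight lines.

An infinite sequence of distinct Gaussian primes with steps of bounded length cannot stay within
bounded distance of a finite union of straight lines.  The proof is an induction on the number of
lines: a line parallel to another one is absorbed into a wider strip around that one; a line
parallel to no other one has a strip which, far from the origin, is far from the other strips,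
so that a path which is far from the origin (as it eventually is, its points being distinct)
cannot change between this strip and the others; the case of one line is
`P015LogMoat.leaves_log_region`.
-/

open scoped GaussianInt

namespace Vale.Agent.Lib.Helper5.P015Union

open Vale.Agent.Lib.Helper5.P015Moat Vale.Agent.Lib.Helper5.P015LogMoat

/-- A strip around a line lies in a wider strip around any parallel line. -/
theorem parallel_strip (a1 b1 c1 a2 b2 c2 W : ℝ) (h1 : 0 < a1 ^ 2 + b1 ^ 2)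
    (h2 : 0 < a2 ^ 2 + b2 ^ 2) (hdet : a1 * b2 - a2 * b1 = 0) :
    ∃ W' : ℝ, W ^ 2 ≤ W' ^ 2 ∧ ∀ x y : ℝ,
      (a1 * x + b1 * y - c1) ^ 2 ≤ W ^ 2 * (a1 ^ 2 + b1 ^ 2) →
      (a2 * x + b2 * y - c2) ^ 2 ≤ W' ^ 2 * (a2 ^ 2 + b2 ^ 2) := by
  obtain ⟨l, hla, hlb⟩ : ∃ l : ℝ, a2 = l * a1 ∧ b2 = l * b1 := by
    refine ⟨(a1 * a2 + b1 * b2) / (a1 ^ 2 + b1 ^ 2), ?_, ?_⟩
    · rw [div_mul_eq_mul_div, eq_div_iff h1.ne']
      linear_combination (-b1) * hdet
    · rw [div_mul_eq_mul_div, eq_div_iff h1.ne']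
      linear_combination a1 * hdet
  subst hla hlb
  have he0 : 0 ≤ 2 * (l * c1 - c2) ^ 2 / ((l * a1) ^ 2 + (l * b1) ^ 2) := by positivity
  have hW1 : 1 + 2 * W ^ 2 ≤ 1 + 2 * W ^ 2
      + 2 * (l * c1 - c2) ^ 2 / ((l * a1) ^ 2 + (l * b1) ^ 2) := by linarith
  have hW2 : (1 + 2 * W ^ 2) ^ 2 ≤ (1 + 2 * W ^ 2
      + 2 * (l * c1 - c2) ^ 2 / ((l * a1) ^ 2 + (l * b1) ^ 2)) ^ 2 :=
    pow_le_pow_left₀ (by positivity) hW1 2
  refine ⟨1 + 2 * W ^ 2 + 2 * (l * c1 - c2) ^ 2 / ((l * a1) ^ 2 + (l * b1) ^ 2), ?_, ?_⟩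
  · nlinarith [sq_nonneg W, sq_nonneg (W ^ 2)]
  · intro x y hin
    have ht : l * a1 * x + l * b1 * y - c2 = l * (a1 * x + b1 * y - c1) + (l * c1 - c2) := by ring
    rw [ht]
    have h3 : (l * (a1 * x + b1 * y - c1) + (l * c1 - c2)) ^ 2
        ≤ 2 * l ^ 2 * (a1 * x + b1 * y - c1) ^ 2 + 2 * (l * c1 - c2) ^ 2 := by
      nlinarith [sq_nonneg (l * (a1 * x + b1 * y - c1) - (l * c1 - c2))]
    have h4 : 2 * l ^ 2 * (a1 * x + b1 * y - c1) ^ 2
        ≤ 2 * l ^ 2 * (W ^ 2 * (a1 ^ 2 + b1 ^ 2)) :=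
      mul_le_mul_of_nonneg_left hin (by positivity)
    have h5 : 2 * l ^ 2 * (W ^ 2 * (a1 ^ 2 + b1 ^ 2))
        = 2 * W ^ 2 * ((l * a1) ^ 2 + (l * b1) ^ 2) := by ring
    have h6 : 2 * (l * c1 - c2) ^ 2
        = (2 * (l * c1 - c2) ^ 2 / ((l * a1) ^ 2 + (l * b1) ^ 2))
          * ((l * a1) ^ 2 + (l * b1) ^ 2) := by
      rw [div_mul_cancel₀ _ h2.ne']
    have h7 : (1 + 2 * W ^ 2 + 2 * (l * c1 - c2) ^ 2 / ((l * a1) ^ 2 + (l * b1) ^ 2))
        ≤ (1 + 2 * W ^ 2 + 2 * (l * c1 - c2) ^ 2 / ((l * a1) ^ 2 + (l * b1) ^ 2)) ^ 2 := by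
      have h8 : (1 : ℝ) ≤ 1 + 2 * W ^ 2
          + 2 * (l * c1 - c2) ^ 2 / ((l * a1) ^ 2 + (l * b1) ^ 2) := by
        nlinarith [sq_nonneg W]
      nlinarith
    have h9 : (1 + 2 * W ^ 2 + 2 * (l * c1 - c2) ^ 2 / ((l * a1) ^ 2 + (l * b1) ^ 2))
          * ((l * a1) ^ 2 + (l * b1) ^ 2)
        ≤ (1 + 2 * W ^ 2 + 2 * (l * c1 - c2) ^ 2 / ((l * a1) ^ 2 + (l * b1) ^ 2)) ^ 2
          * ((l * a1) ^ 2 + (l * b1) ^ 2) :=
      mul_le_mul_of_nonneg_right h7 h2.le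
    have h10 : 2 * W ^ 2 * ((l * a1) ^ 2 + (l * b1) ^ 2)
          + (2 * (l * c1 - c2) ^ 2 / ((l * a1) ^ 2 + (l * b1) ^ 2))
            * ((l * a1) ^ 2 + (l * b1) ^ 2)
        ≤ (1 + 2 * W ^ 2 + 2 * (l * c1 - c2) ^ 2 / ((l * a1) ^ 2 + (l * b1) ^ 2))
          * ((l * a1) ^ 2 + (l * b1) ^ 2) := by
      nlinarith
    rw [h5] at h4
    linarith

/-- A point of a strip around one line which is within `D` of a point of a strip around a
non-parallel line is at bounded distance from the origin. -/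
theorem sep (a1 b1 c1 a2 b2 c2 W D x y x' y' : ℝ) (hdet : a1 * b2 - a2 * b1 ≠ 0)
    (hin1 : (a1 * x + b1 * y - c1) ^ 2 ≤ W ^ 2 * (a1 ^ 2 + b1 ^ 2))
    (hin2 : (a2 * x' + b2 * y' - c2) ^ 2 ≤ W ^ 2 * (a2 ^ 2 + b2 ^ 2))
    (hstep : (x' - x) ^ 2 + (y' - y) ^ 2 ≤ D ^ 2) :
    x ^ 2 + y ^ 2 ≤ (2 * (a2 ^ 2 + b2 ^ 2) * (2 * W ^ 2 * (a1 ^ 2 + b1 ^ 2) + 2 * c1 ^ 2)
      + 2 * (a1 ^ 2 + b1 ^ 2) * (4 * (W ^ 2 + D ^ 2) * (a2 ^ 2 + b2 ^ 2) + 2 * c2 ^ 2))
      / (a1 * b2 - a2 * b1) ^ 2 := by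
  have hdet2 : 0 < (a1 * b2 - a2 * b1) ^ 2 := by positivity
  rw [le_div_iff₀ hdet2]
  have hq : (a2 * x + b2 * y - c2) ^ 2
      ≤ 2 * (a2 * x' + b2 * y' - c2) ^ 2 + 2 * (a2 * (x' - x) + b2 * (y' - y)) ^ 2 := by
    have e : a2 * x + b2 * y - c2
        = (a2 * x' + b2 * y' - c2) - (a2 * (x' - x) + b2 * (y' - y)) := by ring
    rw [e]
    nlinarith [sq_nonneg ((a2 * x' + b2 * y' - c2) + (a2 * (x' - x) + b2 * (y' - y)))]
  have hcs : (a2 * (x' - x) + b2 * (y' - y)) ^ 2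
      ≤ (a2 ^ 2 + b2 ^ 2) * ((x' - x) ^ 2 + (y' - y) ^ 2) := by
    nlinarith [sq_nonneg (a2 * (y' - y) - b2 * (x' - x))]
  have hcs' : (a2 ^ 2 + b2 ^ 2) * ((x' - x) ^ 2 + (y' - y) ^ 2) ≤ (a2 ^ 2 + b2 ^ 2) * D ^ 2 :=
    mul_le_mul_of_nonneg_left hstep (by positivity)
  have hq2 : (a2 * x + b2 * y - c2) ^ 2 ≤ 2 * (W ^ 2 + D ^ 2) * (a2 ^ 2 + b2 ^ 2) := by
    nlinarith
  have hP : (a1 * x + b1 * y) ^ 2 ≤ 2 * W ^ 2 * (a1 ^ 2 + b1 ^ 2) + 2 * c1 ^ 2 := by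
    nlinarith [sq_nonneg ((a1 * x + b1 * y - c1) - c1)]
  have hQ : (a2 * x + b2 * y) ^ 2 ≤ 4 * (W ^ 2 + D ^ 2) * (a2 ^ 2 + b2 ^ 2) + 2 * c2 ^ 2 := by
    nlinarith [sq_nonneg ((a2 * x + b2 * y - c2) - c2)]
  have hid : (x ^ 2 + y ^ 2) * (a1 * b2 - a2 * b1) ^ 2
      = (b2 * (a1 * x + b1 * y) - b1 * (a2 * x + b2 * y)) ^ 2
        + (a1 * (a2 * x + b2 * y) - a2 * (a1 * x + b1 * y)) ^ 2 := by ring
  have hb : (b2 * (a1 * x + b1 * y) - b1 * (a2 * x + b2 * y)) ^ 2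
        + (a1 * (a2 * x + b2 * y) - a2 * (a1 * x + b1 * y)) ^ 2
      ≤ 2 * (a2 ^ 2 + b2 ^ 2) * (a1 * x + b1 * y) ^ 2
        + 2 * (a1 ^ 2 + b1 ^ 2) * (a2 * x + b2 * y) ^ 2 := by
    nlinarith [sq_nonneg (b2 * (a1 * x + b1 * y) + b1 * (a2 * x + b2 * y)),
      sq_nonneg (a1 * (a2 * x + b2 * y) + a2 * (a1 * x + b1 * y))]
  have h1 := mul_le_mul_of_nonneg_left hP (by positivity : (0 : ℝ) ≤ 2 * (a2 ^ 2 + b2 ^ 2))
  have h2 := mul_le_mul_of_nonneg_left hQ (by positivity : (0 : ℝ) ≤ 2 * (a1 ^ 2 + b1 ^ 2))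
  rw [hid]
  linarith

/-- The points of an injective sequence of Gaussian integers are eventually far from the
origin. -/
theorem eventually_far (z : ℕ → GaussianInt) (hinj : Function.Injective z) (C : ℝ) (N : ℕ) :
    ∃ N1, N ≤ N1 ∧ ∀ n, N1 ≤ n → C < ((z n).re : ℝ) ^ 2 + ((z n).im : ℝ) ^ 2 := by
  have hfin : (z ⁻¹' {w : GaussianInt | ((w.norm : ℤ) : ℝ) ≤ C}).Finite :=
    (finite_norm_le C).preimage hinj.injOn
  obtain ⟨B, hB⟩ := hfin.bddAbove
  refine ⟨max N (B + 1), le_max_left _ _, fun n hn => ?_⟩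
  by_contra h
  rw [not_lt] at h
  have hmem : n ∈ z ⁻¹' {w : GaussianInt | ((w.norm : ℤ) : ℝ) ≤ C} := by
    show (((z n).norm : ℤ) : ℝ) ≤ C
    rw [Zsqrtd.norm_def]
    push_cast
    linarith
  have h1 : n ≤ B := hB hmem
  have h2 := le_max_right N (B + 1)
  omega

/-- An infinite sequence of distinct Gaussian primes with steps of length at most `D` leaves,
again and again, every finite union of strips around straight lines. -/
theorem leaves_union {ι : Type*} (a b c : ι → ℝ) (D : ℝ) (hab : ∀ i, a i ≠ 0 ∨ b i ≠ 0)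
    (s : Finset ι) :
    ∀ W : ℝ, ∀ z : ℕ → GaussianInt, Function.Injective z → (∀ n, Irreducible (z n)) →
      (∀ n, (((z (n + 1)).re : ℝ) - (z n).re) ^ 2
        + (((z (n + 1)).im : ℝ) - (z n).im) ^ 2 ≤ D ^ 2) →
      ∀ N : ℕ, ∃ n, N ≤ n ∧ ∀ i ∈ s, W ^ 2 * ((a i) ^ 2 + (b i) ^ 2)
        < (a i * (z n).re + b i * (z n).im - c i) ^ 2 := by
  classical
  have hpos : ∀ i, 0 < (a i) ^ 2 + (b i) ^ 2 := by
    intro i
    rcases hab i with h | h
    · have := sq_pos_of_ne_zero h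
      nlinarith [sq_nonneg (b i)]
    · have := sq_pos_of_ne_zero h
      nlinarith [sq_nonneg (a i)]
  induction s using Finset.induction_on with
  | empty =>
    intro W z _ _ _ N
    exact ⟨N, le_rfl, by simp⟩
  | insert j s hj ih =>
    intro W z hinj hirr hstep N
    by_contra hcon
    have hin : ∀ n, N ≤ n → ∃ i ∈ insert j s,
        (a i * (z n).re + b i * (z n).im - c i) ^ 2 ≤ W ^ 2 * ((a i) ^ 2 + (b i) ^ 2) := by
      intro n hn
      by_contra h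
      apply hcon
      refine ⟨n, hn, fun i hi => ?_⟩
      by_contra h'
      exact h ⟨i, hi, not_lt.1 h'⟩
    by_cases hpar : ∃ k ∈ s, a j * b k - a k * b j = 0
    · obtain ⟨k, hk, hdet⟩ := hpar
      obtain ⟨W', hW', hpar'⟩ := parallel_strip (a j) (b j) (c j) (a k) (b k) (c k) W
        (hpos j) (hpos k) hdet
      obtain ⟨n, hn, hout⟩ := ih W' z hinj hirr hstep N
      obtain ⟨i, hi, hi'⟩ := hin n hn
      rcases Finset.mem_insert.1 hi with h | his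
      · rw [h] at hi'
        have h1 := hpar' _ _ hi'
        have h2 := hout k hk
        linarith
      · have h1 := hout i his
        have h2 : W ^ 2 * ((a i) ^ 2 + (b i) ^ 2) ≤ W' ^ 2 * ((a i) ^ 2 + (b i) ^ 2) :=
          mul_le_mul_of_nonneg_right hW' (hpos i).le
        linarith
    · have hpar' : ∀ k ∈ s, a j * b k - a k * b j ≠ 0 := fun k hk h => hpar ⟨k, hk, h⟩
      have hR0 : ∀ k, 0 ≤ (2 * ((a k) ^ 2 + (b k) ^ 2)
            * (2 * W ^ 2 * ((a j) ^ 2 + (b j) ^ 2) + 2 * (c j) ^ 2)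
          + 2 * ((a j) ^ 2 + (b j) ^ 2)
            * (4 * (W ^ 2 + D ^ 2) * ((a k) ^ 2 + (b k) ^ 2) + 2 * (c k) ^ 2))
          / (a j * b k - a k * b j) ^ 2 := fun k => by positivity
      obtain ⟨N1, hN1, hfar⟩ := eventually_far z hinj
        (∑ k ∈ s, (2 * ((a k) ^ 2 + (b k) ^ 2)
            * (2 * W ^ 2 * ((a j) ^ 2 + (b j) ^ 2) + 2 * (c j) ^ 2)
          + 2 * ((a j) ^ 2 + (b j) ^ 2)
            * (4 * (W ^ 2 + D ^ 2) * ((a k) ^ 2 + (b k) ^ 2) + 2 * (c k) ^ 2))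
          / (a j * b k - a k * b j) ^ 2) N
      have hstay : ∀ n, N1 ≤ n →
          (a j * (z n).re + b j * (z n).im - c j) ^ 2 ≤ W ^ 2 * ((a j) ^ 2 + (b j) ^ 2) →
          (a j * (z (n + 1)).re + b j * (z (n + 1)).im - c j) ^ 2
            ≤ W ^ 2 * ((a j) ^ 2 + (b j) ^ 2) := by
        intro n hn hjn
        obtain ⟨i, hi, hi'⟩ := hin (n + 1) (by omega)
        rcases Finset.mem_insert.1 hi with h | his
        · rw [h] at hi'
          exact hi'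
        · exfalso
          have h1 := sep (a j) (b j) (c j) (a i) (b i) (c i) W D _ _ _ _ (hpar' i his) hjn hi'
            (hstep n)
          have h2 := Finset.single_le_sum (f := fun k => (2 * ((a k) ^ 2 + (b k) ^ 2)
              * (2 * W ^ 2 * ((a j) ^ 2 + (b j) ^ 2) + 2 * (c j) ^ 2)
            + 2 * ((a j) ^ 2 + (b j) ^ 2)
              * (4 * (W ^ 2 + D ^ 2) * ((a k) ^ 2 + (b k) ^ 2) + 2 * (c k) ^ 2))
            / (a j * b k - a k * b j) ^ 2) (fun k _ => hR0 k) his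
          have h3 := hfar n hn
          linarith
      by_cases hex : ∃ n0, N1 ≤ n0 ∧
          (a j * (z n0).re + b j * (z n0).im - c j) ^ 2 ≤ W ^ 2 * ((a j) ^ 2 + (b j) ^ 2)
      · obtain ⟨n0, hn0, hjn0⟩ := hex
        have hall : ∀ m, n0 ≤ m →
            (a j * (z m).re + b j * (z m).im - c j) ^ 2 ≤ W ^ 2 * ((a j) ^ 2 + (b j) ^ 2) := by
          intro m hm
          induction m, hm using Nat.le_induction with
          | base => exact hjn0
          | succ m hm ihm => exact hstay m (by omega) ihm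
        obtain ⟨m, hm, hout⟩ := leaves_log_region (a j) (b j) (c j) D W (hab j) z hinj hirr
          hstep n0
        have h1 := hall m hm
        have h2 : 0 ≤ Real.log (1 + (((z m).re : ℝ) ^ 2 + ((z m).im : ℝ) ^ 2)) :=
          Real.log_nonneg (by nlinarith [sq_nonneg ((z m).re : ℝ), sq_nonneg ((z m).im : ℝ)])
        have h3 : ((a j) ^ 2 + (b j) ^ 2) * W ^ 2
            ≤ ((a j) ^ 2 + (b j) ^ 2) * (W ^ 2
              + (1 / 32) * Real.log (1 + (((z m).re : ℝ) ^ 2 + ((z m).im : ℝ) ^ 2))) :=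
          mul_le_mul_of_nonneg_left (by linarith) (hpos j).le
        linarith
      · have hnot : ∀ n0, N1 ≤ n0 →
            ¬ (a j * (z n0).re + b j * (z n0).im - c j) ^ 2 ≤ W ^ 2 * ((a j) ^ 2 + (b j) ^ 2) :=
          fun n0 h0 h => hex ⟨n0, h0, h⟩
        obtain ⟨n, hn, hout⟩ := ih W z hinj hirr hstep N1
        obtain ⟨i, hi, hi'⟩ := hin n (by omega)
        rcases Finset.mem_insert.1 hi with h | his
        · rw [h] at hi'
          exact hnot n hn hi'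
        · have h1 := hout i his
          linarith

end Vale.Agent.Lib.Helper5.P015Union
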