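import Mathlib

/-!
Distinct distances for points on polynomial curves in `ℝ ^ d`.

A polynomial curve of degree at most `k` in `ℝ ^ d` is given by `d` real polynomials of degree
at most `k`.  A sphere centred at a point of such a curve meets the curve in at most `2 k`
points.  Hence, if `n` points of a finite set `P` lie on such a curve, every one of them is at
at least `(n - 1) / (2 k)` distinct distances from the other points of `P`.
-/

open Polynomial

namespace Vale.Agent.Lib.Helper5.P054Curve

/-- The polynomial whose roots are the parameters of the points of the curve `γ` at distance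
`r` from the point `x`. -/
noncomputable def spherePoly {d : ℕ} (γ : Fin d → Polynomial ℝ) (x : EuclideanSpace ℝ (Fin d))
    (r : ℝ) : Polynomial ℝ :=
  (∑ i, (γ i - C (x i)) ^ 2) - C (r ^ 2)

theorem spherePoly_eval {d : ℕ} (γ : Fin d → Polynomial ℝ) (x : EuclideanSpace ℝ (Fin d))
    (r t : ℝ) :
    (spherePoly γ x r).eval t = (∑ i, ((γ i).eval t - x i) ^ 2) - r ^ 2 := by
  simp [spherePoly, eval_finsetSum]

theorem spherePoly_natDegree {d : ℕ} (γ : Fin d → Polynomial ℝ) (x : EuclideanSpace ℝ (Fin d))
    (r : ℝ) (k : ℕ) (hγ : ∀ i, (γ i).natDegree ≤ k) : (spherePoly γ x r).natDegree ≤ 2 * k := by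
  unfold spherePoly
  have h1 : (∑ i, (γ i - C (x i)) ^ 2 : Polynomial ℝ).natDegree ≤ 2 * k := by
    apply natDegree_sum_le_of_forall_le
    intro i _
    refine le_trans natDegree_pow_le ?_
    have h3 : (γ i - C (x i)).natDegree ≤ k := by
      refine le_trans (natDegree_sub_le _ _) ?_
      rw [natDegree_C]
      exact max_le (hγ i) (Nat.zero_le k)
    omega
  refine le_trans (natDegree_sub_le _ _) ?_
  rw [natDegree_C]
  exact max_le h1 (Nat.zero_le _)

theorem dist_sq {d : ℕ} (y x : EuclideanSpace ℝ (Fin d)) :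
    dist y x ^ 2 = ∑ i, (y i - x i) ^ 2 := by
  rw [EuclideanSpace.dist_eq, Real.sq_sqrt (Finset.sum_nonneg (fun i _ => sq_nonneg _))]
  simp only [Real.dist_eq, sq_abs]

/-- Main statement: if `x` lies on the curve `γ`, the points of `P` on the curve number at most
`2 k` times the number of distinct distances from `x`, plus one. -/
theorem card_curve_le {d : ℕ} (k : ℕ) (γ : Fin d → Polynomial ℝ)
    (hγ : ∀ i, (γ i).natDegree ≤ k)
    (P : Finset (EuclideanSpace ℝ (Fin d))) (x : EuclideanSpace ℝ (Fin d)) (hx : x ∈ P)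
    (hxg : ∃ t : ℝ, ∀ i, x i = (γ i).eval t) [DecidablePred
      (fun q : EuclideanSpace ℝ (Fin d) => ∃ t : ℝ, ∀ i, q i = (γ i).eval t)] :
    (P.filter (fun q => ∃ t : ℝ, ∀ i, q i = (γ i).eval t)).card
      ≤ 2 * k * ((P.erase x).image (fun y => dist y x)).card + 1 := by
  classical
  set G : Finset (EuclideanSpace ℝ (Fin d)) :=
    P.filter (fun q => ∃ t : ℝ, ∀ i, q i = (γ i).eval t) with hG
  have hxG : x ∈ G := by
    rw [hG, Finset.mem_filter]
    exact ⟨hx, hxg⟩
  obtain ⟨a, ha⟩ := hxg
  -- a parameter for every point of the curve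
  have hpar : ∀ y ∈ G, ∃ t : ℝ, ∀ i, y i = (γ i).eval t := by
    intro y hy
    rw [hG, Finset.mem_filter] at hy
    exact hy.2
  set par : EuclideanSpace ℝ (Fin d) → ℝ :=
    fun y => if h : ∃ t : ℝ, ∀ i, y i = (γ i).eval t then Classical.choose h else 0 with hpardef
  have hparspec : ∀ y ∈ G, ∀ i, y i = (γ i).eval (par y) := by
    intro y hy
    have h := hpar y hy
    rw [hpardef]
    simp only [dif_pos h]
    exact Classical.choose_spec h
  -- each distance is attained at most `2 k` times on the curve
  have hfib : ∀ r ∈ (G.erase x).image (fun y => dist y x),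
      ((G.erase x).filter (fun y => dist y x = r)).card ≤ 2 * k := by
    intro r hr
    rw [Finset.mem_image] at hr
    obtain ⟨y0, hy0, hy0r⟩ := hr
    have hy0' := Finset.mem_erase.1 hy0
    have hrpos : 0 < r := by
      rw [← hy0r]
      exact dist_pos.2 hy0'.1
    have hne : spherePoly γ x r ≠ 0 := by
      intro h
      have h1 := spherePoly_eval γ x r a
      rw [h] at h1
      simp only [eval_zero] at h1
      have h2 : (∑ i, ((γ i).eval a - x i) ^ 2) = 0 := by
        apply Finset.sum_eq_zero
        intro i _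
        rw [ha i, sub_self]
        norm_num
      rw [h2] at h1
      nlinarith
    have hinj : Set.InjOn par
        ((G.erase x).filter (fun y => dist y x = r) : Set (EuclideanSpace ℝ (Fin d))) := by
      intro y hy y' hy' hyy'
      have hyG : y ∈ G := (Finset.mem_erase.1 (Finset.mem_filter.1 (Finset.mem_coe.1 hy)).1).2
      have hyG' : y' ∈ G :=
        (Finset.mem_erase.1 (Finset.mem_filter.1 (Finset.mem_coe.1 hy')).1).2
      ext i
      rw [hparspec y hyG i, hparspec y' hyG' i, hyy']
    have hsub : ((G.erase x).filter (fun y => dist y x = r)).image par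
        ⊆ (spherePoly γ x r).roots.toFinset := by
      intro t ht
      rw [Finset.mem_image] at ht
      obtain ⟨y, hy, rfl⟩ := ht
      have hy1 := Finset.mem_filter.1 hy
      have hyG : y ∈ G := (Finset.mem_erase.1 hy1.1).2
      rw [Multiset.mem_toFinset, mem_roots hne, IsRoot.def, spherePoly_eval]
      have hdist := dist_sq y x
      rw [hy1.2] at hdist
      have h3 : (∑ i, ((γ i).eval (par y) - x i) ^ 2) = ∑ i, (y i - x i) ^ 2 := by
        apply Finset.sum_congr rfl
        intro i _
        rw [← hparspec y hyG i]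
      rw [h3]
      linarith
    calc ((G.erase x).filter (fun y => dist y x = r)).card
        = (((G.erase x).filter (fun y => dist y x = r)).image par).card :=
          (Finset.card_image_of_injOn hinj).symm
      _ ≤ (spherePoly γ x r).roots.toFinset.card := Finset.card_le_card hsub
      _ ≤ Multiset.card (spherePoly γ x r).roots := Multiset.toFinset_card_le _
      _ ≤ (spherePoly γ x r).natDegree := card_roots' _
      _ ≤ 2 * k := spherePoly_natDegree γ x r k hγ
  have h1 : (G.erase x).card ≤ 2 * k * ((G.erase x).image (fun y => dist y x)).card :=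
    Finset.card_le_mul_card_image (G.erase x) (2 * k) hfib
  have h2 : ((G.erase x).image (fun y => dist y x)).card
      ≤ ((P.erase x).image (fun y => dist y x)).card := by
    apply Finset.card_le_card
    apply Finset.image_subset_image
    apply Finset.erase_subset_erase
    rw [hG]
    exact Finset.filter_subset _ _
  have h3 : G.card = (G.erase x).card + 1 := (Finset.card_erase_add_one hxG).symm
  have h4 : 2 * k * ((G.erase x).image (fun y => dist y x)).card
      ≤ 2 * k * ((P.erase x).image (fun y => dist y x)).card := Nat.mul_le_mul_left _ h2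
  omega

/-- If `P` is covered by `m` polynomial curves of degree at most `k`, some point of `P` is at
at least `(|P| / m - 1) / (2 k)` distinct distances from the others. -/
theorem exists_pin {d : ℕ} (m k : ℕ) (γ : Fin m → Fin d → Polynomial ℝ)
    (hγ : ∀ j i, (γ j i).natDegree ≤ k) (P : Finset (EuclideanSpace ℝ (Fin d)))
    (hne : P.Nonempty) (hcov : ∀ q ∈ P, ∃ j, ∃ t : ℝ, ∀ i, q i = (γ j i).eval t) :
    ∃ x ∈ P, P.card ≤ m * (2 * k * ((P.erase x).image (fun y => dist y x)).card + 1) := by
  classical
  have hsub : P ⊆ Finset.univ.biUnion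
      (fun j => P.filter (fun q => ∃ t : ℝ, ∀ i, q i = (γ j i).eval t)) := by
    intro q hq
    obtain ⟨j, hj⟩ := hcov q hq
    rw [Finset.mem_biUnion]
    exact ⟨j, Finset.mem_univ j, Finset.mem_filter.2 ⟨hq, hj⟩⟩
  have hcard : P.card
      ≤ ∑ j : Fin m, (P.filter (fun q => ∃ t : ℝ, ∀ i, q i = (γ j i).eval t)).card :=
    (Finset.card_le_card hsub).trans Finset.card_biUnion_le
  obtain ⟨q0, hq0⟩ := hne
  obtain ⟨j0, _⟩ := hcov q0 hq0
  obtain ⟨j, _, hmax⟩ := Finset.exists_max_image Finset.univ
    (fun j => (P.filter (fun q => ∃ t : ℝ, ∀ i, q i = (γ j i).eval t)).card)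
    ⟨j0, Finset.mem_univ j0⟩
  have h2 : P.card ≤ m * (P.filter (fun q => ∃ t : ℝ, ∀ i, q i = (γ j i).eval t)).card := by
    calc P.card
        ≤ ∑ j' : Fin m, (P.filter (fun q => ∃ t : ℝ, ∀ i, q i = (γ j' i).eval t)).card := hcard
      _ ≤ ∑ _j' : Fin m, (P.filter (fun q => ∃ t : ℝ, ∀ i, q i = (γ j i).eval t)).card :=
          Finset.sum_le_sum (fun j' _ => hmax j' (Finset.mem_univ j'))
      _ = m * (P.filter (fun q => ∃ t : ℝ, ∀ i, q i = (γ j i).eval t)).card := by simp
  have hPpos : 0 < P.card := Finset.card_pos.2 ⟨q0, hq0⟩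
  have hpos : 0 < (P.filter (fun q => ∃ t : ℝ, ∀ i, q i = (γ j i).eval t)).card := by
    by_contra h
    have h3 : (P.filter (fun q => ∃ t : ℝ, ∀ i, q i = (γ j i).eval t)).card = 0 := by omega
    rw [h3, mul_zero] at h2
    omega
  obtain ⟨x, hxG⟩ := Finset.card_pos.1 hpos
  rw [Finset.mem_filter] at hxG
  exact ⟨x, hxG.1, h2.trans
    (Nat.mul_le_mul_left m (card_curve_le k (γ j) (hγ j) P x hxG.1 hxG.2))⟩

/-- The distances pinned at a point of `P` are among the distances determined by `P`. -/
theorem pinned_le_all {d : ℕ} (P : Finset (EuclideanSpace ℝ (Fin d)))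
    (x : EuclideanSpace ℝ (Fin d)) (hx : x ∈ P) :
    ((P.erase x).image (fun y => dist y x)).card
      ≤ (P.offDiag.image (fun pq => dist pq.1 pq.2)).card := by
  classical
  apply Finset.card_le_card
  intro r hr
  rw [Finset.mem_image] at hr ⊢
  obtain ⟨y, hy, rfl⟩ := hr
  have hy' := Finset.mem_erase.1 hy
  exact ⟨(y, x), Finset.mem_offDiag.2 ⟨hy'.2, hx, hy'.1⟩, rfl⟩

/-- If `P` is covered by `m` polynomial curves of degree at most `k`, it determines at least
`(|P| / m - 1) / (2 k)` distinct distances. -/
theorem card_le_distances {d : ℕ} (m k : ℕ) (γ : Fin m → Fin d → Polynomial ℝ)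
    (hγ : ∀ j i, (γ j i).natDegree ≤ k) (P : Finset (EuclideanSpace ℝ (Fin d)))
    (hne : P.Nonempty) (hcov : ∀ q ∈ P, ∃ j, ∃ t : ℝ, ∀ i, q i = (γ j i).eval t) :
    P.card ≤ m * (2 * k * (P.offDiag.image (fun pq => dist pq.1 pq.2)).card + 1) := by
  obtain ⟨x, hx, h⟩ := exists_pin m k γ hγ P hne hcov
  refine h.trans (Nat.mul_le_mul_left m ?_)
  have := pinned_le_all P x hx
  have h2 : 2 * k * ((P.erase x).image (fun y => dist y x)).card
      ≤ 2 * k * (P.offDiag.image (fun pq => dist pq.1 pq.2)).card := Nat.mul_le_mul_left _ this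
  omega

end Vale.Agent.Lib.Helper5.P054Curve
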