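import Mathlib

/-!
Two small lemmas used to cut long kernel computations into pieces: a property of all members of
a list follows from the property on an initial segment and on the rest, and a function on the
natural numbers which does not decrease at each of the first `m` steps is monotone up to `m`.
-/

namespace Vale.Agent.Lib.Helper5.P302Chunk

/-- A property holds for all members of a list if it holds for the members of the first `a`
entries and for the members of the remaining entries. -/
theorem forall_mem_of_take_drop {α : Type} {P : α → Prop} (l : List α) (a : ℕ)
    (h1 : ∀ x ∈ l.take a, P x) (h2 : ∀ x ∈ l.drop a, P x) : ∀ x ∈ l, P x := by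
  intro x hx
  have h : x ∈ l.take a ++ l.drop a := by
    rw [List.take_append_drop]
    exact hx
  rcases List.mem_append.1 h with h | h
  · exact h1 x h
  · exact h2 x h

/-- A property holds for all members of `l.drop a` if it holds for the members of the next `s`
entries and for the members of `l.drop b`, where `b = a + s`. -/
theorem forall_mem_drop_step {α : Type} {P : α → Prop} (l : List α) (a s b : ℕ) (hb : a + s = b)
    (h1 : ∀ x ∈ (l.drop a).take s, P x) (h2 : ∀ x ∈ l.drop b, P x) : ∀ x ∈ l.drop a, P x := by
  apply forall_mem_of_take_drop (l.drop a) s h1
  intro x hx
  apply h2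
  rw [← hb, ← List.drop_drop]
  exact hx

/-- A property of all members of `l.drop 0` is a property of all members of `l`. -/
theorem forall_mem_of_drop_zero {α : Type} {P : α → Prop} (l : List α)
    (h : ∀ x ∈ l.drop 0, P x) : ∀ x ∈ l, P x := by
  intro x hx
  apply h
  rw [List.drop_zero]
  exact hx

/-- A function which does not decrease from `j` to `j + 1` for every `j < m` is monotone on
the numbers below `m + 1`. -/
theorem mono_of_step (w : ℕ → ℕ) (m : ℕ) (h : ∀ j, j < m → w j ≤ w (j + 1)) :
    ∀ j, j < m + 1 → ∀ i, i ≤ j → w i ≤ w j := by
  intro j
  induction j with
  | zero =>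
    intro _ i hi
    have h0 : i = 0 := by omega
    rw [h0]
  | succ k ih =>
    intro hj i hi
    rcases Nat.eq_or_lt_of_le hi with h1 | h1
    · rw [h1]
    · exact le_trans (ih (by omega) i (by omega)) (h k (by omega))

end Vale.Agent.Lib.Helper5.P302Chunk
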