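import Vale.Agent.Lib.Helper3.P302Inst122
import Vale.Agent.Lib.Helper8.P302Glue
import Vale.Agent.Lib.Helper5.P302Hyb2XCore
import Vale.Agent.Lib.Helper5.P302Hyb2Inst

/-!
Facts for the lower bound `61` on the optimum of the 181 item instance.

Value argument: an item close to a third has value 5, a large item value 12, a small item or an
item of one seventh value 2.  The total value is 908.  By the size inequality alone a bin has
value at most 14, except a bin with exactly three items close to a third (value 15) and a bin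
with exactly one large item and two small items (value 16).  At most 39 bins are of the first
exceptional kind (certificate for the 122 item instance) and at most 14 of the second kind
(certificate for the auxiliary 51 item instance), so `60` bins hold value at most `907`.
-/

namespace Vale.Agent.Lib.Helper5.P302Hyb2

open Finset Vale.Agent.Lib.Helper3.BinPacking

/-- Indicator of the items close to a third of the capacity. -/
def tI (i : ℕ) : ℕ := if i < 122 then 1 else 0

/-- Indicator of the large items. -/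
def bI (i : ℕ) : ℕ := if 122 ≤ i ∧ i < 140 then 1 else 0

/-- Indicator of the small items. -/
def sI (i : ℕ) : ℕ := if 140 ≤ i ∧ i < 171 then 1 else 0

/-- Indicator of the items of one seventh of the capacity. -/
def fI (i : ℕ) : ℕ := if 171 ≤ i then 1 else 0

/-- The value of an item. -/
def val (i : ℕ) : ℕ := 5 * tI i + 12 * bI i + 2 * sI i + 2 * fI i

/-- The index in the auxiliary instance of a large or small item: the large items go to the
indices 0 to 17, the small items to the indices 19 to 49. -/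
def gx (i : ℕ) : ℕ := if i < 140 then i - 122 else i - 121

/-- Indicator of the 18 lightest items of the auxiliary instance. -/
def hI (j : ℕ) : ℕ := if j < 18 then 1 else 0

/-- An upper bound for the weights of the auxiliary instance. -/
def ub (j : ℕ) : ℕ := if j < 18 then 9437 else if j < 19 then 10001 else if j < 50 then 41131
  else 42252

theorem hw_lb : ∀ i, i < 181 → 83759998359 * tI i + 182253000000 * bI i
    + 33748000000 * sI i + 36000000000 * fI i ≤ hw.getD i 0 := by decide +kernel

theorem hw_third : ∀ i, i < 122 → hw.getD i 0 = wts122.getD i 0 + 83000000000 := by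
  decide +kernel

theorem hw_pib : ∀ j, j < 49 → hw.getD (122 + j) 0 + 6252000000
    = (xw.getD (gx (122 + j)) 0 + 180756 * hI (gx (122 + j))) * 1000000 := by decide +kernel

theorem xw_le_ub : ∀ j, j < 51 → xw.getD j 0 ≤ ub j := by decide +kernel

theorem ub_total : ∑ j ∈ Finset.range 51, ub j = 1497180 := by decide +kernel

theorem hI_total : ∑ j ∈ Finset.range 51, hI j = 18 := by decide +kernel

theorem val_total : ∑ i : Fin 181, val (i : ℕ) = 908 := by decide +kernel

theorem wts_mono122 : ∀ j, j < 122 → ∀ i, i ≤ j → wts122.getD i 0 ≤ wts122.getD j 0 := by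
  decide +kernel

theorem sum_lb (s : Finset ℕ) (hs : ∀ i ∈ s, i < 181) :
    83759998359 * ∑ i ∈ s, tI i + 182253000000 * ∑ i ∈ s, bI i
      + 33748000000 * ∑ i ∈ s, sI i + 36000000000 * ∑ i ∈ s, fI i
      ≤ ∑ i ∈ s, hw.getD i 0 := by
  rw [Finset.mul_sum, Finset.mul_sum, Finset.mul_sum, Finset.mul_sum, ← Finset.sum_add_distrib,
    ← Finset.sum_add_distrib, ← Finset.sum_add_distrib]
  exact Finset.sum_le_sum (fun i hi => hw_lb i (hs i hi))

theorem sum_val (s : Finset ℕ) : ∑ i ∈ s, val i
    = 5 * ∑ i ∈ s, tI i + 12 * ∑ i ∈ s, bI i + 2 * ∑ i ∈ s, sI i + 2 * ∑ i ∈ s, fI i := by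
  simp only [val, Finset.sum_add_distrib, Finset.mul_sum]

/-- The bin is filled by exactly three items close to a third. -/
def IsT3 (s : Finset ℕ) : Prop :=
  ∑ i ∈ s, tI i = 3 ∧ ∑ i ∈ s, bI i = 0 ∧ ∑ i ∈ s, sI i = 0 ∧ ∑ i ∈ s, fI i = 0

/-- The bin is filled by exactly one large item and two small items. -/
def IsPB (s : Finset ℕ) : Prop :=
  ∑ i ∈ s, tI i = 0 ∧ ∑ i ∈ s, bI i = 1 ∧ ∑ i ∈ s, sI i = 2 ∧ ∑ i ∈ s, fI i = 0

theorem bin_cases (s : Finset ℕ) (hs : ∀ i ∈ s, i < 181) (hwt : ∑ i ∈ s, hw.getD i 0 ≤ hcap) :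
    ∑ i ∈ s, val i ≤ 14 ∨ IsT3 s ∨ IsPB s := by
  have h1 := sum_lb s hs
  have hc : hcap = 252000000000 := rfl
  rw [sum_val]
  unfold IsT3 IsPB
  generalize ∑ i ∈ s, tI i = T at *
  generalize ∑ i ∈ s, bI i = B at *
  generalize ∑ i ∈ s, sI i = Sm at *
  generalize ∑ i ∈ s, fI i = Fl at *
  have hT : T ≤ 3 := by omega
  have hB : B ≤ 1 := by omega
  have hS : Sm ≤ 7 := by omega
  have hF : Fl ≤ 7 := by omega
  interval_cases T <;> interval_cases B <;> interval_cases Sm <;> omega

theorem t3_facts (s : Finset ℕ) (hwt : ∑ i ∈ s, hw.getD i 0 ≤ hcap) (h : IsT3 s) :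
    s.card = 3 ∧ (∀ i ∈ s, i < 122) ∧ ∑ i ∈ s, wts122.getD i 0 ≤ cap122 := by
  obtain ⟨h3, hb, hsm, hf⟩ := h
  have hlt : ∀ i ∈ s, i < 122 := by
    intro i hi
    have h1 : bI i = 0 := (Finset.sum_eq_zero_iff.mp hb) i hi
    have h2 : sI i = 0 := (Finset.sum_eq_zero_iff.mp hsm) i hi
    have h4 : fI i = 0 := (Finset.sum_eq_zero_iff.mp hf) i hi
    unfold bI at h1
    unfold sI at h2
    unfold fI at h4
    split_ifs at h1 h2 h4
    omega
  have hcard : s.card = 3 := by
    rw [← h3, Finset.card_eq_sum_ones]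
    apply Finset.sum_congr rfl
    intro i hi
    unfold tI
    rw [if_pos (hlt i hi)]
  refine ⟨hcard, hlt, ?_⟩
  have hshift : ∑ i ∈ s, hw.getD i 0
      = ∑ i ∈ s, wts122.getD i 0 + s.card * 83000000000 := by
    rw [Finset.card_eq_sum_ones, Finset.sum_mul, ← Finset.sum_add_distrib]
    apply Finset.sum_congr rfl
    intro i hi
    rw [one_mul]
    exact hw_third i (hlt i hi)
  rw [hshift, hcard] at hwt
  have hc : hcap = 252000000000 := rfl
  have hc' : cap122 = 3000000000 := rfl
  omega

theorem gx_facts (i : ℕ) (h1 : 122 ≤ i) (h2 : i < 171) :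
    gx i < 51 ∧ gx i ≠ 18 ∧ gx i ≠ 50 ∧ hI (gx i) = bI i ∧ ub (gx i) + 31694 * hI (gx i) = 41131 := by
  unfold gx hI ub bI
  split_ifs <;> omega

theorem gx_inj (i i' : ℕ) (h1 : 122 ≤ i) (h2 : i < 171) (h1' : 122 ≤ i') (h2' : i' < 171)
    (h : gx i = gx i') : i = i' := by
  unfold gx at h
  split_ifs at h <;> omega

theorem pb_facts (s : Finset ℕ) (hwt : ∑ i ∈ s, hw.getD i 0 ≤ hcap) (h : IsPB s) :
    (∀ i ∈ s, 122 ≤ i ∧ i < 171) ∧ (s.image gx).card = 3 ∧
      ∑ j ∈ s.image gx, xw.getD j 0 ≤ xcap ∧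
      ∑ j ∈ s.image gx, ub j = 91699 ∧ ∑ j ∈ s.image gx, hI j = 1 := by
  obtain ⟨h3, hb, hsm, hf⟩ := h
  have hrng : ∀ i ∈ s, 122 ≤ i ∧ i < 171 := by
    intro i hi
    have h1 : tI i = 0 := (Finset.sum_eq_zero_iff.mp h3) i hi
    have h2 : fI i = 0 := (Finset.sum_eq_zero_iff.mp hf) i hi
    unfold tI at h1
    unfold fI at h2
    split_ifs at h1 h2
    omega
  have hinj : ∀ i ∈ s, ∀ j ∈ s, gx i = gx j → i = j := by
    intro i hi j hj hij
    exact gx_inj i j (hrng i hi).1 (hrng i hi).2 (hrng j hj).1 (hrng j hj).2 hij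
  have hcard : s.card = 3 := by
    have h1 : ∑ i ∈ s, (bI i + sI i) = 3 := by rw [Finset.sum_add_distrib, hb, hsm]
    rw [← h1, Finset.card_eq_sum_ones]
    apply Finset.sum_congr rfl
    intro i hi
    have h2 := hrng i hi
    unfold bI sI
    split_ifs <;> omega
  have hhub : ∑ i ∈ s, hI (gx i) = 1 := by
    rw [← hb]
    apply Finset.sum_congr rfl
    intro i hi
    exact (gx_facts i (hrng i hi).1 (hrng i hi).2).2.2.2.1
  refine ⟨hrng, ?_, ?_, ?_, ?_⟩
  · rw [Finset.card_image_of_injOn (fun i hi j hj hij => hinj i hi j hj hij), hcard]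
  · rw [Finset.sum_image hinj]
    have hrel : ∑ i ∈ s, hw.getD i 0 + s.card * 6252000000
        = (∑ i ∈ s, xw.getD (gx i) 0 + 180756 * ∑ i ∈ s, hI (gx i)) * 1000000 := by
      rw [Finset.card_eq_sum_ones, Finset.sum_mul, ← Finset.sum_add_distrib, Finset.mul_sum,
        ← Finset.sum_add_distrib, Finset.sum_mul]
      apply Finset.sum_congr rfl
      intro i hi
      have h1 := hrng i hi
      have h2 := hw_pib (i - 122) (by omega)
      have h4 : 122 + (i - 122) = i := by omega
      rw [h4] at h2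
      rw [one_mul]
      exact h2
    rw [hcard, hhub] at hrel
    have hc : hcap = 252000000000 := rfl
    have hx : xcap = 90000 := rfl
    omega
  · rw [Finset.sum_image hinj]
    have hrel : ∑ i ∈ s, ub (gx i) + 31694 * ∑ i ∈ s, hI (gx i) = s.card * 41131 := by
      rw [Finset.card_eq_sum_ones, Finset.sum_mul, Finset.mul_sum, ← Finset.sum_add_distrib]
      apply Finset.sum_congr rfl
      intro i hi
      rw [one_mul]
      exact (gx_facts i (hrng i hi).1 (hrng i hi).2).2.2.2.2
    rw [hcard, hhub] at hrel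
    omega
  · rw [Finset.sum_image hinj]
    exact hhub

/-- Adding a triple of total weight at most the capacity to a packable set. -/
theorem packable_add (wt : ℕ → ℕ) (C : ℕ) (A T : Finset ℕ) (hT3 : T.card = 3)
    (hTw : ∑ i ∈ T, wt i ≤ C) (hd : Disjoint T A) (h : Packable wt C A) :
    Packable wt C (T ∪ A) := by
  obtain ⟨P, hP, hdisj, hU⟩ := h
  have hsub : ∀ U ∈ P, U ⊆ A := by
    intro U hUP
    rw [← hU]
    exact Finset.subset_biUnion_of_mem id hUP
  refine ⟨insert T P, ?_, ?_, ?_⟩
  · intro U hU'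
    rw [Finset.mem_insert] at hU'
    rcases hU' with rfl | hU'
    · exact ⟨hT3, hTw⟩
    · exact hP U hU'
  · intro U hU' U' hU'' hne
    rw [Finset.mem_insert] at hU' hU''
    rcases hU' with rfl | hU'
    · rcases hU'' with rfl | hU''
      · exact absurd rfl hne
      · exact Finset.disjoint_of_subset_right (hsub U' hU'') hd
    · rcases hU'' with rfl | hU''
      · exact (Finset.disjoint_of_subset_right (hsub U hU') hd).symm
      · exact hdisj U hU' U' hU'' hne
  · rw [Finset.biUnion_insert, hU]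
    rfl

end Vale.Agent.Lib.Helper5.P302Hyb2
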