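import Vale.Agent.Lib.Helper8.P302WCert
import Vale.Agent.Lib.Helper5.P302Hyb2Opt

/-!
Assembly for the 181 item instance: no packing into 60 bins exists, so the optimum is at least
61, while the linear programming value is at most `12907 / 216`; the gap is at least
`269 / 216`.
-/

namespace Vale.Agent.Lib.Helper5.P302Hyb2

open Finset Vale.Agent.Lib.Helper3.BinPacking

/-- The 181 item instance cannot be packed into 60 bins. -/
theorem no_packing_60 : ¬ ∃ f : Fin 181 → Fin 60, IsPacking hinst 60 f := by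
  classical
  rintro ⟨f, hf⟩
  have hCq : (0 : ℚ) < (hcap : ℚ) := by
    have : 0 < hcap := by decide
    exact_mod_cast this
  set S : Fin 60 → Finset ℕ :=
    fun b => (univ.filter (fun i : Fin 181 => f i = b)).map Fin.valEmbedding with hS
  have hSlt : ∀ b, ∀ i ∈ S b, i < 181 := by
    intro b i hi
    simp only [hS, Finset.mem_map, Fin.valEmbedding_apply] at hi
    obtain ⟨j, _, rfl⟩ := hi
    exact j.2
  have hSw : ∀ b, ∑ i ∈ S b, hw.getD i 0 ≤ hcap := by
    intro b
    have h1 : ∑ i ∈ univ.filter (fun i : Fin 181 => f i = b), hinst i ≤ 1 := hf b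
    have h2 : ∑ i ∈ univ.filter (fun i : Fin 181 => f i = b), hinst i
        = ((∑ i ∈ S b, hw.getD i 0 : ℕ) : ℚ) / (hcap : ℚ) := by
      simp only [hS]
      rw [Finset.sum_map, Nat.cast_sum, Finset.sum_div]
      rfl
    rw [h2, div_le_one hCq] at h1
    exact_mod_cast h1
  have hSdisj : ∀ b b', b ≠ b' → Disjoint (S b) (S b') := by
    intro b b' hbb
    rw [Finset.disjoint_left]
    intro x hx hx'
    simp only [hS, Finset.mem_map, Finset.mem_filter, Finset.mem_univ, true_and,
      Fin.valEmbedding_apply] at hx hx'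
    obtain ⟨j, hj, rfl⟩ := hx
    obtain ⟨j', hj', hjj⟩ := hx'
    have h1 : j' = j := Fin.val_injective hjj
    rw [h1] at hj'
    exact hbb (hj.symm.trans hj')
  -- the total value
  have htot : ∑ b, ∑ i ∈ S b, val i = 908 := by
    have h1 : ∀ b, ∑ i ∈ S b, val i
        = ∑ i ∈ univ.filter (fun i : Fin 181 => f i = b), val (i : ℕ) := by
      intro b
      simp only [hS]
      rw [Finset.sum_map]
      rfl
    rw [Finset.sum_congr rfl (fun b _ => h1 b), Finset.sum_fiberwise]
    exact val_total
  -- the value of every bin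
  have hbound : ∀ b, ∑ i ∈ S b, val i
      ≤ 14 + (if IsT3 (S b) then 1 else 0) + 2 * (if IsPB (S b) then 1 else 0) := by
    intro b
    rcases bin_cases (S b) (hSlt b) (hSw b) with h | h | h
    · omega
    · rw [if_pos h]
      obtain ⟨h3, hb, hsm, hfl⟩ := h
      rw [sum_val, h3, hb, hsm, hfl]
      omega
    · rw [if_pos h]
      obtain ⟨h3, hb, hsm, hfl⟩ := h
      rw [sum_val, h3, hb, hsm, hfl]
      omega
  have hsum : ∑ b : Fin 60, (14 + (if IsT3 (S b) then 1 else 0)
      + 2 * (if IsPB (S b) then 1 else 0))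
      = 840 + (univ.filter (fun b : Fin 60 => IsT3 (S b))).card
        + 2 * (univ.filter (fun b : Fin 60 => IsPB (S b))).card := by
    rw [Finset.sum_add_distrib, Finset.sum_add_distrib, Finset.sum_const, Finset.card_univ,
      Fintype.card_fin, ← Finset.mul_sum, ← Finset.card_filter, ← Finset.card_filter]
    rfl
  -- at most 39 bins with three items close to a third
  have hF1 : (univ.filter (fun b : Fin 60 => IsT3 (S b))).card ≤ 39 := by
    by_contra hcon
    have hcon' : 40 ≤ (univ.filter (fun b : Fin 60 => IsT3 (S b))).card := by omega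
    obtain ⟨B', hBsub, hBcard⟩ := Finset.exists_subset_card_eq hcon'
    have hfacts : ∀ b ∈ B', (S b).card = 3 ∧ (∀ i ∈ S b, i < 122) ∧
        ∑ i ∈ S b, wts122.getD i 0 ≤ cap122 := by
      intro b hb
      have h1 := hBsub hb
      rw [Finset.mem_filter] at h1
      exact t3_facts (S b) (hSw b) h1.2
    have hres := Vale.Agent.Lib.Helper8.P302Glue.packable_compress (fun i => wts122.getD i 0)
      cap122 122 (fun i j hij hj => wts_mono122 j hj i hij) (Fin 60) B' S
      (fun b hb => (hfacts b hb).1) (fun b hb => (hfacts b hb).2.2)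
      (fun b hb => (hfacts b hb).2.1) (fun b _ b' _ hbb => hSdisj b b' hbb)
    rw [hBcard] at hres
    exact Vale.Agent.Lib.Helper8.P302WTree.not_packable hres
  -- at most 14 bins with a large item and two small items
  have hF2 : (univ.filter (fun b : Fin 60 => IsPB (S b))).card ≤ 14 := by
    by_contra hcon
    have hcon' : 15 ≤ (univ.filter (fun b : Fin 60 => IsPB (S b))).card := by omega
    obtain ⟨B', hBsub, hBcard⟩ := Finset.exists_subset_card_eq hcon'
    set Tb : Fin 60 → Finset ℕ := fun b => (S b).image gx with hTb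
    have hfacts : ∀ b ∈ B', (∀ i ∈ S b, 122 ≤ i ∧ i < 171) ∧ (Tb b).card = 3 ∧
        ∑ j ∈ Tb b, xw.getD j 0 ≤ xcap ∧ ∑ j ∈ Tb b, ub j = 91699 ∧
        ∑ j ∈ Tb b, hI j = 1 := by
      intro b hb
      have h1 := hBsub hb
      rw [Finset.mem_filter] at h1
      exact pb_facts (S b) (hSw b) h1.2
    have hTdisj : ∀ b ∈ B', ∀ b' ∈ B', b ≠ b' → Disjoint (Tb b) (Tb b') := by
      intro b hb b' hb' hbb
      rw [Finset.disjoint_left]
      intro x hx hx'
      simp only [hTb, Finset.mem_image] at hx hx'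
      obtain ⟨i, hi, rfl⟩ := hx
      obtain ⟨i', hi', hii⟩ := hx'
      have h1 := (hfacts b hb).1 i hi
      have h2 := (hfacts b' hb').1 i' hi'
      have h3 : i' = i := gx_inj i' i h2.1 h2.2 h1.1 h1.2 hii
      rw [h3] at hi'
      exact Finset.disjoint_left.1 (hSdisj b b' hbb) hi hi'
    have hTmem : ∀ b ∈ B', ∀ x ∈ Tb b, x < 51 ∧ x ≠ 18 ∧ x ≠ 50 := by
      intro b hb x hx
      simp only [hTb, Finset.mem_image] at hx
      obtain ⟨i, hi, rfl⟩ := hx
      have h1 := (hfacts b hb).1 i hi
      have h2 := gx_facts i h1.1 h1.2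
      exact ⟨h2.1, h2.2.1, h2.2.2.1⟩
    set U := B'.biUnion Tb with hU
    have hUmem : ∀ x ∈ U, x < 51 ∧ x ≠ 18 ∧ x ≠ 50 := by
      intro x hx
      rw [hU, Finset.mem_biUnion] at hx
      obtain ⟨b, hb, hx⟩ := hx
      exact hTmem b hb x hx
    have hUsub : U ⊆ Finset.range 51 := fun x hx => Finset.mem_range.2 (hUmem x hx).1
    have hUcard : U.card = 45 := by
      rw [hU, Finset.card_biUnion hTdisj, Finset.sum_congr rfl (fun b hb => (hfacts b hb).2.1),
        Finset.sum_const, hBcard]
      rfl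
    have hUub : ∑ j ∈ U, ub j = 1375485 := by
      rw [hU, Finset.sum_biUnion hTdisj,
        Finset.sum_congr rfl (fun b hb => (hfacts b hb).2.2.2.1), Finset.sum_const, hBcard]
      rfl
    have hUhub : ∑ j ∈ U, hI j = 15 := by
      rw [hU, Finset.sum_biUnion hTdisj,
        Finset.sum_congr rfl (fun b hb => (hfacts b hb).2.2.2.2), Finset.sum_const, hBcard]
      rfl
    have hUpack : Packable (fun i => xw.getD i 0) xcap U := by
      refine ⟨B'.image Tb, ?_, ?_, ?_⟩
      · intro T hT
        rw [Finset.mem_image] at hT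
        obtain ⟨b, hb, rfl⟩ := hT
        exact ⟨(hfacts b hb).2.1, (hfacts b hb).2.2.1⟩
      · intro T hT T' hT' hne
        rw [Finset.mem_image] at hT hT'
        obtain ⟨b, hb, rfl⟩ := hT
        obtain ⟨b', hb', rfl⟩ := hT'
        exact hTdisj b hb b' hb' (fun h => hne (by rw [h]))
      · rw [Finset.image_biUnion]
        rfl
    set R := Finset.range 51 \ U with hR
    have hRcard : R.card = 6 := by
      rw [hR, Finset.card_sdiff_of_subset hUsub, Finset.card_range, hUcard]
    have hRub : ∑ j ∈ R, ub j = 121695 := by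
      have h1 : ∑ j ∈ R, ub j + ∑ j ∈ U, ub j = ∑ j ∈ Finset.range 51, ub j :=
        Finset.sum_sdiff hUsub
      rw [hUub, ub_total] at h1
      omega
    have hRhub : ∑ j ∈ R, hI j = 3 := by
      have h1 : ∑ j ∈ R, hI j + ∑ j ∈ U, hI j = ∑ j ∈ Finset.range 51, hI j :=
        Finset.sum_sdiff hUsub
      rw [hUhub, hI_total] at h1
      omega
    have hR18 : 18 ∈ R := by
      rw [hR, Finset.mem_sdiff]
      exact ⟨Finset.mem_range.2 (by norm_num), fun h => (hUmem 18 h).2.1 rfl⟩
    have hR50 : 50 ∈ R := by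
      rw [hR, Finset.mem_sdiff]
      exact ⟨Finset.mem_range.2 (by norm_num), fun h => (hUmem 50 h).2.2 rfl⟩
    obtain ⟨h0, hh0R, hh0⟩ : ∃ j ∈ R, hI j ≠ 0 := by
      by_contra hcon2
      push Not at hcon2
      rw [Finset.sum_eq_zero (fun j hj => hcon2 j hj)] at hRhub
      omega
    have hh0lt : h0 < 18 := by
      unfold hI at hh0
      split_ifs at hh0 with h
      · exact h
      · exact absurd rfl hh0
    set T1 : Finset ℕ := {h0, 18, 50} with hT1
    have hT1sub : T1 ⊆ R := by
      intro x hx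
      rw [hT1] at hx
      simp only [Finset.mem_insert, Finset.mem_singleton] at hx
      rcases hx with rfl | rfl | rfl
      · exact hh0R
      · exact hR18
      · exact hR50
    have hT1card : T1.card = 3 := by
      rw [hT1, Finset.card_insert_of_notMem, Finset.card_insert_of_notMem,
        Finset.card_singleton]
      · simp
      · simp only [Finset.mem_insert, Finset.mem_singleton]
        omega
    have hT1ub : ∑ j ∈ T1, ub j = 61690 := by
      rw [hT1, Finset.sum_insert, Finset.sum_insert, Finset.sum_singleton]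
      · have h1 : ub h0 = 9437 := by
          unfold ub
          rw [if_pos hh0lt]
        rw [h1]
        rfl
      · simp
      · simp only [Finset.mem_insert, Finset.mem_singleton]
        omega
    set T2 := R \ T1 with hT2
    have hT2card : T2.card = 3 := by
      rw [hT2, Finset.card_sdiff_of_subset hT1sub, hRcard, hT1card]
    have hT2ub : ∑ j ∈ T2, ub j = 60005 := by
      have h1 : ∑ j ∈ T2, ub j + ∑ j ∈ T1, ub j = ∑ j ∈ R, ub j := Finset.sum_sdiff hT1sub
      rw [hT1ub, hRub] at h1
      omega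
    have hRlt : ∀ j ∈ R, j < 51 := fun j hj => Finset.mem_range.1 (Finset.mem_sdiff.1 hj).1
    have hx : xcap = 90000 := rfl
    have hT1w : ∑ j ∈ T1, xw.getD j 0 ≤ xcap := by
      have h1 : ∑ j ∈ T1, xw.getD j 0 ≤ ∑ j ∈ T1, ub j :=
        Finset.sum_le_sum (fun j hj => xw_le_ub j (hRlt j (hT1sub hj)))
      rw [hT1ub] at h1
      omega
    have hT2w : ∑ j ∈ T2, xw.getD j 0 ≤ xcap := by
      have h1 : ∑ j ∈ T2, xw.getD j 0 ≤ ∑ j ∈ T2, ub j :=
        Finset.sum_le_sum (fun j hj => xw_le_ub j (hRlt j (Finset.sdiff_subset hj)))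
      rw [hT2ub] at h1
      omega
    have hRU : Disjoint R U := Finset.sdiff_disjoint
    have hT2U : Disjoint T2 U := Finset.disjoint_of_subset_left Finset.sdiff_subset hRU
    have hp2 := packable_add (fun i => xw.getD i 0) xcap U T2 hT2card hT2w hT2U hUpack
    have hT1d : Disjoint T1 (T2 ∪ U) := by
      rw [Finset.disjoint_union_right]
      exact ⟨Finset.disjoint_sdiff, Finset.disjoint_of_subset_left hT1sub hRU⟩
    have hp1 := packable_add (fun i => xw.getD i 0) xcap (T2 ∪ U) T1 hT1card hT1w hT1d hp2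
    have hall : T1 ∪ (T2 ∪ U) = Finset.range 51 := by
      rw [← Finset.union_assoc, hT2, Finset.union_sdiff_of_subset hT1sub, hR]
      exact Finset.sdiff_union_of_subset hUsub
    rw [hall] at hp1
    exact not_packable_x hp1
  have h908 : 908 ≤ 840 + (univ.filter (fun b : Fin 60 => IsT3 (S b))).card
      + 2 * (univ.filter (fun b : Fin 60 => IsPB (S b))).card := by
    rw [← htot, ← hsum]
    exact Finset.sum_le_sum (fun b _ => hbound b)
  omega

/-- The 181 item instance needs at least 61 bins. -/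
theorem opt_hinst_ge : 61 ≤ opt hinst :=
  succ_le_opt hinst (fun i => (hinst_pos_le i).2) 60 no_packing_60

/-- The gap statement for the 181 item instance. -/
theorem gap_hyb : ∃ (n : ℕ) (a : Fin n → ℚ), (∀ i, 0 < a i ∧ a i ≤ 1) ∧
    (269 / 216 : ℝ) ≤ (opt a : ℝ) - lp a := by
  refine ⟨181, hinst, hinst_pos_le, ?_⟩
  have h1 : (61 : ℝ) ≤ (opt hinst : ℝ) := by exact_mod_cast opt_hinst_ge
  have h2 := lp_hinst_le
  linarith

/-- The same statement with the number of items made explicit. -/
theorem gap_hyb_181 : ∃ a : Fin 181 → ℚ, (∀ i, 0 < a i ∧ a i ≤ 1) ∧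
    (269 / 216 : ℝ) ≤ (opt a : ℝ) - lp a := by
  refine ⟨hinst, hinst_pos_le, ?_⟩
  have h1 : (61 : ℝ) ≤ (opt hinst : ℝ) := by exact_mod_cast opt_hinst_ge
  have h2 := lp_hinst_le
  linarith

end Vale.Agent.Lib.Helper5.P302Hyb2
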