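import Vale.Agent.Lib.Helper3.P302Check2

/-!
A thirds-type auxiliary instance with 51 items (19 light items and 32 heavy items) and the
lookup table of bit masks used to show that it cannot be split into 17 triples of total weight
at most the capacity.
-/

namespace Vale.Agent.Lib.Helper5.P302Hyb2

open Vale.Agent.Lib.Helper3.BinPacking

/-- The 51 weights of the auxiliary instance in increasing order. -/
def xw : List ℕ := [
  7749, 7754, 7766, 8869, 8885, 8890, 8902, 9153,
  9169, 9174, 9186, 9223, 9244, 9249, 9252, 9262,
  9295, 9437, 10001, 40000, 40284, 40356, 40372, 40374,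
  40375, 40376, 40378, 40379, 40379, 40406, 40407, 40408,
  40413, 40414, 40420, 40421, 40548, 40549, 40550, 40555,
  40556, 40562, 40563, 41116, 41117, 41118, 41123, 41124,
  41130, 41131, 42252]

/-- The capacity of the auxiliary instance. -/
def xcap : ℕ := 90000

/-- The weights of the indices 50, ..., 0, in this order. -/
def xrws : List ℕ := [
  42252, 41131, 41130, 41124, 41123, 41118, 41117, 41116,
  40563, 40562, 40556, 40555, 40550, 40549, 40548, 40421,
  40420, 40414, 40413, 40408, 40407, 40406, 40379, 40379,
  40378, 40376, 40375, 40374, 40372, 40356, 40284, 40000,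
  10001, 9437, 9295, 9262, 9252, 9249, 9244, 9223,
  9186, 9174, 9169, 9153, 8902, 8890, 8885, 8869,
  7766, 7754, 7749]

/-- The weights of the indices 0, ..., 50, in this order. -/
def xaws : List ℕ := [
  7749, 7754, 7766, 8869, 8885, 8890, 8902, 9153,
  9169, 9174, 9186, 9223, 9244, 9249, 9252, 9262,
  9295, 9437, 10001, 40000, 40284, 40356, 40372, 40374,
  40375, 40376, 40378, 40379, 40379, 40406, 40407, 40408,
  40413, 40414, 40420, 40421, 40548, 40549, 40550, 40555,
  40556, 40562, 40563, 41116, 41117, 41118, 41123, 41124,
  41130, 41131, 42252]

/-- A block of the table. -/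
def xt0 : NatTree :=
  (.node (.node (.node (.node (.node (.node (.node (.node .leaf 3670016 .leaf) 5767168 .leaf) 6815744 (.node (.node .leaf 7340032 .leaf) 13107200 .leaf)) 13631488 (.node (.node (.node .leaf 14680064 .leaf) 16252944 .leaf) 16252960 (.node (.node .leaf 16252992 .leaf) 16253056 .leaf))) 25182208 (.node (.node (.node (.node .leaf 29360128 .leaf) 30933008 .leaf) 30933024 (.node (.node .leaf 30933056 .leaf) 30933120 .leaf)) 31981584 (.node (.node (.node .leaf 31981600 .leaf) 31981632 .leaf) 31981696 (.node .leaf 31981824 .leaf)))) 31982080 (.node (.node (.node (.node (.node .leaf 31982592 .leaf) 31983616 .leaf) 32505864 (.node (.node .leaf 32505872 .leaf) 32505888 .leaf)) 32506112 (.node (.node (.node .leaf 32506368 .leaf) 32506880 .leaf) 32507904 (.node .leaf 33030144 .leaf))) 63438864 (.node (.node (.node (.node .leaf 63438880 .leaf) 63438912 .leaf) 63438976 (.node (.node .leaf 63442944 .leaf) 63963144 .leaf)) 63963152 (.node (.node (.node .leaf 63963168 .leaf) 63967232 .leaf) 65011720 (.node .leaf 65011728 .leaf))))) 65011744 (.node (.node (.node (.node (.node (.node .leaf 65011840 .leaf)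 65011968 .leaf) 65012224 (.node (.node .leaf 65015808 .leaf) 65536000 .leaf)) 66060288 (.node (.node (.node .leaf 66588688 .leaf) 66588704 .leaf) 66588736 (.node (.node .leaf 66588800 .leaf) 96493568 .leaf))) 96993288 (.node (.node (.node (.node .leaf 96993296 .leaf) 96993312 .leaf) 96993536 (.node (.node .leaf 96993792 .leaf) 97517696 .leaf)) 97517824 (.node (.node (.node .leaf 97518080 .leaf) 98568192 .leaf) 100141072 (.node .leaf 100141088 .leaf)))) 100141120 (.node (.node (.node (.node (.node .leaf 100141184 .leaf) 125849600 .leaf) 130023432 (.node (.node .leaf 130023440 .leaf) 130023456 .leaf)) 130023552 (.node (.node (.node .leaf 130023680 .leaf) 130023936 .leaf) 130027520 (.node .leaf 131600400 .leaf))) 131600416 (.node (.node (.node (.node .leaf 131600448 .leaf) 131600512 .leaf) 132120576 (.node (.node .leaf 132645136 .leaf) 132645152 .leaf)) 132645184 (.node (.node (.node .leaf 132645248 .leaf) 132645392 .leaf) 132645408 (.node .leaf 132645440 .leaf)))))) 132645504 (.node (.node (.node (.node (.node (.node (.node .leaf 132645904 .leaf) 132645920 .leaf) 132645952 (.node (.node .leaf 132646016 .leaf)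 132646928 .leaf)) 132646944 (.node (.node (.node .leaf 132646976 .leaf) 132647040 .leaf) 132649216 (.node (.node .leaf 132649472 .leaf) 132649984 .leaf))) 132651008 (.node (.node (.node (.node .leaf 133169416 .leaf) 133169424 .leaf) 133169440 (.node (.node .leaf 133169672 .leaf) 133169680 .leaf)) 133169696 (.node (.node (.node .leaf 133170184 .leaf) 133170192 .leaf) 133170208 (.node .leaf 133171208 .leaf)))) 133171216 (.node (.node (.node (.node (.node .leaf 133171232 .leaf) 133173504 .leaf) 133173760 (.node (.node .leaf 133174272 .leaf) 133175296 .leaf)) 133693441 (.node (.node (.node .leaf 133693442 .leaf) 133693444 .leaf) 133693448 (.node .leaf 230686976 .leaf))) 230687232 (.node (.node (.node (.node .leaf 230687744 .leaf) 232259856 .leaf) 232259872 (.node (.node .leaf 232259904 .leaf) 232259968 .leaf)) 232260112 (.node (.node (.node .leaf 232260128 .leaf) 232260160 .leaf) 232260224 (.node .leaf 232260624 .leaf))))) 232260640 (.node (.node (.node (.node (.node (.node .leaf 232260672 .leaf) 232260736 .leaf) 233310464 (.node (.node .leaf 233310720 .leaf) 233311232 .leaf)) 233834752 (.node (.node (.node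 .leaf 233835008 .leaf) 233835520 .leaf) 264269824 (.node (.node .leaf 264765584 .leaf) 264765600 .leaf))) 264765632 (.node (.node (.node (.node .leaf 264765712 .leaf) 264765728 .leaf) 264765760 (.node (.node .leaf 264765824 .leaf) 264765968 .leaf)) 264765984 (.node (.node (.node .leaf 264766016 .leaf) 264766080 .leaf) 264769544 (.node .leaf 264769552 .leaf)))) 264769568 (.node (.node (.node (.node (.node .leaf 264769792 .leaf) 264770048 .leaf) 265289864 (.node (.node .leaf 265289872 .leaf) 265289888 .leaf)) 265289992 (.node (.node (.node .leaf 265290000 .leaf) 265290016 .leaf) 265290248 (.node .leaf 265290256 .leaf))) 265290272 (.node (.node (.node (.node .leaf 265293952 .leaf) 265294080 .leaf) 265294336 (.node (.node .leaf 266340360 .leaf) 266340368 .leaf)) 266340384 (.node (.node (.node .leaf 266340480 .leaf) 266340608 .leaf) 266340864 (.node .leaf 266344448 .leaf)))))))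

/-- A block of the table. -/
def xt1 : NatTree :=
  (.node (.node (.node (.node (.node (.node (.node (.node .leaf 266862594 .leaf) 266862596 .leaf) 266862600 (.node (.node .leaf 267386881 .leaf) 267386882 .leaf)) 267386884 (.node (.node (.node .leaf 267386888 .leaf) 267386896 .leaf) 267386912 (.node (.node .leaf 267386944 .leaf) 267387008 .leaf))) 267911168 (.node (.node (.node (.node .leaf 267917328 .leaf) 267917344 .leaf) 267917376 (.node (.node .leaf 267917440 .leaf) 532676872 .leaf)) 532676880 (.node (.node (.node .leaf 532676896 .leaf) 532676992 .leaf) 532677128 (.node .leaf 532677136 .leaf)))) 532677152 (.node (.node (.node (.node (.node .leaf 532677248 .leaf) 532677376 .leaf) 532677640 (.node (.node .leaf 532677648 .leaf) 532677664 .leaf)) 532677760 (.node (.node (.node .leaf 532677888 .leaf) 532678144 .leaf) 532680960 (.node .leaf 532681216 .leaf))) 532681728 (.node (.node (.node (.node .leaf 534253840 .leaf) 534253856 .leaf) 534253888 (.node (.node .leaf 534253952 .leaf) 534254096 .leaf)) 534254112 (.node (.node (.node .leaf 534254144 .leaf) 534254208 .leaf) 534254608 (.node .leaf 534254624 .leaf)))))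 534254656 (.node (.node (.node (.node (.node (.node .leaf 534254720 .leaf) 534773761 .leaf) 534773762 (.node (.node .leaf 534773764 .leaf) 534773768 .leaf)) 534773776 (.node (.node (.node .leaf 534774016 .leaf) 534774272 .leaf) 534774784 (.node (.node .leaf 535298048 .leaf) 535300368 .leaf))) 535300384 (.node (.node (.node (.node .leaf 535300416 .leaf) 535300480 .leaf) 535300624 (.node (.node .leaf 535300640 .leaf) 535300672 .leaf)) 535300736 (.node (.node (.node .leaf 535301136 .leaf) 535301152 .leaf) 535301184 (.node .leaf 535301248 .leaf)))) 535304448 (.node (.node (.node (.node (.node .leaf 535304704 .leaf) 535305216 .leaf) 535822336 (.node (.node .leaf 535824648 .leaf) 535824656 .leaf)) 535824672 (.node (.node (.node .leaf 535824904 .leaf) 535824912 .leaf) 535824928 (.node .leaf 535825416 .leaf))) 535825424 (.node (.node (.node (.node .leaf 535825440 .leaf) 535828736 .leaf) 535828992 (.node (.node .leaf 535829504 .leaf) 536346881 .leaf)) 536346882 (.node (.node (.node .leaf 536346884 .leaf) 536346888 .leaf) 536347137 (.node .leaf 536347138 .leaf)))))) 536347140 (.node (.node (.node (.node (.node (.node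 (.node .leaf 536347144 .leaf) 536347649 .leaf) 536347650 (.node (.node .leaf 536347652 .leaf) 536347656 .leaf)) 801112088 (.node (.node (.node .leaf 801112104 .leaf) 801112112 .leaf) 801112136 (.node (.node .leaf 801112144 .leaf) 801112160 .leaf))) 801112328 (.node (.node (.node (.node .leaf 801112336 .leaf) 801112352 .leaf) 801112448 (.node (.node .leaf 801112584 .leaf) 801112592 .leaf)) 801112608 (.node (.node (.node .leaf 801112704 .leaf) 801112832 .leaf) 801116176 (.node .leaf 801116192 .leaf)))) 801116224 (.node (.node (.node (.node (.node .leaf 801116416 .leaf) 801116672 .leaf) 802689168 (.node (.node .leaf 802689184 .leaf) 802689216 .leaf)) 802689296 (.node (.node (.node .leaf 802689312 .leaf) 802689344 .leaf) 802689408 (.node .leaf 802689552 .leaf))) 802689568 (.node (.node (.node (.node .leaf 802689600 .leaf) 803209217 .leaf) 803209218 (.node (.node .leaf 803209220 .leaf) 803209232 .leaf)) 803209248 (.node (.node (.node .leaf 803209472 .leaf) 803239936 .leaf) 803735696 (.node .leaf 803735712 .leaf))))) 803735744 (.node (.node (.node (.node (.node (.node .leaf 803735824 .leaf) 803735840 .leaf) 803735872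 (.node (.node .leaf 803735936 .leaf) 803736080 .leaf)) 803736096 (.node (.node (.node .leaf 803736128 .leaf) 803739656 .leaf) 803739664 (.node (.node .leaf 803739680 .leaf) 803739904 .leaf))) 804259976 (.node (.node (.node (.node .leaf 804259984 .leaf) 804260000 .leaf) 804260104 (.node (.node .leaf 804260112 .leaf) 804260128 .leaf)) 804264064 (.node (.node (.node .leaf 804264192 .leaf) 804782209 .leaf) 804782210 (.node .leaf 804782212 .leaf)))) 804782216 (.node (.node (.node (.node (.node .leaf 804782337 .leaf) 804782338 .leaf) 804782340 (.node (.node .leaf 804782344 .leaf) 1069577216 .leaf)) 1070072976 (.node (.node (.node .leaf 1070072992 .leaf) 1070073024 .leaf) 1070073104 (.node .leaf 1070073120 .leaf))) 1070073152 (.node (.node (.node (.node .leaf 1070073216 .leaf) 1070073360 .leaf) 1070073376 (.node (.node .leaf 1070073408 .leaf) 1070073472 .leaf)) 1070076936 (.node (.node (.node .leaf 1070076944 .leaf) 1070076960 .leaf) 1070077184 (.node .leaf 1070077440 .leaf)))))))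

/-- A block of the table. -/
def xt2 : NatTree :=
  (.node (.node (.node (.node (.node (.node (.node (.node .leaf 1070597264 .leaf) 1070597280 .leaf) 1070597384 (.node (.node .leaf 1070597392 .leaf) 1070597408 .leaf)) 1070597640 (.node (.node (.node .leaf 1070597648 .leaf) 1070597664 .leaf) 1070601344 (.node (.node .leaf 1070601472 .leaf) 1070601728 .leaf))) 1071644672 (.node (.node (.node (.node .leaf 1071647752 .leaf) 1071647760 .leaf) 1071647776 (.node (.node .leaf 1071647872 .leaf) 1071648000 .leaf)) 1071648256 (.node (.node (.node .leaf 1071651840 .leaf) 1072169985 .leaf) 1072169986 (.node .leaf 1072169988 .leaf)))) 1072169992 (.node (.node (.node (.node (.node .leaf 1072693265 .leaf) 1072693266 .leaf) 1072693268 (.node (.node .leaf 1072693272 .leaf) 1072693281 .leaf)) 1072693282 (.node (.node (.node .leaf 1072693284 .leaf) 1072693288 .leaf) 1072693296 (.node .leaf 1072693313 .leaf))) 1072693314 (.node (.node (.node (.node .leaf 1072693316 .leaf) 1072693320 .leaf) 1072693328 (.node (.node .leaf 1072693344 .leaf) 1072693377 .leaf)) 1072693378 (.node (.node (.node .leaf 1072693380 .leaf) 1072693384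 .leaf) 1072693392 (.node .leaf 1072694288 .leaf))))) 1072694304 (.node (.node (.node (.node (.node (.node .leaf 1072694336 .leaf) 1072694400 .leaf) 1073217537 (.node (.node .leaf 1073217538 .leaf) 1073224720 .leaf)) 1073224736 (.node (.node (.node .leaf 1073224768 .leaf) 1073224832 .leaf) 1337983000 (.node (.node .leaf 1337983016 .leaf) 1337983024 .leaf))) 1337983048 (.node (.node (.node (.node .leaf 1337983056 .leaf) 1337983072 .leaf) 1337983240 (.node (.node .leaf 1337983248 .leaf) 1337983264 .leaf)) 1337983360 (.node (.node (.node .leaf 1337987088 .leaf) 1337987104 .leaf) 1337987136 (.node .leaf 1337987328 .leaf)))) 1339560080 (.node (.node (.node (.node (.node .leaf 1339560096 .leaf) 1339560128 .leaf) 1340080129 (.node (.node .leaf 1340080130 .leaf) 1340080132 .leaf)) 1340080144 (.node (.node (.node .leaf 1340080160 .leaf) 1340110848 .leaf) 1340606608 (.node .leaf 1340606624 .leaf))) 1340606656 (.node (.node (.node (.node .leaf 1340610568 .leaf) 1340610576 .leaf) 1340610592 (.node (.node .leaf 1341130888 .leaf) 1341130896 .leaf)) 1341130912 (.node (.node (.node .leaf 1341134976 .leaf) 1341653121 .leaf)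 1341653122 (.node .leaf 1341653124 .leaf)))))) 1341653128 (.node (.node (.node (.node (.node (.node (.node .leaf 1606447616 .leaf) 1606448128 .leaf) 1606943376 (.node (.node .leaf 1606943392 .leaf) 1606943424 .leaf)) 1606943504 (.node (.node (.node .leaf 1606943520 .leaf) 1606943552 .leaf) 1606943616 (.node (.node .leaf 1606943888 .leaf) 1606943904 .leaf))) 1606943936 (.node (.node (.node (.node .leaf 1606947336 .leaf) 1606947344 .leaf) 1606947360 (.node (.node .leaf 1606947584 .leaf) 1606947848 .leaf)) 1606947856 (.node (.node (.node .leaf 1606947872 .leaf) 1607467656 .leaf) 1607467664 (.node .leaf 1607467680 .leaf)))) 1607467784 (.node (.node (.node (.node (.node .leaf 1607467792 .leaf) 1607467808 .leaf) 1607468168 (.node (.node .leaf 1607468176 .leaf) 1607468192 .leaf)) 1607471744 (.node (.node (.node .leaf 1607471872 .leaf) 1607472256 .leaf) 1608518152 (.node .leaf 1608518160 .leaf))) 1608518176 (.node (.node (.node (.node .leaf 1608518272 .leaf) 1608518400 .leaf) 1608518664 (.node (.node .leaf 1608518672 .leaf) 1608518688 .leaf)) 1608518784 (.node (.node (.node .leaf 1608522240 .leaf) 1608522752 .leaf)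 1609040385 (.node .leaf 1609040386 .leaf))))) 1609040388 (.node (.node (.node (.node (.node (.node .leaf 1609040392 .leaf) 1609040897 .leaf) 1609040898 (.node (.node .leaf 1609040900 .leaf) 1609040904 .leaf)) 1609564177 (.node (.node (.node .leaf 1609564178 .leaf) 1609564180 .leaf) 1609564184 (.node (.node .leaf 1609564193 .leaf) 1609564194 .leaf))) 1609564196 (.node (.node (.node (.node .leaf 1609564200 .leaf) 1609564208 .leaf) 1609564225 (.node (.node .leaf 1609564226 .leaf) 1609564228 .leaf)) 1609564232 (.node (.node (.node .leaf 1609564240 .leaf) 1609564256 .leaf) 1609564688 (.node .leaf 1609564704 .leaf)))) 1609564736 (.node (.node (.node (.node (.node .leaf 1609564800 .leaf) 1609565200 .leaf) 1609565216 (.node (.node .leaf 1609565248 .leaf) 1610095120 .leaf)) 1610095136 (.node (.node (.node .leaf 1610095168 .leaf) 1610095232 .leaf) 1610095632 (.node .leaf 1610095648 .leaf))) 1610095680 (.node (.node (.node (.node .leaf 1874882816 .leaf) 1874883072 .leaf) 1875378576 (.node (.node .leaf 1875378592 .leaf) 1875378624 .leaf)) 1875378832 (.node (.node (.node .leaf 1875378848 .leaf) 1875378880 .leaf) 1875378960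 (.node .leaf 1875378976 .leaf)))))))

/-- A block of the table. -/
def xt3 : NatTree :=
  (.node (.node (.node (.node (.node (.node (.node (.node .leaf 1875379072 .leaf) 1875382536 .leaf) 1875382544 (.node (.node .leaf 1875382560 .leaf) 1875382792 .leaf)) 1875382800 (.node (.node (.node .leaf 1875382816 .leaf) 1875383040 .leaf) 1875902856 (.node (.node .leaf 1875902864 .leaf) 1875902880 .leaf))) 1875903112 (.node (.node (.node (.node .leaf 1875903120 .leaf) 1875903136 .leaf) 1875903240 (.node (.node .leaf 1875903248 .leaf) 1875903264 .leaf)) 1875906944 (.node (.node (.node .leaf 1875907200 .leaf) 1875907328 .leaf) 1876953352 (.node .leaf 1876953360 .leaf)))) 1876953376 (.node (.node (.node (.node (.node .leaf 1876953472 .leaf) 1876953608 .leaf) 1876953616 (.node (.node .leaf 1876953632 .leaf) 1876953728 .leaf)) 1876953856 (.node (.node (.node .leaf 1876957440 .leaf) 1876957696 .leaf) 1877475585 (.node .leaf 1877475586 .leaf))) 1877475588 (.node (.node (.node (.node .leaf 1877475592 .leaf) 1877475841 .leaf) 1877475842 (.node (.node .leaf 1877475844 .leaf) 1877475848 .leaf)) 1877999633 (.node (.node (.node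 .leaf 1877999634 .leaf) 1877999636 .leaf) 1877999640 (.node .leaf 1877999649 .leaf))))) 1877999650 (.node (.node (.node (.node (.node (.node .leaf 1877999652 .leaf) 1877999656 .leaf) 1877999664 (.node (.node .leaf 1877999681 .leaf) 1877999682 .leaf)) 1877999684 (.node (.node (.node .leaf 1877999688 .leaf) 1877999696 .leaf) 1877999712 (.node (.node .leaf 1877999888 .leaf) 1877999904 .leaf))) 1877999936 (.node (.node (.node (.node .leaf 1878000000 .leaf) 1878000144 .leaf) 1878000160 (.node (.node .leaf 1878000192 .leaf) 1878530320 .leaf)) 1878530336 (.node (.node (.node .leaf 1878530368 .leaf) 1878530432 .leaf) 1878530576 (.node .leaf 1878530592 .leaf)))) 1878530624 (.node (.node (.node (.node (.node .leaf 2143290632 .leaf) 2143290640 .leaf) 2143290656 (.node (.node .leaf 2143290752 .leaf) 2143290888 .leaf)) 2143290896 (.node (.node (.node .leaf 2143290912 .leaf) 2143291008 .leaf) 2143291136 (.node .leaf 2143294720 .leaf))) 2143294976 (.node (.node (.node (.node .leaf 2144867600 .leaf) 2144867616 .leaf) 2144867648 (.node (.node .leaf 2144867712 .leaf) 2144867856 .leaf)) 2144867872 (.node (.node (.node .leaf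 2144867904 .leaf) 2144867968 .leaf) 2145386753 (.node .leaf 2145386754 .leaf)))))) 2145386756 (.node (.node (.node (.node (.node (.node (.node .leaf 2145386760 .leaf) 2145386768 .leaf) 2145387009 (.node (.node .leaf 2145387010 .leaf) 2145387012 .leaf)) 2145387016 (.node (.node (.node .leaf 2145387024 .leaf) 2145387776 .leaf) 2145388032 (.node (.node .leaf 2145910785 .leaf) 2145910786 .leaf))) 2145914128 (.node (.node (.node (.node .leaf 2145914144 .leaf) 2145914176 .leaf) 2145914240 (.node (.node .leaf 2145914384 .leaf) 2145914400 .leaf)) 2145914432 (.node (.node (.node .leaf 2145914496 .leaf) 2145918208 .leaf) 2145918464 (.node .leaf 2146435073 .leaf)))) 2146435074 (.node (.node (.node (.node (.node .leaf 2146435076 .leaf) 2146435080 .leaf) 2146435088 (.node (.node .leaf 2146435104 .leaf) 2146438408 .leaf)) 2146438416 (.node (.node (.node .leaf 2146438432 .leaf) 2146438664 .leaf) 2146438672 (.node .leaf 2146438688 .leaf))) 2146442496 (.node (.node (.node (.node .leaf 2146442752 .leaf) 2146959360 .leaf) 2146960641 (.node (.node .leaf 2146960642 .leaf) 2146960644 .leaf)) 2146960648 (.node (.node (.node .leaf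 2146960897 .leaf) 2146960898 .leaf) 2146960900 (.node .leaf 2146960904 .leaf))))) 3485495552 (.node (.node (.node (.node (.node (.node .leaf 3485991312 .leaf) 3485991328 .leaf) 3485991360 (.node (.node .leaf 3485995272 .leaf) 3485995280 .leaf)) 3485995296 (.node (.node (.node .leaf 3486515592 .leaf) 3486515600 .leaf) 3486515616 (.node (.node .leaf 3486519680 .leaf) 3487565848 .leaf))) 3487565864 (.node (.node (.node (.node .leaf 3487565872 .leaf) 3487565896 .leaf) 3487565904 (.node (.node .leaf 3487565920 .leaf) 3487566088 .leaf)) 3487566096 (.node (.node (.node .leaf 3487566112 .leaf) 3487566208 .leaf) 3487569936 (.node .leaf 3487569952 .leaf)))) 3487569984 (.node (.node (.node (.node (.node .leaf 3487570176 .leaf) 3488088081 .leaf) 3488088082 (.node (.node .leaf 3488088084 .leaf) 3488088088 .leaf)) 3488088097 (.node (.node (.node .leaf 3488088098 .leaf) 3488088100 .leaf) 3488088104 (.node .leaf 3488088129 .leaf))) 3488088130 (.node (.node (.node (.node .leaf 3488088132 .leaf) 3488088136 .leaf) 3488612496 (.node (.node .leaf 3488612512 .leaf) 3488612544 .leaf)) 3489142928 (.node (.node (.node .leaf 3489142944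 .leaf) 3489142976 .leaf) 3753903128 (.node .leaf 3753903144 .leaf)))))))

/-- A block of the table. -/
def xt4 : NatTree :=
  (.node (.node (.node (.node (.node (.node (.node (.node .leaf 3753903176 .leaf) 3753903184 .leaf) 3753903200 (.node (.node .leaf 3753903368 .leaf) 3753903376 .leaf)) 3753903392 (.node (.node (.node .leaf 3753903488 .leaf) 3753907216 .leaf) 3753907232 (.node (.node .leaf 3753907264 .leaf) 3753907456 .leaf))) 3755480208 (.node (.node (.node (.node .leaf 3755480224 .leaf) 3755480256 .leaf) 3755999241 (.node (.node .leaf 3755999242 .leaf) 3755999244 .leaf)) 3755999249 (.node (.node (.node .leaf 3755999250 .leaf) 3755999252 .leaf) 3755999256 (.node .leaf 3755999265 .leaf)))) 3755999266 (.node (.node (.node (.node (.node .leaf 3755999268 .leaf) 3755999272 .leaf) 3755999280 (.node (.node .leaf 3756000257 .leaf) 3756000258 .leaf)) 3756000260 (.node (.node (.node .leaf 3756000272 .leaf) 3756000288 .leaf) 3756030976 (.node .leaf 3756526736 .leaf))) 3756526752 (.node (.node (.node (.node .leaf 3756526784 .leaf) 3756530696 .leaf) 3756530704 (.node (.node .leaf 3756530720 .leaf) 3757051016 .leaf))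 3757051024 (.node (.node (.node .leaf 3757051040 .leaf) 3757055104 .leaf) 3757573249 (.node .leaf 3757573250 .leaf))))) 3757573252 (.node (.node (.node (.node (.node (.node .leaf 3757573256 .leaf) 4022338072 .leaf) 4022338088 (.node (.node .leaf 4022338096 .leaf) 4022338120 .leaf)) 4022338128 (.node (.node (.node .leaf 4022338144 .leaf) 4022338312 .leaf) 4022338320 (.node (.node .leaf 4022338336 .leaf) 4022338432 .leaf))) 4022342160 (.node (.node (.node (.node .leaf 4022342176 .leaf) 4022342208 .leaf) 4022342400 (.node (.node .leaf 4023915152 .leaf) 4023915168 .leaf)) 4023915200 (.node (.node (.node .leaf 4023915280 .leaf) 4023915296 .leaf) 4023915328 (.node .leaf 4023915392 .leaf)))) 4024435201 (.node (.node (.node (.node (.node .leaf 4024435202 .leaf) 4024435204 .leaf) 4024435216 (.node (.node .leaf 4024435232 .leaf) 4024435456 .leaf)) 4024465920 (.node (.node (.node .leaf 4024961680 .leaf) 4024961696 .leaf) 4024961728 (.node .leaf 4024961808 .leaf))) 4024961824 (.node (.node (.node (.node .leaf 4024961856 .leaf) 4024961920 .leaf) 4024965640 (.node (.node .leaf 4024965648 .leaf) 4024965664 .leaf)) 4024965888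 (.node (.node (.node .leaf 4025485960 .leaf) 4025485968 .leaf) 4025485984 (.node .leaf 4025486088 .leaf)))))) 4025486096 (.node (.node (.node (.node (.node (.node (.node .leaf 4025486112 .leaf) 4025490048 .leaf) 4025490176 (.node (.node .leaf 4026008193 .leaf) 4026008194 .leaf)) 4026008196 (.node (.node (.node .leaf 4026008200 .leaf) 4026008321 .leaf) 4026008322 (.node (.node .leaf 4026008324 .leaf) 4026008328 .leaf))) 4290803200 (.node (.node (.node (.node .leaf 4291298960 .leaf) 4291298976 .leaf) 4291299008 (.node (.node .leaf 4291299088 .leaf) 4291299104 .leaf)) 4291299136 (.node (.node (.node .leaf 4291299200 .leaf) 4291302920 .leaf) 4291302928 (.node .leaf 4291302944 .leaf)))) 4291303168 (.node (.node (.node (.node (.node .leaf 4291823240 .leaf) 4291823248 .leaf) 4291823264 (.node (.node .leaf 4291823368 .leaf) 4291823376 .leaf)) 4291823392 (.node (.node (.node .leaf 4291827328 .leaf) 4291827456 .leaf) 4292870145 (.node .leaf 4292870146 .leaf))) 4292870148 (.node (.node (.node (.node .leaf 4292870152 .leaf) 4292870160 .leaf) 4292870176 (.node (.node .leaf 4292873736 .leaf) 4292873744 .leaf)) 4292873760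 (.node (.node (.node .leaf 4292873856 .leaf) 4292873984 .leaf) 4292877824 (.node .leaf 4293395969 .leaf))))) 4293395970 (.node (.node (.node (.node (.node (.node .leaf 4293395972 .leaf) 4293395976 .leaf) 4293918720 (.node (.node .leaf 4293919249 .leaf) 4293919250 .leaf)) 4293919252 (.node (.node (.node .leaf 4293919256 .leaf) 4293919265 .leaf) 4293919266 (.node (.node .leaf 4293919268 .leaf) 4293919272 .leaf))) 4293919280 (.node (.node (.node (.node .leaf 4293919297 .leaf) 4293919298 .leaf) 4293919300 (.node (.node .leaf 4293919304 .leaf) 4293919312 .leaf)) 4293919328 (.node (.node (.node .leaf 4293919361 .leaf) 4293919362 .leaf) 4293919364 (.node .leaf 4293919368 .leaf)))) 4293919376 (.node (.node (.node (.node (.node .leaf 4293920272 .leaf) 4293920288 .leaf) 4293920320 (.node (.node .leaf 4293920384 .leaf) 4294443025 .leaf)) 4294443026 (.node (.node (.node .leaf 4294443041 .leaf) 4294443042 .leaf) 4294443073 (.node .leaf 4294443074 .leaf))) 4294443137 (.node (.node (.node (.node .leaf 4294443138 .leaf) 4294450704 .leaf) 4294450720 (.node (.node .leaf 4294450752 .leaf) 4294450816 .leaf)) 5098178584 (.node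 (.node (.node .leaf 5098178600 .leaf) 5098178608 .leaf) 5098178632 (.node .leaf 5098178640 .leaf)))))))

/-- A block of the table. -/
def xt5 : NatTree :=
  (.node (.node (.node (.node (.node (.node (.node (.node .leaf 5098182672 .leaf) 5098182688 .leaf) 5098182720 (.node (.node .leaf 5098700817 .leaf) 5098700818 .leaf)) 5098700820 (.node (.node (.node .leaf 5098700824 .leaf) 5098700833 .leaf) 5098700834 (.node (.node .leaf 5098700836 .leaf) 5098700840 .leaf))) 5098700865 (.node (.node (.node (.node .leaf 5098700866 .leaf) 5098700868 .leaf) 5098700872 (.node (.node .leaf 5099225232 .leaf) 5099225248 .leaf)) 5099225280 (.node (.node (.node .leaf 5099755664 .leaf) 5099755680 .leaf) 5099755712 (.node .leaf 5364515864 .leaf)))) 5364515880 (.node (.node (.node (.node (.node .leaf 5364515888 .leaf) 5364515912 .leaf) 5364515920 (.node (.node .leaf 5364515936 .leaf) 5364519952 .leaf)) 5364519968 (.node (.node (.node .leaf 5364520000 .leaf) 5366092944 .leaf) 5366092960 (.node .leaf 5366092992 .leaf))) 5366611977 (.node (.node (.node (.node .leaf 5366611978 .leaf) 5366611980 .leaf) 5366611985 (.node (.node .leaf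 5366611986 .leaf) 5366611988 .leaf)) 5366611992 (.node (.node (.node .leaf 5366612001 .leaf) 5366612002 .leaf) 5366612004 (.node .leaf 5366612008 .leaf))))) 5366612016 (.node (.node (.node (.node (.node (.node .leaf 5366612993 .leaf) 5366612994 .leaf) 5366612996 (.node (.node .leaf 5366613008 .leaf) 5366613024 .leaf)) 5366643712 (.node (.node (.node .leaf 5367139472 .leaf) 5367139488 .leaf) 5367139520 (.node (.node .leaf 5367143432 .leaf) 5367143440 .leaf))) 5367143456 (.node (.node (.node (.node .leaf 5367663752 .leaf) 5367663760 .leaf) 5367663776 (.node (.node .leaf 5367667840 .leaf) 5368185985 .leaf)) 5368185986 (.node (.node (.node .leaf 5368185988 .leaf) 5368185992 .leaf) 5635049496 (.node .leaf 5635049512 .leaf)))) 5635049520 (.node (.node (.node (.node (.node .leaf 5635049544 .leaf) 5635049552 .leaf) 5635049568 (.node (.node .leaf 5635053584 .leaf) 5635053600 .leaf)) 5635053632 (.node (.node (.node .leaf 5635571729 .leaf) 5635571730 .leaf) 5635571732 (.node .leaf 5635571736 .leaf))) 5635571745 (.node (.node (.node (.node .leaf 5635571746 .leaf) 5635571748 .leaf) 5635571752 (.node (.node .leaf 5635571777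 .leaf) 5635571778 .leaf)) 5635571780 (.node (.node (.node .leaf 5635571784 .leaf) 5636096144 .leaf) 5636096160 (.node .leaf 5636096192 .leaf)))))) 5636626576 (.node (.node (.node (.node (.node (.node (.node .leaf 5636626592 .leaf) 5636626624 .leaf) 5901386776 (.node (.node .leaf 5901386792 .leaf) 5901386800 .leaf)) 5901386824 (.node (.node (.node .leaf 5901386832 .leaf) 5901386848 .leaf) 5901390864 (.node (.node .leaf 5901390880 .leaf) 5901390912 .leaf))) 5902963856 (.node (.node (.node (.node .leaf 5902963872 .leaf) 5902963904 .leaf) 5904010384 (.node (.node .leaf 5904010400 .leaf) 5904010432 .leaf)) 6169821464 (.node (.node (.node .leaf 6169821480 .leaf) 6169821488 .leaf) 6169821512 (.node .leaf 6169821520 .leaf)))) 6169821536 (.node (.node (.node (.node (.node .leaf 6169821720 .leaf) 6169821736 .leaf) 6169821744 (.node (.node .leaf 6169821768 .leaf) 6169821776 .leaf)) 6169821792 (.node (.node (.node .leaf 6169825552 .leaf) 6169825568 .leaf) 6169825600 (.node .leaf 6169825808 .leaf))) 6169825824 (.node (.node (.node (.node .leaf 6169825856 .leaf) 6171398544 .leaf) 6171398560 (.node (.node .leaf 6171398592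 .leaf) 6171398800 .leaf)) 6171398816 (.node (.node (.node .leaf 6171398848 .leaf) 6171918593 .leaf) 6171918594 (.node .leaf 6171918596 .leaf))))) 6171918608 (.node (.node (.node (.node (.node (.node .leaf 6171918624 .leaf) 6171918849 .leaf) 6171918850 (.node (.node .leaf 6171918852 .leaf) 6171918864 .leaf)) 6171918880 (.node (.node (.node .leaf 6171949312 .leaf) 6171949568 .leaf) 6172445072 (.node (.node .leaf 6172445088 .leaf) 6172445120 .leaf))) 6172445328 (.node (.node (.node (.node .leaf 6172445344 .leaf) 6172445376 .leaf) 6172449032 (.node (.node .leaf 6172449040 .leaf) 6172449056 .leaf)) 6172449288 (.node (.node (.node .leaf 6172449296 .leaf) 6172449312 .leaf) 6172969352 (.node .leaf 6172969360 .leaf)))) 6172969376 (.node (.node (.node (.node (.node .leaf 6172969608 .leaf) 6172969616 .leaf) 6172969632 (.node (.node .leaf 6172973440 .leaf) 6172973696 .leaf)) 6173491585 (.node (.node (.node .leaf 6173491586 .leaf) 6173491588 .leaf) 6173491592 (.node .leaf 6173491841 .leaf))) 6173491842 (.node (.node (.node (.node .leaf 6173491844 .leaf) 6173491848 .leaf) 6438286592 (.node (.node .leaf 6438286848 .leaf)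 6438782352 .leaf)) 6438782368 (.node (.node (.node .leaf 6438782400 .leaf) 6438782608 .leaf) 6438782624 (.node .leaf 6438782656 .leaf)))))))

/-- A block of the table. -/
def xt6 : NatTree :=
  (.node (.node (.node (.node (.node (.node (.node (.node .leaf 6438786320 .leaf) 6438786336 .leaf) 6438786568 (.node (.node .leaf 6438786576 .leaf) 6438786592 .leaf)) 6439306632 (.node (.node (.node .leaf 6439306640 .leaf) 6439306656 .leaf) 6439306888 (.node (.node .leaf 6439306896 .leaf) 6439306912 .leaf))) 6439310720 (.node (.node (.node (.node .leaf 6439310976 .leaf) 6440353793 .leaf) 6440353794 (.node (.node .leaf 6440353796 .leaf) 6440353808 .leaf)) 6440353824 (.node (.node (.node .leaf 6440357128 .leaf) 6440357136 .leaf) 6440357152 (.node .leaf 6440357248 .leaf)))) 6440357384 (.node (.node (.node (.node (.node .leaf 6440357392 .leaf) 6440357408 .leaf) 6440357504 (.node (.node .leaf 6440361216 .leaf) 6440361472 .leaf)) 6440879361 (.node (.node (.node .leaf 6440879362 .leaf) 6440879364 .leaf) 6440879368 (.node .leaf 6440879617 .leaf))) 6440879618 (.node (.node (.node (.node .leaf 6440879620 .leaf) 6440879624 .leaf)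 6441402641 (.node (.node .leaf 6441402642 .leaf) 6441402644 .leaf)) 6441402648 (.node (.node (.node .leaf 6441402657 .leaf) 6441402658 .leaf) 6441402660 (.node .leaf 6441402664 .leaf))))) 6441402672 (.node (.node (.node (.node (.node (.node .leaf 6441402689 .leaf) 6441402690 .leaf) 6441402692 (.node (.node .leaf 6441402696 .leaf) 6441402704 .leaf)) 6441402720 (.node (.node (.node .leaf 6441402753 .leaf) 6441402754 .leaf) 6441402756 (.node (.node .leaf 6441402760 .leaf) 6441402768 .leaf))) 6441402897 (.node (.node (.node (.node .leaf 6441402898 .leaf) 6441402900 .leaf) 6441402904 (.node (.node .leaf 6441402913 .leaf) 6441402914 .leaf)) 6441402916 (.node (.node (.node .leaf 6441402920 .leaf) 6441402928 .leaf) 6441402945 (.node .leaf 6441402946 .leaf)))) 6441402948 (.node (.node (.node (.node (.node .leaf 6441402952 .leaf) 6441402960 .leaf) 6441402976 (.node (.node .leaf 6441403664 .leaf) 6441403680 .leaf)) 6441403712 (.node (.node (.node .leaf 6441403776 .leaf) 6441403920 .leaf) 6441403936 (.node .leaf 6441403968 .leaf))) 6441926673 (.node (.node (.node (.node .leaf 6441926674 .leaf) 6441926689 .leaf) 6441926690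 (.node (.node .leaf 6441926721 .leaf) 6441926722 .leaf)) 6441934096 (.node (.node (.node .leaf 6441934112 .leaf) 6441934144 .leaf) 6441934208 (.node .leaf 6441934352 .leaf)))))) 6441934368 (.node (.node (.node (.node (.node (.node (.node .leaf 6441934400 .leaf) 7780434200 .leaf) 7780434216 (.node (.node .leaf 7780434224 .leaf) 7780434248 .leaf)) 7780434256 (.node (.node (.node .leaf 7780434272 .leaf) 7780438288 .leaf) 7780438304 (.node (.node .leaf 7780438336 .leaf) 7782011280 .leaf))) 7782011296 (.node (.node (.node (.node .leaf 7782011328 .leaf) 7782531329 .leaf) 7782531330 (.node (.node .leaf 7782531332 .leaf) 7782531344 .leaf)) 7782531360 (.node (.node (.node .leaf 7782562048 .leaf) 7783057808 .leaf) 7783057824 (.node .leaf 7783057856 .leaf)))) 7783061768 (.node (.node (.node (.node (.node .leaf 7783061776 .leaf) 7783061792 .leaf) 7783582088 (.node (.node .leaf 7783582096 .leaf) 7783582112 .leaf)) 7783586176 (.node (.node (.node .leaf 7784104321 .leaf) 7784104322 .leaf) 7784104324 (.node .leaf 7784104328 .leaf))) 8048899328 (.node (.node (.node (.node .leaf 8049395088 .leaf) 8049395104 .leaf) 8049395136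 (.node (.node .leaf 8049399048 .leaf) 8049399056 .leaf)) 8049399072 (.node (.node (.node .leaf 8049919368 .leaf) 8049919376 .leaf) 8049919392 (.node .leaf 8049923456 .leaf))))) 8050969864 (.node (.node (.node (.node (.node (.node .leaf 8050969872 .leaf) 8050969888 .leaf) 8050969984 (.node (.node .leaf 8050973952 .leaf) 8317334272 .leaf)) 8317830032 (.node (.node (.node .leaf 8317830048 .leaf) 8317830080 .leaf) 8317833992 (.node (.node .leaf 8317834000 .leaf) 8317834016 .leaf))) 8318354312 (.node (.node (.node (.node .leaf 8318354320 .leaf) 8318354336 .leaf) 8318358400 (.node (.node .leaf 8319404808 .leaf) 8319404816 .leaf)) 8319404832 (.node (.node (.node .leaf 8319404928 .leaf) 8319408896 .leaf) 8319927041 (.node .leaf 8319927042 .leaf)))) 8319927044 (.node (.node (.node (.node (.node .leaf 8319927048 .leaf) 8320450833 .leaf) 8320450834 (.node (.node .leaf 8320450836 .leaf) 8320450840 .leaf)) 8320450849 (.node (.node (.node .leaf 8320450850 .leaf) 8320450852 .leaf) 8320450856 (.node .leaf 8320450864 .leaf))) 8320450881 (.node (.node (.node (.node .leaf 8320450882 .leaf) 8320450884 .leaf) 8320450888 (.node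 (.node .leaf 8320450896 .leaf) 8320450912 .leaf)) 8320451344 (.node (.node (.node .leaf 8320451360 .leaf) 8320451392 .leaf) 8320451456 (.node .leaf 8320981776 .leaf)))))))

/-- A block of the table. -/
def xt7 : NatTree :=
  (.node (.node (.node (.node (.node (.node (.node (.node .leaf 8320981824 .leaf) 8320981888 .leaf) 8585742088 (.node (.node .leaf 8585742096 .leaf) 8585742112 .leaf)) 8585742208 (.node (.node (.node .leaf 8585746176 .leaf) 8587319056 .leaf) 8587319072 (.node (.node .leaf 8587319104 .leaf) 8587319168 .leaf))) 8587838209 (.node (.node (.node (.node .leaf 8587838210 .leaf) 8587838212 .leaf) 8587838216 (.node (.node .leaf 8587838224 .leaf) 8587839232 .leaf)) 8588361985 (.node (.node (.node .leaf 8588361986 .leaf) 8588365584 .leaf) 8588365600 (.node .leaf 8588365632 .leaf)))) 8588365696 (.node (.node (.node (.node (.node .leaf 8588369664 .leaf) 8588886025 .leaf) 8588886026 (.node (.node .leaf 8588886028 .leaf) 8588886033 .leaf)) 8588886034 (.node (.node (.node .leaf 8588886036 .leaf) 8588886040 .leaf) 8588886049 (.node .leaf 8588886050 .leaf))) 8588886052 (.node (.node (.node (.node .leaf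 8588886056 .leaf) 8588886064 .leaf) 8588886273 (.node (.node .leaf 8588886274 .leaf) 8588886276 .leaf)) 8588886288 (.node (.node (.node .leaf 8588886304 .leaf) 8588889864 .leaf) 8588889872 (.node .leaf 8588889888 .leaf))))) 8588893952 (.node (.node (.node (.node (.node (.node .leaf 8589410305 .leaf) 8589410306 .leaf) 8589412097 (.node (.node .leaf 8589412098 .leaf) 8589412100 .leaf)) 8589412104 (.node (.node (.node .leaf 14493420568 .leaf) 14493420584 .leaf) 14493420592 (.node (.node .leaf 14493420616 .leaf) 14493420624 .leaf))) 14493420640 (.node (.node (.node (.node .leaf 14493424656 .leaf) 14493424672 .leaf) 14493424704 (.node (.node .leaf 14493942801 .leaf) 14493942802 .leaf)) 14493942804 (.node (.node (.node .leaf 14493942808 .leaf) 14493942817 .leaf) 14493942818 (.node .leaf 14493942820 .leaf)))) 14493942824 (.node (.node (.node (.node (.node .leaf 14493942849 .leaf) 14493942850 .leaf) 14493942852 (.node (.node .leaf 14493942856 .leaf) 14494466193 .leaf)) 14494466194 (.node (.node (.node .leaf 14494466196 .leaf) 14494466200 .leaf) 14494466209 (.node .leaf 14494466210 .leaf))) 14494466212 (.node (.node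 (.node (.node .leaf 14494466216 .leaf) 14494466224 .leaf) 14494466241 (.node (.node .leaf 14494466242 .leaf) 14494466244 .leaf)) 14494466248 (.node (.node (.node .leaf 14494466256 .leaf) 14494466272 .leaf) 14494467216 (.node .leaf 14494467232 .leaf)))))) 14494467264 (.node (.node (.node (.node (.node (.node (.node .leaf 14494997648 .leaf) 14494997664 .leaf) 14494997696 (.node (.node .leaf 14761855512 .leaf) 14761855528 .leaf)) 14761855536 (.node (.node (.node .leaf 14761855560 .leaf) 14761855568 .leaf) 14761855584 (.node (.node .leaf 14761859600 .leaf) 14761859616 .leaf))) 14761859648 (.node (.node (.node (.node .leaf 14762377745 .leaf) 14762377746 .leaf) 14762377748 (.node (.node .leaf 14762377752 .leaf) 14762377761 .leaf)) 14762377762 (.node (.node (.node .leaf 14762377764 .leaf) 14762377768 .leaf) 14762377793 (.node .leaf 14762377794 .leaf)))) 14762377796 (.node (.node (.node (.node (.node .leaf 14762377800 .leaf) 14762901649 .leaf) 14762901650 (.node (.node .leaf 14762901652 .leaf) 14762901656 .leaf)) 14762901665 (.node (.node (.node .leaf 14762901666 .leaf) 14762901668 .leaf) 14762901672 (.node .leaf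 14762901680 .leaf))) 14762901697 (.node (.node (.node (.node .leaf 14762901698 .leaf) 14762901700 .leaf) 14762901704 (.node (.node .leaf 14762901712 .leaf) 14762901728 .leaf)) 14762902160 (.node (.node (.node .leaf 14762902176 .leaf) 14762902208 .leaf) 14763432592 (.node .leaf 14763432608 .leaf))))) 14763432640 (.node (.node (.node (.node (.node (.node .leaf 15028192792 .leaf) 15028192808 .leaf) 15028192816 (.node (.node .leaf 15028192840 .leaf) 15028192848 .leaf)) 15028192864 (.node (.node (.node .leaf 15028196880 .leaf) 15028196896 .leaf) 15028196928 (.node .leaf 15029769872 .leaf))) 15029769888 (.node (.node (.node (.node .leaf 15029769920 .leaf) 15030288905 .leaf) 15030288906 (.node (.node .leaf 15030288908 .leaf) 15030288913 .leaf)) 15030288914 (.node (.node (.node .leaf 15030288916 .leaf) 15030288920 .leaf) 15030288929 (.node .leaf 15030288930 .leaf)))) 15030288932 (.node (.node (.node (.node (.node .leaf 15030288936 .leaf) 15030288944 .leaf) 15030289921 (.node (.node .leaf 15030289922 .leaf) 15030289924 .leaf)) 15030289936 (.node (.node (.node .leaf 15030289952 .leaf) 15030320640 .leaf) 15030812681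 (.node .leaf 15030812682 .leaf))) 15030812689 (.node (.node (.node (.node .leaf 15030812690 .leaf) 15030812705 .leaf) 15030812706 (.node (.node .leaf 15030816400 .leaf) 15030816416 .leaf)) 15030816448 (.node (.node (.node .leaf 15030820360 .leaf) 15030820368 .leaf) 15030820384 (.node .leaf 15031337089 .leaf)))))))

/-- A block of the table. -/
def xt8 : NatTree :=
  (.node (.node (.node (.node (.node (.node (.node (.node .leaf 15031337092 .leaf) 15031337104 .leaf) 15031337120 (.node (.node .leaf 15031340680 .leaf) 15031340688 .leaf)) 15031340704 (.node (.node (.node .leaf 15031344768 .leaf) 15031862913 .leaf) 15031862914 (.node (.node .leaf 15031862916 .leaf) 15031862920 .leaf))) 16372467992 (.node (.node (.node (.node .leaf 16372468008 .leaf) 16372468016 .leaf) 16372468040 (.node (.node .leaf 16372468048 .leaf) 16372468064 .leaf)) 16372472080 (.node (.node (.node .leaf 16372472096 .leaf) 16372472128 .leaf) 16372990225 (.node .leaf 16372990226 .leaf)))) 16372990228 (.node (.node (.node (.node (.node .leaf 16372990232 .leaf) 16372990241 .leaf) 16372990242 (.node (.node .leaf 16372990244 .leaf) 16372990248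 .leaf)) 16372990273 (.node (.node (.node .leaf 16372990274 .leaf) 16372990276 .leaf) 16372990280 (.node .leaf 16373514640 .leaf))) 16373514656 (.node (.node (.node (.node .leaf 16373514688 .leaf) 16374045072 .leaf) 16374045088 (.node (.node .leaf 16374045120 .leaf) 16638805272 .leaf)) 16638805288 (.node (.node (.node .leaf 16638805296 .leaf) 16638805320 .leaf) 16638805328 (.node .leaf 16638805344 .leaf))))) 16638809360 (.node (.node (.node (.node (.node (.node .leaf 16638809376 .leaf) 16638809408 .leaf) 16640382352 (.node (.node .leaf 16640382368 .leaf) 16640382400 .leaf)) 16640901385 (.node (.node (.node .leaf 16640901386 .leaf) 16640901388 .leaf) 16640901393 (.node (.node .leaf 16640901394 .leaf) 16640901396 .leaf))) 16640901400 (.node (.node (.node (.node .leaf 16640901409 .leaf) 16640901410 .leaf) 16640901412 (.node (.node .leaf 16640901416 .leaf) 16640901424 .leaf)) 16640902401 (.node (.node (.node .leaf 16640902402 .leaf) 16640902404 .leaf) 16640902416 (.node .leaf 16640902432 .leaf)))) 16640933120 (.node (.node (.node (.node (.node .leaf 16641428880 .leaf) 16641428896 .leaf) 16641428928 (.node (.node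 .leaf 16641432840 .leaf) 16641432848 .leaf)) 16641432864 (.node (.node (.node .leaf 16641953160 .leaf) 16641953168 .leaf) 16641953184 (.node .leaf 16641957248 .leaf))) 16642475393 (.node (.node (.node (.node .leaf 16642475394 .leaf) 16642475396 .leaf) 16642475400 (.node (.node .leaf 16907240216 .leaf) 16907240232 .leaf)) 16907240240 (.node (.node (.node .leaf 16907240264 .leaf) 16907240272 .leaf) 16907240288 (.node .leaf 16907244304 .leaf)))))) 16907244320 (.node (.node (.node (.node (.node (.node (.node .leaf 16907244352 .leaf) 16908817296 .leaf) 16908817312 (.node (.node .leaf 16908817344 .leaf) 16909337345 .leaf)) 16909337346 (.node (.node (.node .leaf 16909337348 .leaf) 16909337360 .leaf) 16909337376 (.node (.node .leaf 16909368064 .leaf) 16909863824 .leaf))) 16909863840 (.node (.node (.node (.node .leaf 16909863872 .leaf) 16909867784 .leaf) 16909867792 (.node (.node .leaf 16909867808 .leaf) 16910388104 .leaf)) 16910388112 (.node (.node (.node .leaf 16910388128 .leaf) 16910392192 .leaf) 16910910337 (.node .leaf 16910910338 .leaf)))) 16910910340 (.node (.node (.node (.node (.node .leaf 16910910344 .leaf)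 17175705344 .leaf) 17176201104 (.node (.node .leaf 17176201120 .leaf) 17176201152 .leaf)) 17176205064 (.node (.node (.node .leaf 17176205072 .leaf) 17176205088 .leaf) 17176725384 (.node .leaf 17176725392 .leaf))) 17176725408 (.node (.node (.node (.node .leaf 17176729472 .leaf) 17177772041 .leaf) 17177772042 (.node (.node .leaf 17177772044 .leaf) 17177772049 .leaf)) 17177772050 (.node (.node (.node .leaf 17177772052 .leaf) 17177772056 .leaf) 17177772065 (.node .leaf 17177772066 .leaf))))) 17177772068 (.node (.node (.node (.node (.node (.node .leaf 17177772072 .leaf) 17177772080 .leaf) 17177772289 (.node (.node .leaf 17177772290 .leaf) 17177772292 .leaf)) 17177772304 (.node (.node (.node .leaf 17177772320 .leaf) 17177775880 .leaf) 17177775888 (.node (.node .leaf 17177775904 .leaf) 17177776000 .leaf))) 17177779968 (.node (.node (.node (.node .leaf 17178298113 .leaf) 17178298114 .leaf) 17178298116 (.node (.node .leaf 17178298120 .leaf) 17178820609 .leaf)) 17178821393 (.node (.node (.node .leaf 17178821394 .leaf) 17178821396 .leaf) 17178821400 (.node .leaf 17178821409 .leaf)))) 17178821410 (.node (.node (.node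 (.node (.node .leaf 17178821412 .leaf) 17178821416 .leaf) 17178821424 (.node (.node .leaf 17178821441 .leaf) 17178821442 .leaf)) 17178821444 (.node (.node (.node .leaf 17178821448 .leaf) 17178821456 .leaf) 17178821472 (.node .leaf 17178821505 .leaf))) 17178821506 (.node (.node (.node (.node .leaf 17178821508 .leaf) 17178821512 .leaf) 17178821520 (.node (.node .leaf 17178822416 .leaf) 17178822432 .leaf)) 17178822464 (.node (.node (.node .leaf 17178822528 .leaf) 17179344896 .leaf) 17179345169 (.node .leaf 17179345170 .leaf)))))))

/-- A block of the table. -/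
def xt9 : NatTree :=
  (.node (.node (.node (.node (.node (.node (.node (.node .leaf 17179345186 .leaf) 17179345217 .leaf) 17179345218 (.node (.node .leaf 17179345281 .leaf) 17179345282 .leaf)) 17179352848 (.node (.node (.node .leaf 17179352864 .leaf) 17179352896 .leaf) 17179352960 (.node (.node .leaf 32210157585 .leaf) 32210157586 .leaf))) 32210157588 (.node (.node (.node (.node .leaf 32210157601 .leaf) 32210157602 .leaf) 32210157604 (.node (.node .leaf 32210157616 .leaf) 32210157633 .leaf)) 32210157634 (.node (.node (.node .leaf 32210157636 .leaf) 32210157648 .leaf) 32210157664 (.node .leaf 32210161176 .leaf)))) 32210161192 (.node (.node (.node (.node (.node .leaf 32210161200 .leaf) 32210161224 .leaf) 32210161232 (.node (.node .leaf 32210161248 .leaf) 32210165264 .leaf)) 32210165280 (.node (.node (.node .leaf 32210165312 .leaf) 32210683409 .leaf) 32210683410 (.node .leaf 32210683412 .leaf))) 32210683416 (.node (.node (.node (.node .leaf 32210683425 .leaf) 32210683426 .leaf) 32210683428 (.node (.node .leaf 32210683432 .leaf) 32210683457 .leaf)) 32210683458 (.node (.node (.node .leaf 32210683460 .leaf)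 32210683464 .leaf) 32211206801 (.node .leaf 32211206802 .leaf))))) 32211206804 (.node (.node (.node (.node (.node (.node .leaf 32211206808 .leaf) 32211206817 .leaf) 32211206818 (.node (.node .leaf 32211206820 .leaf) 32211206824 .leaf)) 32211206832 (.node (.node (.node .leaf 32211206849 .leaf) 32211206850 .leaf) 32211206852 (.node (.node .leaf 32211206856 .leaf) 32211206864 .leaf))) 32211206880 (.node (.node (.node (.node .leaf 32211207824 .leaf) 32211207840 .leaf) 32211207872 (.node (.node .leaf 32211730577 .leaf) 32211730578 .leaf)) 32211730593 (.node (.node (.node .leaf 32211730594 .leaf) 32211730625 .leaf) 32211730626 (.node .leaf 32211738256 .leaf)))) 32211738272 (.node (.node (.node (.node (.node .leaf 32211738304 .leaf) 34089208600 .leaf) 34089208616 (.node (.node .leaf 34089208624 .leaf) 34089208648 .leaf)) 34089208656 (.node (.node (.node .leaf 34089208672 .leaf) 34089212688 .leaf) 34089212704 (.node .leaf 34089212736 .leaf))) 34089730833 (.node (.node (.node (.node .leaf 34089730834 .leaf) 34089730836 .leaf) 34089730840 (.node (.node .leaf 34089730849 .leaf) 34089730850 .leaf)) 34089730852 (.node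 (.node (.node .leaf 34089730856 .leaf) 34089730881 .leaf) 34089730882 (.node .leaf 34089730884 .leaf)))))) 34089730888 (.node (.node (.node (.node (.node (.node (.node .leaf 34090254737 .leaf) 34090254738 .leaf) 34090254740 (.node (.node .leaf 34090254744 .leaf) 34090254753 .leaf)) 34090254754 (.node (.node (.node .leaf 34090254756 .leaf) 34090254760 .leaf) 34090254768 (.node (.node .leaf 34090254785 .leaf) 34090254786 .leaf))) 34090254788 (.node (.node (.node (.node .leaf 34090254792 .leaf) 34090254800 .leaf) 34090254816 (.node (.node .leaf 34090255248 .leaf) 34090255264 .leaf)) 34090255296 (.node (.node (.node .leaf 34090785680 .leaf) 34090785696 .leaf) 34090785728 (.node .leaf 34355545880 .leaf)))) 34355545896 (.node (.node (.node (.node (.node .leaf 34355545904 .leaf) 34355545928 .leaf) 34355545936 (.node (.node .leaf 34355545952 .leaf) 34355549968 .leaf)) 34355549984 (.node (.node (.node .leaf 34355550016 .leaf) 34357122960 .leaf) 34357122976 (.node .leaf 34357123008 .leaf))) 34357641993 (.node (.node (.node (.node .leaf 34357641994 .leaf) 34357641996 .leaf) 34357642001 (.node (.node .leaf 34357642002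 .leaf) 34357642004 .leaf)) 34357642008 (.node (.node (.node .leaf 34357642017 .leaf) 34357642018 .leaf) 34357642020 (.node .leaf 34357642024 .leaf))))) 34357642032 (.node (.node (.node (.node (.node (.node .leaf 34357643009 .leaf) 34357643010 .leaf) 34357643012 (.node (.node .leaf 34357643024 .leaf) 34357643040 .leaf)) 34357673728 (.node (.node (.node .leaf 34358165769 .leaf) 34358165770 .leaf) 34358165777 (.node (.node .leaf 34358165778 .leaf) 34358165793 .leaf))) 34358165794 (.node (.node (.node (.node .leaf 34358169488 .leaf) 34358169504 .leaf) 34358169536 (.node (.node .leaf 34358173448 .leaf) 34358173456 .leaf)) 34358173472 (.node (.node (.node .leaf 34358689792 .leaf) 34358689929 .leaf) 34358689930 (.node .leaf 34358689932 .leaf)))) 34358689937 (.node (.node (.node (.node (.node .leaf 34358689938 .leaf) 34358689940 .leaf) 34358689944 (.node (.node .leaf 34358689953 .leaf) 34358689954 .leaf)) 34358689956 (.node (.node (.node .leaf 34358689960 .leaf) 34358689968 .leaf) 34358690177 (.node .leaf 34358690178 .leaf))) 34358690180 (.node (.node (.node (.node .leaf 34358690192 .leaf) 34358690208 .leaf) 34358693768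 (.node (.node .leaf 34358693776 .leaf) 34358693792 .leaf)) 34358697856 (.node (.node (.node .leaf 34359214083 .leaf) 34359214085 .leaf) 34359214086 (.node .leaf 34359214089 .leaf)))))))

/-- A block of the table. -/
def xt10 : NatTree :=
  (.node (.node (.node (.node (.node (.node (.node (.node .leaf 34359216002 .leaf) 34359216004 .leaf) 34359216008 (.node (.node .leaf 68717379609 .leaf) 68717379610 .leaf)) 68717379612 (.node (.node (.node .leaf 68717379625 .leaf) 68717379626 .leaf) 68717379628 (.node (.node .leaf 68717379633 .leaf) 68717379634 .leaf))) 68717379636 (.node (.node (.node (.node .leaf 68717379640 .leaf) 68717379657 .leaf) 68717379658 (.node (.node .leaf 68717379660 .leaf) 68717379665 .leaf)) 68717379666 (.node (.node (.node .leaf 68717379668 .leaf) 68717379672 .leaf) 68717379681 (.node .leaf 68717379682 .leaf)))) 68717379684 (.node (.node (.node (.node (.node .leaf 68717379688 .leaf) 68717379696 .leaf) 68717379857 (.node (.node .leaf 68717379858 .leaf) 68717379860 .leaf)) 68717379873 (.node (.node (.node .leaf 68717379874 .leaf) 68717379876 .leaf) 68717379888 (.node .leaf 68717379905 .leaf)))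 68717379906 (.node (.node (.node (.node .leaf 68717379908 .leaf) 68717379920 .leaf) 68717379936 (.node (.node .leaf 68717383448 .leaf) 68717383464 .leaf)) 68717383472 (.node (.node (.node .leaf 68717383496 .leaf) 68717383504 .leaf) 68717383520 (.node .leaf 68717387536 .leaf))))) 68717387552 (.node (.node (.node (.node (.node (.node .leaf 68717387584 .leaf) 68717905681 .leaf) 68717905682 (.node (.node .leaf 68717905684 .leaf) 68717905688 .leaf)) 68717905697 (.node (.node (.node .leaf 68717905698 .leaf) 68717905700 .leaf) 68717905704 (.node (.node .leaf 68717905729 .leaf) 68717905730 .leaf))) 68717905732 (.node (.node (.node (.node .leaf 68717905736 .leaf) 68718428177 .leaf) 68718428193 (.node (.node .leaf 68718428225 .leaf) 68718429073 .leaf)) 68718429074 (.node (.node (.node .leaf 68718429076 .leaf) 68718429080 .leaf) 68718429089 (.node .leaf 68718429090 .leaf)))) 68718429092 (.node (.node (.node (.node (.node .leaf 68718429096 .leaf) 68718429104 .leaf) 68718429121 (.node (.node .leaf 68718429122 .leaf) 68718429124 .leaf)) 68718429128 (.node (.node (.node .leaf 68718429136 .leaf) 68718429152 .leaf) 68718430096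 (.node .leaf 68718430112 .leaf))) 68718430144 (.node (.node (.node (.node .leaf 68718952449 .leaf) 68718952849 .leaf) 68718952850 (.node (.node .leaf 68718952865 .leaf) 68718952866 .leaf)) 68718952897 (.node (.node (.node .leaf 68718952898 .leaf) 68718960528 .leaf) 68718960544 (.node .leaf 68718960576 .leaf)))))) 103077117977 (.node (.node (.node (.node (.node (.node (.node .leaf 103077117978 .leaf) 103077117980 .leaf) 103077117993 (.node (.node .leaf 103077117994 .leaf) 103077117996 .leaf)) 103077118001 (.node (.node (.node .leaf 103077118002 .leaf) 103077118004 .leaf) 103077118008 (.node (.node .leaf 103077118211 .leaf) 103077118213 .leaf))) 103077118214 (.node (.node (.node (.node .leaf 103077118225 .leaf) 103077118226 .leaf) 103077118228 (.node (.node .leaf 103077118241 .leaf) 103077118242 .leaf)) 103077118244 (.node (.node (.node .leaf 103077118256 .leaf) 103077121816 .leaf) 103077121832 (.node .leaf 103077121840 .leaf)))) 103077125889 (.node (.node (.node (.node (.node .leaf 103077125890 .leaf) 103077125892 .leaf) 103077125904 (.node (.node .leaf 103077125920 .leaf) 103077644041 .leaf)) 103077644042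 (.node (.node (.node .leaf 103077644044 .leaf) 103077644049 .leaf) 103077644050 (.node .leaf 103077644052 .leaf))) 103077644056 (.node (.node (.node (.node .leaf 103077644065 .leaf) 103077644066 .leaf) 103077644068 (.node (.node .leaf 103078166531 .leaf) 103078166545 .leaf)) 103078167433 (.node (.node (.node .leaf 103078167434 .leaf) 103078167436 .leaf) 103078167441 (.node .leaf 103078167442 .leaf))))) 103078167444 (.node (.node (.node (.node (.node (.node .leaf 103078167448 .leaf) 103078167457 .leaf) 103078167458 (.node (.node .leaf 103078167460 .leaf) 103078167464 .leaf)) 103078167472 (.node (.node (.node .leaf 103078168449 .leaf) 103078168450 .leaf) 103078168452 (.node (.node .leaf 103078168464 .leaf) 103078168480 .leaf))) 103078199168 (.node (.node (.node (.node .leaf 103078691209 .leaf) 103078691210 .leaf) 103078691217 (.node (.node .leaf 103078691218 .leaf) 103078698888 .leaf)) 103078698896 (.node (.node (.node .leaf 137436857161 .leaf) 137436857162 .leaf) 137436857164 (.node .leaf 137436857169 .leaf)))) 137436857170 (.node (.node (.node (.node (.node .leaf 137436857172 .leaf) 137436857176 .leaf)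 137436857185 (.node (.node .leaf 137436857186 .leaf) 137436857188 .leaf)) 137436857192 (.node (.node (.node .leaf 137436857200 .leaf) 137436858177 .leaf) 137436858178 (.node .leaf 137436858180 .leaf))) 137436858192 (.node (.node (.node (.node .leaf 137436858208 .leaf) 137436888896 .leaf) 137437380937 (.node (.node .leaf 137437380938 .leaf) 137437380945 .leaf)) 137437380946 (.node (.node (.node .leaf 137437380961 .leaf) 137437380962 .leaf) 137437388616 (.node .leaf 137437388624 .leaf)))))))

/-- A block of the table. -/
def xt11 : NatTree :=
  (.node (.node (.node (.node (.node (.node (.node (.node .leaf 137437904897 .leaf) 137437905097 .leaf) 137437905098 (.node (.node .leaf 137437905100 .leaf) 137437905105 .leaf)) 137437905106 (.node (.node (.node .leaf 137437905108 .leaf) 137437905112 .leaf) 137437905121 (.node (.node .leaf 137437905122 .leaf) 137437905124 .leaf))) 137437905128 (.node (.node (.node (.node .leaf 137437905136 .leaf) 137437905345 .leaf) 137437905346 (.node (.node .leaf 137437905348 .leaf) 137437905360 .leaf)) 137437905376 (.node (.node (.node .leaf 137437908936 .leaf) 137437908944 .leaf)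 137437908960 (.node .leaf 137437913024 .leaf)))) 137438429251 (.node (.node (.node (.node (.node .leaf 137438429253 .leaf) 137438429254 .leaf) 137438429257 (.node (.node .leaf 137438431169 .leaf) 137438431170 .leaf)) 137438431172 (.node (.node (.node .leaf 137438431176 .leaf) 171796594713 .leaf) 171796594714 (.node .leaf 171796594716 .leaf))) 171796594947 (.node (.node (.node (.node .leaf 171796594949 .leaf) 171796594950 .leaf) 171796594961 (.node (.node .leaf 171796594962 .leaf) 171796594964 .leaf)) 171796598552 (.node (.node (.node .leaf 171796602625 .leaf) 171796602626 .leaf) 171796602628 (.node .leaf 171796602640 .leaf))))) 171797120777 (.node (.node (.node (.node (.node (.node .leaf 171797120778 .leaf) 171797120780 .leaf) 171797643267 (.node (.node .leaf 171797644169 .leaf) 171797644170 .leaf)) 171797644172 (.node (.node (.node .leaf 171797644184 .leaf) 171797645185 .leaf) 171797645186 (.node (.node .leaf 171797645188 .leaf) 171797645200 .leaf))) 171797675904 (.node (.node (.node (.node .leaf 171798167945 .leaf) 171798167946 .leaf) 171798175624 (.node (.node .leaf 206156333865 .leaf) 206156333866 .leaf))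 206156333868 (.node (.node (.node .leaf 206156333873 .leaf) 206156333874 .leaf) 206156333876 (.node .leaf 206156333880 .leaf)))) 206156333897 (.node (.node (.node (.node (.node .leaf 206156333898 .leaf) 206156333900 .leaf) 206156333912 (.node (.node .leaf 206156334881 .leaf) 206156334882 .leaf)) 206156334884 (.node (.node (.node .leaf 206156334896 .leaf) 206156334913 .leaf) 206156334914 (.node .leaf 206156334916 .leaf))) 206156334928 (.node (.node (.node (.node .leaf 206156365600 .leaf) 206156365632 .leaf) 206156857641 (.node (.node .leaf 206156857642 .leaf) 206156857649 .leaf)) 206156857650 (.node (.node (.node .leaf 206156857673 .leaf) 206156857674 .leaf) 206156865320 (.node .leaf 206156865328 .leaf)))))) 206156865352 (.node (.node (.node (.node (.node (.node (.node .leaf 206157381801 .leaf) 206157381802 .leaf) 206157381804 (.node (.node .leaf 206157381809 .leaf) 206157381810 .leaf)) 206157381812 (.node (.node (.node .leaf 206157381816 .leaf) 206157381833 .leaf) 206157381834 (.node (.node .leaf 206157381836 .leaf) 206157381848 .leaf))) 206157382049 (.node (.node (.node (.node .leaf 206157382050 .leaf)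 206157382052 .leaf) 206157382064 (.node (.node .leaf 206157382081 .leaf) 206157382082 .leaf)) 206157382084 (.node (.node (.node .leaf 206157382096 .leaf) 206157385640 .leaf) 206157385648 (.node .leaf 206157385672 .leaf)))) 206157389728 (.node (.node (.node (.node (.node .leaf 206157389760 .leaf) 206157905955 .leaf) 206157905957 (.node (.node .leaf 206157905958 .leaf) 206157905961 .leaf)) 206157905987 (.node (.node (.node .leaf 206157905989 .leaf) 206157905990 .leaf) 206157907873 (.node .leaf 206157907874 .leaf))) 206157907876 (.node (.node (.node (.node .leaf 206157907880 .leaf) 206157907905 .leaf) 206157907906 (.node (.node .leaf 206157907908 .leaf) 240516072217 .leaf)) 240516072218 (.node (.node (.node .leaf 240516072220 .leaf) 240516072233 .leaf) 240516072234 (.node .leaf 240516072236 .leaf))))) 240516072241 (.node (.node (.node (.node (.node (.node .leaf 240516072242 .leaf) 240516072244 .leaf) 240516072248 (.node (.node .leaf 240516073233 .leaf) 240516073234 .leaf)) 240516073236 (.node (.node (.node .leaf 240516073249 .leaf) 240516073250 .leaf) 240516073252 (.node .leaf 240516073264 .leaf))) 240516103952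 (.node (.node (.node (.node .leaf 240516103968 .leaf) 240516595993 .leaf) 240516595994 (.node (.node .leaf 240516596009 .leaf) 240516596010 .leaf)) 240516596017 (.node (.node (.node .leaf 240516596018 .leaf) 240516603672 .leaf) 240516603688 (.node .leaf 240516603696 .leaf)))) 240517120153 (.node (.node (.node (.node (.node .leaf 240517120154 .leaf) 240517120156 .leaf) 240517120169 (.node (.node .leaf 240517120170 .leaf) 240517120172 .leaf)) 240517120177 (.node (.node (.node .leaf 240517120178 .leaf) 240517120180 .leaf) 240517120184 (.node .leaf 240517120401 .leaf))) 240517120402 (.node (.node (.node (.node .leaf 240517120404 .leaf) 240517120417 .leaf) 240517120418 (.node (.node .leaf 240517120420 .leaf) 240517120432 .leaf)) 240517123992 (.node (.node (.node .leaf 240517124008 .leaf) 240517124016 .leaf) 240517128080 (.node .leaf 240517128096 .leaf)))))))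

/-- A block of the table. -/
def xt12 : NatTree :=
  (.node (.node (.node (.node (.node (.node (.node (.node .leaf 240517644309 .leaf) 240517644310 .leaf) 240517644313 (.node (.node .leaf 240517644323 .leaf) 240517644325 .leaf)) 240517644326 (.node (.node (.node .leaf 240517646225 .leaf) 240517646226 .leaf) 240517646228 (.node (.node .leaf 240517646232 .leaf) 240517646241 .leaf))) 240517646242 (.node (.node (.node (.node .leaf 240517646244 .leaf) 274875809881 .leaf) 274875809882 (.node (.node .leaf 274875809884 .leaf) 274875809897 .leaf)) 274875809898 (.node (.node (.node .leaf 274875809900 .leaf) 274875809905 .leaf) 274875809906 (.node .leaf 274875809908 .leaf)))) 274875809912 (.node (.node (.node (.node (.node .leaf 274875810129 .leaf) 274875810130 .leaf) 274875810132 (.node (.node .leaf 274875810145 .leaf) 274875810146 .leaf)) 274875810148 (.node (.node (.node .leaf 274875810160 .leaf) 274875813720 .leaf) 274875813736 (.node .leaf 274875813744 .leaf))) 274875817808 (.node (.node (.node (.node .leaf 274875817824 .leaf) 274876335953 .leaf) 274876335954 (.node (.node .leaf 274876335956 .leaf) 274876335960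 .leaf)) 274876335969 (.node (.node (.node .leaf 274876335970 .leaf) 274876335972 .leaf) 274876335976 (.node .leaf 274876858449 .leaf))))) 274876858465 (.node (.node (.node (.node (.node (.node .leaf 274876859345 .leaf) 274876859346 .leaf) 274876859348 (.node (.node .leaf 274876859352 .leaf) 274876859361 .leaf)) 274876859362 (.node (.node (.node .leaf 274876859364 .leaf) 274876859368 .leaf) 274876859376 (.node (.node .leaf 274876860368 .leaf) 274876860384 .leaf))) 274877382659 (.node (.node (.node (.node .leaf 274877383121 .leaf) 274877383122 .leaf) 274877383137 (.node (.node .leaf 274877383138 .leaf) 274877390800 .leaf)) 274877390816 (.node (.node (.node .leaf 446674502425 .leaf) 446674502426 .leaf) 446674502428 (.node .leaf 446674503441 .leaf)))) 446674503442 (.node (.node (.node (.node (.node .leaf 446674503444 .leaf) 446674534160 .leaf) 446675026201 (.node (.node .leaf 446675026202 .leaf) 446675033880 .leaf)) 446675550361 (.node (.node (.node .leaf 446675550362 .leaf) 446675550364 .leaf) 446675550595 (.node .leaf 446675550597 .leaf))) 446675550598 (.node (.node (.node (.node .leaf 446675550609 .leaf)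 446675550610 .leaf) 446675550612 (.node (.node .leaf 446675554200 .leaf) 446675558273 .leaf)) 446675558274 (.node (.node (.node .leaf 446675558276 .leaf) 446675558288 .leaf) 446676074507 (.node .leaf 446676074509 .leaf)))))) 446676074510 (.node (.node (.node (.node (.node (.node (.node .leaf 446676076425 .leaf) 446676076426 .leaf) 446676076428 (.node (.node .leaf 481034240089 .leaf) 481034240090 .leaf)) 481034240092 (.node (.node (.node .leaf 481034240323 .leaf) 481034240325 .leaf) 481034240326 (.node (.node .leaf 481034240337 .leaf) 481034240338 .leaf))) 481034240340 (.node (.node (.node (.node .leaf 481034243928 .leaf) 481034248001 .leaf) 481034248002 (.node (.node .leaf 481034248004 .leaf) 481034248016 .leaf)) 481034766153 (.node (.node (.node .leaf 481034766154 .leaf) 481034766156 .leaf) 481035288643 (.node .leaf 481035289545 .leaf)))) 481035289546 (.node (.node (.node (.node (.node .leaf 481035289548 .leaf) 481035289560 .leaf) 481035290561 (.node (.node .leaf 481035290562 .leaf) 481035290564 .leaf)) 481035290576 (.node (.node (.node .leaf 481035321280 .leaf) 481035813321 .leaf) 481035813322 (.node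 .leaf 481035821000 .leaf))) 515393978425 (.node (.node (.node (.node .leaf 515393978426 .leaf) 515393978428 .leaf) 515393978659 (.node (.node .leaf 515393978661 .leaf) 515393978662 .leaf)) 515393978673 (.node (.node (.node .leaf 515393978674 .leaf) 515393978676 .leaf) 515393982264 (.node .leaf 515393986337 .leaf))))) 515393986338 (.node (.node (.node (.node (.node (.node .leaf 515393986340 .leaf) 515393986352 .leaf) 515394504489 (.node (.node .leaf 515394504490 .leaf) 515394504492 .leaf)) 515394504497 (.node (.node (.node .leaf 515394504498 .leaf) 515394504500 .leaf) 515394504504 (.node (.node .leaf 515395026979 .leaf) 515395026993 .leaf))) 515395027881 (.node (.node (.node (.node .leaf 515395027882 .leaf) 515395027884 .leaf) 515395027889 (.node (.node .leaf 515395027890 .leaf) 515395027892 .leaf)) 515395027896 (.node (.node (.node .leaf 515395028897 .leaf) 515395028898 .leaf) 515395028900 (.node .leaf 515395028912 .leaf)))) 515395059616 (.node (.node (.node (.node (.node .leaf 515395551657 .leaf) 515395551658 .leaf) 515395551665 (.node (.node .leaf 515395551666 .leaf) 515395559336 .leaf)) 515395559344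 (.node (.node (.node .leaf 549753717609 .leaf) 549753717610 .leaf) 549753717612 (.node .leaf 549753717617 .leaf))) 549753717618 (.node (.node (.node (.node .leaf 549753717620 .leaf) 549753717624 .leaf) 549753718625 (.node (.node .leaf 549753718626 .leaf) 549753718628 .leaf)) 549753718640 (.node (.node (.node .leaf 549753749344 .leaf) 549754241385 .leaf) 549754241386 (.node .leaf 549754241393 .leaf)))))))

/-- A block of the table. -/
def xt13 : NatTree :=
  (.node (.node (.node (.node (.node (.node (.node (.node .leaf 549754249064 .leaf) 549754249072 .leaf) 549754765315 (.node (.node .leaf 549754765545 .leaf) 549754765546 .leaf)) 549754765548 (.node (.node (.node .leaf 549754765553 .leaf) 549754765554 .leaf) 549754765556 (.node (.node .leaf 549754765560 .leaf) 549754765793 .leaf))) 549754765794 (.node (.node (.node (.node .leaf 549754765796 .leaf) 549754765808 .leaf) 549754769384 (.node (.node .leaf 549754769392 .leaf) 549754773472 .leaf)) 549755289699 (.node (.node (.node .leaf 549755289701 .leaf) 549755289702 .leaf) 549755289705 (.node .leaf 549755291617 .leaf)))) 549755291618 (.node (.node (.node (.node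 (.node .leaf 549755291620 .leaf) 549755291624 .leaf) 652833980803 (.node (.node .leaf 652833980805 .leaf) 652833980806 .leaf)) 652833988481 (.node (.node (.node .leaf 652833988482 .leaf) 652833988484 .leaf) 652834504715 (.node .leaf 652834504717 .leaf))) 652834504718 (.node (.node (.node (.node .leaf 652834506633 .leaf) 652834506634 .leaf) 652834506636 (.node (.node .leaf 687192670531 .leaf) 687192670533 .leaf)) 687192670534 (.node (.node (.node .leaf 687192678209 .leaf) 687192678210 .leaf) 687192678212 (.node .leaf 687193196361 .leaf))))) 687193196362 (.node (.node (.node (.node (.node (.node .leaf 687193196364 .leaf) 687193718851 .leaf) 687193719753 (.node (.node .leaf 687193719754 .leaf) 687193719756 .leaf)) 687193720769 (.node (.node (.node .leaf 687193720770 .leaf) 687193720772 .leaf) 687193751488 (.node (.node .leaf 687194243529 .leaf) 687194243530 .leaf))) 687194251208 (.node (.node (.node (.node .leaf 721553457539 .leaf) 721553457541 .leaf) 721553457542 (.node (.node .leaf 721553465217 .leaf) 721553465218 .leaf)) 721553465220 (.node (.node (.node .leaf 721553981451 .leaf) 721553981453 .leaf) 721553981454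 (.node .leaf 721553983369 .leaf)))) 721553983370 (.node (.node (.node (.node (.node .leaf 721553983372 .leaf) 755912147267 .leaf) 755912147269 (.node (.node .leaf 755912147270 .leaf) 755912154945 .leaf)) 755912154946 (.node (.node (.node .leaf 755912154948 .leaf) 755912673097 .leaf) 755912673098 (.node .leaf 755912673100 .leaf))) 755913196489 (.node (.node (.node (.node .leaf 755913196490 .leaf) 755913196492 .leaf) 755913197505 (.node (.node .leaf 755913197506 .leaf) 755913197508 .leaf)) 790271885587 (.node (.node (.node .leaf 790271885589 .leaf) 790271885590 .leaf) 790271885603 (.node .leaf 790271885605 .leaf)))))) 790271885606 (.node (.node (.node (.node (.node (.node (.node .leaf 790271893265 .leaf) 790271893266 .leaf) 790271893268 (.node (.node .leaf 790271893281 .leaf) 790271893282 .leaf)) 790271893284 (.node (.node (.node .leaf 790272411417 .leaf) 790272411418 .leaf) 790272411420 (.node (.node .leaf 790272411433 .leaf) 790272411434 .leaf))) 790272411436 (.node (.node (.node (.node .leaf 790272933907 .leaf) 790272933923 .leaf) 790272934809 (.node (.node .leaf 790272934810 .leaf) 790272934812 .leaf))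 790272934825 (.node (.node (.node .leaf 790272934826 .leaf) 790272934828 .leaf) 790272935825 (.node .leaf 790272935826 .leaf)))) 790272935828 (.node (.node (.node (.node (.node .leaf 790272935841 .leaf) 790272935842 .leaf) 790272935844 (.node (.node .leaf 790272966544 .leaf) 790272966560 .leaf)) 790273458585 (.node (.node (.node .leaf 790273458586 .leaf) 790273458601 .leaf) 790273458602 (.node .leaf 790273466264 .leaf))) 790273466280 (.node (.node (.node (.node .leaf 824631624537 .leaf) 824631624538 .leaf) 824631624540 (.node (.node .leaf 824631624553 .leaf) 824631624554 .leaf)) 824631624556 (.node (.node (.node .leaf 824631625553 .leaf) 824631625554 .leaf) 824631625556 (.node .leaf 824631625569 .leaf))))) 824631625570 (.node (.node (.node (.node (.node (.node .leaf 824631625572 .leaf) 824631656272 .leaf) 824631656288 (.node (.node .leaf 824632148313 .leaf) 824632148314 .leaf)) 824632148329 (.node (.node (.node .leaf 824632148330 .leaf) 824632155992 .leaf) 824632156008 (.node (.node .leaf 824632672259 .leaf) 824632672473 .leaf))) 824632672474 (.node (.node (.node (.node .leaf 824632672476 .leaf) 824632672489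 .leaf) 824632672490 (.node (.node .leaf 824632672492 .leaf) 824632672721 .leaf)) 824632672722 (.node (.node (.node .leaf 824632672724 .leaf) 824632672737 .leaf) 824632672738 (.node .leaf 824632672740 .leaf)))) 824632676312 (.node (.node (.node (.node (.node .leaf 824632676328 .leaf) 824632680400 .leaf) 824632680416 (.node (.node .leaf 824633196627 .leaf) 824633196629 .leaf)) 824633196630 (.node (.node (.node .leaf 824633196633 .leaf) 824633196643 .leaf) 824633196645 (.node .leaf 824633196646 .leaf))) 824633198545 (.node (.node (.node (.node .leaf 824633198546 .leaf) 824633198548 .leaf) 824633198552 (.node (.node .leaf 824633198561 .leaf) 824633198562 .leaf)) 824633198564 (.node (.node (.node .leaf 996430315795 .leaf) 996430315797 .leaf) 996430315798 (.node .leaf 996430323473 .leaf)))))))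

/-- A block of the table. -/
def xt14 : NatTree :=
  (.node (.node (.node (.node (.node (.node (.node (.node .leaf 996430323476 .leaf) 996430841625 .leaf) 996430841626 (.node (.node .leaf 996430841628 .leaf) 996431364115 .leaf)) 996431365017 (.node (.node (.node .leaf 996431365018 .leaf) 996431365020 .leaf) 996431366033 (.node (.node .leaf 996431366034 .leaf) 996431366036 .leaf))) 996431396752 (.node (.node (.node (.node .leaf 996431888793 .leaf) 996431888794 .leaf) 996431896472 (.node (.node .leaf 1030790054745 .leaf) 1030790054746 .leaf)) 1030790054748 (.node (.node (.node .leaf 1030790055761 .leaf) 1030790055762 .leaf) 1030790055764 (.node .leaf 1030790086480 .leaf)))) 1030790578521 (.node (.node (.node (.node (.node .leaf 1030790578522 .leaf) 1030790586200 .leaf) 1030791102681 (.node (.node .leaf 1030791102682 .leaf) 1030791102684 .leaf)) 1030791102929 (.node (.node (.node .leaf 1030791102930 .leaf) 1030791102932 .leaf) 1030791106520 (.node .leaf 1030791110608 .leaf))) 1065149793081 (.node (.node (.node (.node .leaf 1065149793082 .leaf) 1065149793084 .leaf) 1065149794097 (.node (.node .leaf 1065149794098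 .leaf) 1065149794100 .leaf)) 1065149824816 (.node (.node (.node .leaf 1065150316857 .leaf) 1065150316858 .leaf) 1065150324536 (.node .leaf 1065150841017 .leaf))))) 1065150841018 (.node (.node (.node (.node (.node (.node .leaf 1065150841020 .leaf) 1065150841265 .leaf) 1065150841266 (.node (.node .leaf 1065150841268 .leaf) 1065150844856 .leaf)) 1065150848944 (.node (.node (.node .leaf 1065151365171 .leaf) 1065151365173 .leaf) 1065151365174 (.node (.node .leaf 1065151365177 .leaf) 1065151367089 .leaf))) 1065151367090 (.node (.node (.node (.node .leaf 1065151367092 .leaf) 1065151367096 .leaf) 1099509530745 (.node (.node .leaf 1099509530746 .leaf) 1099509530748 .leaf)) 1099509530993 (.node (.node (.node .leaf 1099509530994 .leaf) 1099509530996 .leaf) 1099509534584 (.node .leaf 1099509538672 .leaf)))) 1099510056817 (.node (.node (.node (.node (.node .leaf 1099510056818 .leaf) 1099510056820 .leaf) 1099510056824 (.node (.node .leaf 1099510579313 .leaf) 1099510580209 .leaf)) 1099510580210 (.node (.node (.node .leaf 1099510580212 .leaf) 1099510580216 .leaf) 1099510581232 (.node .leaf 1099511103507 .leaf))) 1099511103985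 (.node (.node (.node (.node .leaf 1099511103986 .leaf) 1099511111664 .leaf) 1855424823747 (.node (.node .leaf 1855424823749 .leaf) 1855424823750 .leaf)) 1855424831425 (.node (.node (.node .leaf 1855424831426 .leaf) 1855424831428 .leaf) 1855425347659 (.node .leaf 1855425347661 .leaf)))))) 1855425347662 (.node (.node (.node (.node (.node (.node (.node .leaf 1855425349577 .leaf) 1855425349578 .leaf) 1855425349580 (.node (.node .leaf 1889784562083 .leaf) 1889784562085 .leaf)) 1889784562086 (.node (.node (.node .leaf 1889784569761 .leaf) 1889784569762 .leaf) 1889784569764 (.node (.node .leaf 1889785085995 .leaf) 1889785085997 .leaf))) 1889785085998 (.node (.node (.node (.node .leaf 1889785087913 .leaf) 1889785087914 .leaf) 1889785087916 (.node (.node .leaf 1924143251811 .leaf) 1924143251813 .leaf)) 1924143251814 (.node (.node (.node .leaf 1924143259489 .leaf) 1924143259490 .leaf) 1924143259492 (.node .leaf 1924143777641 .leaf)))) 1924143777642 (.node (.node (.node (.node (.node .leaf 1924143777644 .leaf) 1924144300131 .leaf) 1924144301033 (.node (.node .leaf 1924144301034 .leaf) 1924144301036 .leaf)) 1924144302049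 (.node (.node (.node .leaf 1924144302050 .leaf) 1924144302052 .leaf) 1924144332768 (.node .leaf 1924144824331 .leaf))) 1924144824809 (.node (.node (.node (.node .leaf 1924144824810 .leaf) 1924144832488 .leaf) 2095942992275 (.node (.node .leaf 2095942992277 .leaf) 2095942992278 .leaf)) 2095942999953 (.node (.node (.node .leaf 2095942999954 .leaf) 2095942999956 .leaf) 2095943516187 (.node .leaf 2095943516189 .leaf))))) 2095943516190 (.node (.node (.node (.node (.node (.node .leaf 2095943518105 .leaf) 2095943518106 .leaf) 2095943518108 (.node (.node .leaf 2130301682003 .leaf) 2130301682005 .leaf)) 2130301682006 (.node (.node (.node .leaf 2130301689681 .leaf) 2130301689682 .leaf) 2130301689684 (.node (.node .leaf 2130302207833 .leaf) 2130302207834 .leaf))) 2130302207836 (.node (.node (.node (.node .leaf 2130302730323 .leaf) 2130302731225 .leaf) 2130302731226 (.node (.node .leaf 2130302731228 .leaf) 2130302732241 .leaf)) 2130302732242 (.node (.node (.node .leaf 2130302732244 .leaf) 2130302762960 .leaf) 2130303255001 (.node .leaf 2130303255002 .leaf)))) 2130303262680 (.node (.node (.node (.node (.node .leaf 2164661420339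 .leaf) 2164661420341 .leaf) 2164661420342 (.node (.node .leaf 2164661428017 .leaf) 2164661428018 .leaf)) 2164661428020 (.node (.node (.node .leaf 2164661946169 .leaf) 2164661946170 .leaf) 2164661946172 (.node .leaf 2164662468659 .leaf))) 2164662469561 (.node (.node (.node (.node .leaf 2164662469562 .leaf) 2164662469564 .leaf) 2164662470577 (.node (.node .leaf 2164662470578 .leaf) 2164662470580 .leaf)) 2164662501296 (.node (.node (.node .leaf 2164662993337 .leaf) 2164662993338 .leaf) 2164663001016 (.node .leaf 2199021159289 .leaf)))))))

/-- A block of the table. -/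
def xt15 : NatTree :=
  (.node (.node (.node (.node (.node (.node (.node (.node .leaf 2199021159292 .leaf) 2199021160305 .leaf) 2199021160306 (.node (.node .leaf 2199021160308 .leaf) 2199021191024 .leaf)) 2199021683065 (.node (.node (.node .leaf 2199021683066 .leaf) 2199021690744 .leaf) 2199022206995 (.node (.node .leaf 2199022207225 .leaf) 2199022207226 .leaf))) 2199022207228 (.node (.node (.node (.node .leaf 2199022207473 .leaf) 2199022207474 .leaf) 2199022207476 (.node (.node .leaf 2199022211064 .leaf) 2199022215152 .leaf)) 2199022731379 (.node (.node (.node .leaf 2199022731381 .leaf) 2199022731382 .leaf) 2199022731385 (.node .leaf 2199022733297 .leaf)))) 2199022733298 (.node (.node (.node (.node (.node .leaf 2199022733300 .leaf) 2199022733304 .leaf) 4123167555591 (.node (.node .leaf 4123167556067 .leaf) 4123167556069 .leaf)) 4123167556070 (.node (.node (.node .leaf 4123167563745 .leaf) 4123167563746 .leaf) 4123167563748 (.node .leaf 4123168079979 .leaf))) 4123168079981 (.node (.node (.node (.node .leaf 4123168079982 .leaf) 4123168081897 .leaf) 4123168081898 (.node (.node .leaf 4123168081900 .leaf) 4363685724595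 .leaf)) 4363685724597 (.node (.node (.node .leaf 4363685724598 .leaf) 4363685732273 .leaf) 4363685732274 (.node .leaf 4363685732276 .leaf))))) 4363686248507 (.node (.node (.node (.node (.node (.node .leaf 4363686248509 .leaf) 4363686248510 .leaf) 4363686250425 (.node (.node .leaf 4363686250426 .leaf) 4363686250428 .leaf)) 4398044414323 (.node (.node (.node .leaf 4398044414325 .leaf) 4398044414326 .leaf) 4398044422001 (.node (.node .leaf 4398044422002 .leaf) 4398044422004 .leaf))) 4398044940153 (.node (.node (.node (.node .leaf 4398044940154 .leaf) 4398044940156 .leaf) 4398045462643 (.node (.node .leaf 4398045463545 .leaf) 4398045463546 .leaf)) 4398045463548 (.node (.node (.node .leaf 4398045464561 .leaf) 4398045464562 .leaf) 4398045464564 (.node .leaf 4398045495280 .leaf)))) 4398045986843 (.node (.node (.node (.node (.node .leaf 4398045987321 .leaf) 4398045987322 .leaf) 4398045995000 (.node (.node .leaf 8796091973655 .leaf) 8796091974131 .leaf)) 8796091974133 (.node (.node (.node .leaf 8796091974134 .leaf) 8796091981809 .leaf) 8796091981810 (.node .leaf 8796091981812 .leaf))) 8796092498043 (.node (.node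 (.node (.node .leaf 8796092498045 .leaf) 8796092498046 .leaf) 8796092499961 (.node (.node .leaf 8796092499962 .leaf) 8796092499964 .leaf)) 13194138485235 (.node (.node (.node .leaf 13194138492913 .leaf) 13194138492914 .leaf) 13194138615792 (.node .leaf 13194139009147 .leaf)))))) 13194139011065 (.node (.node (.node (.node (.node (.node (.node .leaf 13194139011066 .leaf) 13194139041784 .leaf) 17592184995959 (.node (.node .leaf 17592184997877 .leaf) 17592184997878 .leaf)) 17592185028596 (.node (.node (.node .leaf 17592185520159 .leaf) 17592185520637 .leaf) 17592185520638 (.node (.node .leaf 17592185528316 .leaf) 21990231515121 .leaf))) 21990231638000 (.node (.node (.node (.node .leaf 21990232033273 .leaf) 21990232063992 .leaf) 26388278020083 (.node (.node .leaf 26388278020085 .leaf) 26388278050802 .leaf)) 26388278050804 (.node (.node (.node .leaf 26388278542843 .leaf) 26388278542845 .leaf) 26388278550522 (.node .leaf 26388278550524 .leaf)))) 30786324531187 (.node (.node (.node (.node (.node .leaf 30786324561905 .leaf) 30786324561906 .leaf) 30786325053947 (.node (.node .leaf 30786325061625 .leaf) 30786325061626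 .leaf)) 35184371040759 (.node (.node (.node .leaf 35184371048437 .leaf) 35184371048438 .leaf) 35184371564671 (.node .leaf 35184371566589 .leaf))) 35184371566590 (.node (.node (.node (.node .leaf 57174603628529 .leaf) 57174604128249 .leaf) 57174604251128 (.node (.node .leaf 61572650115061 .leaf) 61572650237940 .leaf)) 61572650633213 (.node (.node (.node .leaf 61572650663932 .leaf) 65970696626163 .leaf) 65970696749042 (.node .leaf 65970697144315 .leaf))))) 65970697175034 (.node (.node (.node (.node (.node (.node .leaf 70368743131127 .leaf) 70368743161846 .leaf) 70368743653887 (.node (.node .leaf 70368743661566 .leaf) 83562883317752 .leaf)) 87960929304564 (.node (.node (.node .leaf 87960929730556 .leaf) 92358976339960 .leaf) 96757022326772 (.node .leaf 96757022752764 .leaf))) 101155068837873 (.node (.node (.node (.node .leaf 101155068837874 .leaf) 101155069263865 .leaf) 101155069263866 (.node (.node .leaf 105553115250677 .leaf) 105553115250678 .leaf)) 105553115750397 (.node (.node (.node .leaf 105553115750398 .leaf) 127543347904497 .leaf) 127543348330489 (.node .leaf 131941394317301 .leaf)))) 131941394817021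 (.node (.node (.node (.node (.node .leaf 136339440828403 .leaf) 136339441328123 .leaf) 140737487314935 (.node (.node .leaf 140737487833087 .leaf) 237494511206396 .leaf)) 241892557717498 (.node (.node (.node .leaf 246290603704310 .leaf) 246290604130302 .leaf) 268280836784121 (.node .leaf 272678882770933 .leaf))) 272678883196925 (.node (.node (.node (.node .leaf 277076929282035 .leaf) 277076929708027 .leaf) 281474975694839 (.node (.node .leaf 281474976194559 .leaf) 527765580939262 .leaf)) 558551906516987 (.node (.node (.node .leaf 562949952503799 .leaf) 562949952929791 .leaf) 1125899906449407 (.node .leaf 2251799813685247 .leaf)))))))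

/-- The whole table. -/
def xtree : NatTree :=
  (.node (.node (.node (.node xt0 266862593 xt1) 1070597256 (.node xt2 1875379008 xt3)) 3753903152 (.node (.node xt4 5098178656 xt5) 6438786312 (.node xt6 8320981792 xt7))) 15031337090 (.node (.node (.node xt8 17179345185 xt9) 34359216001 (.node xt10 137437388640 xt11)) 240517644307 (.node (.node xt12 549754241394 xt13) 996430323474 (.node xt14 2199021159290 xt15))))

/-- The check of one mask against the table. -/
def xchk (M : ℕ) : Bool := check2 xtree xcap M xaws 51 xrws

end Vale.Agent.Lib.Helper5.P302Hyb2
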