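import Vale.Agent.Lib.Helper5.P302HybOpt

/-!
Assembly for the 110 item instance: no packing into 36 bins exists, so the optimum is at least
37, while the linear programming value is at most `2575 / 72`; the gap is at least `89 / 72`.
-/

namespace Vale.Agent.Lib.Helper5.P302Hyb

open Finset Vale.Agent.Lib.Helper3.BinPacking

/-- The 110 item instance cannot be packed into 36 bins. -/
theorem no_packing_36 : ¬ ∃ f : Fin 110 → Fin 36, IsPacking hinst 36 f := by
  classical
  rintro ⟨f, hf⟩
  have hCq : (0 : ℚ) < (hcap : ℚ) := by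
    have : 0 < hcap := by decide
    exact_mod_cast this
  set S : Fin 36 → Finset ℕ :=
    fun b => (univ.filter (fun i : Fin 110 => f i = b)).map Fin.valEmbedding with hS
  have hSlt : ∀ b, ∀ i ∈ S b, i < 110 := by
    intro b i hi
    simp only [hS, Finset.mem_map, Fin.valEmbedding_apply] at hi
    obtain ⟨j, _, rfl⟩ := hi
    exact j.2
  have hSw : ∀ b, ∑ i ∈ S b, hw.getD i 0 ≤ hcap := by
    intro b
    have h1 : ∑ i ∈ univ.filter (fun i : Fin 110 => f i = b), hinst i ≤ 1 := hf b
    have h2 : ∑ i ∈ univ.filter (fun i : Fin 110 => f i = b), hinst i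
        = ((∑ i ∈ S b, hw.getD i 0 : ℕ) : ℚ) / (hcap : ℚ) := by
      simp only [hS]
      rw [Finset.sum_map, Nat.cast_sum, Finset.sum_div]
      rfl
    rw [h2, div_le_one hCq] at h1
    exact_mod_cast h1
  have hSdisj : ∀ b b', b ≠ b' → Disjoint (S b) (S b') := by
    intro b b' hbb
    rw [Finset.disjoint_left]
    intro x hx hx'
    simp only [hS, Finset.mem_map, Finset.mem_filter, Finset.mem_univ, true_and,
      Fin.valEmbedding_apply] at hx hx'
    obtain ⟨j, hj, rfl⟩ := hx
    obtain ⟨j', hj', hjj⟩ := hx'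
    have h1 : j' = j := Fin.val_injective hjj
    rw [h1] at hj'
    exact hbb (hj.symm.trans hj')
  -- the total value
  have htot : ∑ b, ∑ i ∈ S b, val i = 545 := by
    have h1 : ∀ b, ∑ i ∈ S b, val i
        = ∑ i ∈ univ.filter (fun i : Fin 110 => f i = b), val (i : ℕ) := by
      intro b
      simp only [hS]
      rw [Finset.sum_map]
      rfl
    rw [Finset.sum_congr rfl (fun b _ => h1 b), Finset.sum_fiberwise]
    exact val_total
  -- the value of every bin
  have hbound : ∀ b, ∑ i ∈ S b, val i
      ≤ 14 + (if IsT3 (S b) then 1 else 0) + 2 * (if IsPB (S b) then 1 else 0) := by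
    intro b
    rcases bin_cases (S b) (hSlt b) (hSw b) with h | h | h
    · omega
    · rw [if_pos h]
      obtain ⟨h3, hb, hsm, hfl⟩ := h
      rw [sum_val, h3, hb, hsm, hfl]
      omega
    · rw [if_pos h]
      obtain ⟨h3, hb, hsm, hfl⟩ := h
      rw [sum_val, h3, hb, hsm, hfl]
      omega
  have hsum : ∑ b : Fin 36, (14 + (if IsT3 (S b) then 1 else 0)
      + 2 * (if IsPB (S b) then 1 else 0))
      = 504 + (univ.filter (fun b : Fin 36 => IsT3 (S b))).card
        + 2 * (univ.filter (fun b : Fin 36 => IsPB (S b))).card := by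
    rw [Finset.sum_add_distrib, Finset.sum_add_distrib, Finset.sum_const, Finset.card_univ,
      Fintype.card_fin, ← Finset.mul_sum, ← Finset.card_filter, ← Finset.card_filter]
    rfl
  -- at most 20 bins with three items close to a third
  have hF1 : (univ.filter (fun b : Fin 36 => IsT3 (S b))).card ≤ 20 := by
    by_contra hcon
    have hcon' : 21 ≤ (univ.filter (fun b : Fin 36 => IsT3 (S b))).card := by omega
    obtain ⟨B', hBsub, hBcard⟩ := Finset.exists_subset_card_eq hcon'
    have hfacts : ∀ b ∈ B', (S b).card = 3 ∧ (∀ i ∈ S b, i < 65) ∧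
        ∑ i ∈ S b, wts.getD i 0 ≤ cap := by
      intro b hb
      have h1 := hBsub hb
      rw [Finset.mem_filter] at h1
      exact t3_facts (S b) (hSw b) h1.2
    have hres := Vale.Agent.Lib.Helper8.P302Glue.packable_compress (fun i => wts.getD i 0) cap 65
      (fun i j hij hj => wts_mono65 j hj i hij) (Fin 36) B' S
      (fun b hb => (hfacts b hb).1) (fun b hb => (hfacts b hb).2.2)
      (fun b hb => (hfacts b hb).2.1) (fun b _ b' _ hbb => hSdisj b b' hbb)
    rw [hBcard] at hres
    exact not_packable_63 hres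
  -- at most 10 bins with a large item and two small items
  have hF2 : (univ.filter (fun b : Fin 36 => IsPB (S b))).card ≤ 10 := by
    by_contra hcon
    have hcon' : 11 ≤ (univ.filter (fun b : Fin 36 => IsPB (S b))).card := by omega
    obtain ⟨B', hBsub, hBcard⟩ := Finset.exists_subset_card_eq hcon'
    set Tb : Fin 36 → Finset ℕ := fun b => (S b).image (fun i => i - 65) with hTb
    have hfacts : ∀ b ∈ B', (∀ i ∈ S b, 65 ≤ i ∧ i < 101) ∧ (Tb b).card = 3 ∧
        ∑ j ∈ Tb b, xw.getD j 0 ≤ xcap ∧ ∑ j ∈ Tb b, ub j = 30421 := by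
      intro b hb
      have h1 := hBsub hb
      rw [Finset.mem_filter] at h1
      exact pb_facts (S b) (hSw b) h1.2
    have hTdisj : ∀ b ∈ B', ∀ b' ∈ B', b ≠ b' → Disjoint (Tb b) (Tb b') := by
      intro b hb b' hb' hbb
      rw [Finset.disjoint_left]
      intro x hx hx'
      simp only [hTb, Finset.mem_image] at hx hx'
      obtain ⟨i, hi, rfl⟩ := hx
      obtain ⟨i', hi', hii⟩ := hx'
      have h1 := ((hfacts b hb).1 i hi).1
      have h2 := ((hfacts b' hb').1 i' hi').1
      have h3 : i' = i := by omega
      rw [h3] at hi'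
      exact Finset.disjoint_left.1 (hSdisj b b' hbb) hi hi'
    have hTsub : ∀ b ∈ B', Tb b ⊆ Finset.range 36 := by
      intro b hb x hx
      simp only [hTb, Finset.mem_image] at hx
      obtain ⟨i, hi, rfl⟩ := hx
      have h1 := (hfacts b hb).1 i hi
      rw [Finset.mem_range]
      omega
    set U := B'.biUnion Tb with hU
    have hUsub : U ⊆ Finset.range 36 := Finset.biUnion_subset.2 hTsub
    have hUcard : U.card = 33 := by
      rw [hU, Finset.card_biUnion hTdisj, Finset.sum_congr rfl (fun b hb => (hfacts b hb).2.1),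
        Finset.sum_const, hBcard]
      rfl
    have hUub : ∑ j ∈ U, ub j = 334631 := by
      rw [hU, Finset.sum_biUnion hTdisj,
        Finset.sum_congr rfl (fun b hb => (hfacts b hb).2.2.2), Finset.sum_const, hBcard]
      rfl
    set R := Finset.range 36 \ U with hR
    have hRcard : R.card = 3 := by
      rw [hR, Finset.card_sdiff_of_subset hUsub, Finset.card_range, hUcard]
    have hRub : ∑ j ∈ R, ub j = 27005 := by
      have h1 : ∑ j ∈ R, ub j + ∑ j ∈ U, ub j = ∑ j ∈ Finset.range 36, ub j :=
        Finset.sum_sdiff hUsub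
      rw [hUub, ub_total] at h1
      omega
    have hRw : ∑ j ∈ R, xw.getD j 0 ≤ xcap := by
      have h1 : ∑ j ∈ R, xw.getD j 0 ≤ ∑ j ∈ R, ub j :=
        Finset.sum_le_sum (fun j hj => xw_le_ub j
          (Finset.mem_range.1 (Finset.mem_sdiff.1 hj).1))
      rw [hRub] at h1
      have h2 : xcap = 30000 := rfl
      omega
    apply not_packable_x
    refine ⟨insert R (B'.image Tb), ?_, ?_, ?_⟩
    · intro T hT
      rw [Finset.mem_insert] at hT
      rcases hT with rfl | hT
      · exact ⟨hRcard, hRw⟩
      · rw [Finset.mem_image] at hT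
        obtain ⟨b, hb, rfl⟩ := hT
        exact ⟨(hfacts b hb).2.1, (hfacts b hb).2.2.1⟩
    · intro T hT T' hT' hne
      rw [Finset.mem_insert] at hT hT'
      have hRT : ∀ b ∈ B', Disjoint R (Tb b) := by
        intro b hb
        exact Finset.disjoint_of_subset_right (Finset.subset_biUnion_of_mem Tb hb)
          Finset.sdiff_disjoint
      rcases hT with rfl | hT
      · rcases hT' with rfl | hT'
        · exact absurd rfl hne
        · rw [Finset.mem_image] at hT'
          obtain ⟨b, hb, rfl⟩ := hT'
          exact hRT b hb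
      · rw [Finset.mem_image] at hT
        obtain ⟨b, hb, rfl⟩ := hT
        rcases hT' with rfl | hT'
        · exact (hRT b hb).symm
        · rw [Finset.mem_image] at hT'
          obtain ⟨b', hb', rfl⟩ := hT'
          exact hTdisj b hb b' hb' (fun h => hne (by rw [h]))
    · rw [Finset.biUnion_insert, Finset.image_biUnion]
      simp only [id]
      rw [← hU, hR]
      exact Finset.sdiff_union_of_subset hUsub
  have h545 : 545 ≤ 504 + (univ.filter (fun b : Fin 36 => IsT3 (S b))).card
      + 2 * (univ.filter (fun b : Fin 36 => IsPB (S b))).card := by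
    rw [← htot, ← hsum]
    exact Finset.sum_le_sum (fun b _ => hbound b)
  omega

/-- The 110 item instance needs at least 37 bins. -/
theorem opt_hinst_ge : 37 ≤ opt hinst :=
  succ_le_opt hinst (fun i => (hinst_pos_le i).2) 36 no_packing_36

/-- The gap statement for the 110 item instance. -/
theorem gap_hyb : ∃ (n : ℕ) (a : Fin n → ℚ), (∀ i, 0 < a i ∧ a i ≤ 1) ∧
    (89 / 72 : ℝ) ≤ (opt a : ℝ) - lp a := by
  refine ⟨110, hinst, hinst_pos_le, ?_⟩
  have h1 : (37 : ℝ) ≤ (opt hinst : ℝ) := by exact_mod_cast opt_hinst_ge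
  have h2 := lp_hinst_le
  linarith

end Vale.Agent.Lib.Helper5.P302Hyb
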