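import Vale.Agent.Lib.Helper5.P302HybXA
import Vale.Agent.Lib.Helper5.P302HybXB
import Vale.Agent.Lib.Helper5.P302HybXC
import Vale.Agent.Lib.Helper5.P302HybXD

/-!
The auxiliary 36 item instance cannot be split into 12 triples of total weight at most the
capacity.
-/

namespace Vale.Agent.Lib.Helper5.P302Hyb

open Finset Vale.Agent.Lib.Helper3.BinPacking

theorem xtree_ok : xtree.all xchk = true := by
  simp only [xtree, NatTree.all, xt0_ok, xt1_ok, xt2_ok, xt3_ok, xt4_ok, xt5_ok, xt6_ok, xt7_ok, xt8_ok, xt9_ok, xt10_ok, xt11_ok, xt12_ok, xt13_ok, xt14_ok, xt15_ok, Bool.and_true, Bool.true_and]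
  decide +kernel

theorem xrws_eq : xrws = desc (fun i => xw.getD i 0) 36 := by decide +kernel

theorem xaws_eq : xaws = ascFrom (fun i => xw.getD i 0) 0 36 := by decide +kernel

theorem xw_mono : ∀ j, j < 36 → ∀ i, i ≤ j → xw.getD i 0 ≤ xw.getD j 0 := by decide +kernel

/-- The 36 items of the auxiliary instance cannot be split into 12 triples of total weight at
most the capacity. -/
theorem not_packable_x : ¬ Packable (fun i => xw.getD i 0) xcap (Finset.range 36) := by
  have hall : xtree.all (fun M => check xtree xcap M (ascFrom (fun i => xw.getD i 0) 0 36) 36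
      (desc (fun i => xw.getD i 0) 36)) = true := by
    rw [← xrws_eq, ← xaws_eq]; exact xtree_ok
  have hroot : xtree.Mem 68719476735 := NatTree.mem_of_contains xtree _ (by decide +kernel)
  have h := check_sound (fun i => xw.getD i 0) xcap 36 (fun i j hij hj => xw_mono j hj i hij)
    xtree hall _ hroot
  have hb : bits 36 68719476735 = Finset.range 36 := by
    ext j
    rw [mem_bits, Finset.mem_range]
    have h2 : (68719476735 : ℕ) = 2 ^ 36 - 1 := by norm_num
    rw [h2, Nat.testBit_two_pow_sub_one]
    simp
  rw [hb] at h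
  exact h

end Vale.Agent.Lib.Helper5.P302Hyb
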