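import Vale.Agent.Lib.Helper3.P302Core
import Vale.Agent.Lib.Helper8.P302Glue
import Vale.Agent.Lib.Helper5.P302HybXCore
import Vale.Agent.Lib.Helper5.P302HybInst

/-!
The 110 item instance needs at least 37 bins.

Value argument: an item close to a third has value 5, a large item value 12, a small item or an
item of one seventh value 2.  The total value is 545.  By the size inequality alone a bin has
value at most 14, except a bin with exactly three items close to a third (value 15) and a bin
with exactly one large item and two small items (value 16).  At most 20 bins are of the first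
exceptional kind (certificate for the 65 item instance) and at most 10 of the second kind
(certificate for the auxiliary 36 item instance), so `36` bins hold value at most `544`.
-/

namespace Vale.Agent.Lib.Helper5.P302Hyb

open Finset Vale.Agent.Lib.Helper3.BinPacking

/-- Indicator of the items close to a third of the capacity. -/
def tI (i : ℕ) : ℕ := if i < 65 then 1 else 0

/-- Indicator of the large items. -/
def bI (i : ℕ) : ℕ := if 65 ≤ i ∧ i < 78 then 1 else 0

/-- Indicator of the small items. -/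
def sI (i : ℕ) : ℕ := if 78 ≤ i ∧ i < 101 then 1 else 0

/-- Indicator of the items of one seventh of the capacity. -/
def fI (i : ℕ) : ℕ := if 101 ≤ i then 1 else 0

/-- The value of an item. -/
def val (i : ℕ) : ℕ := 5 * tI i + 12 * bI i + 2 * sI i + 2 * fI i

/-- Indicator of the light items of the auxiliary instance. -/
def hI (j : ℕ) : ℕ := if j < 13 then 1 else 0

/-- An upper bound for the weights of the auxiliary instance. -/
def ub (j : ℕ) : ℕ := if j < 13 then 7863 else 11279

theorem hw_lb : ∀ i, i < 110 → 20975967000000000 * tI i + 45549000000000000 * bI i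
    + 8452000000000000 * sI i + 9000000000000000 * fI i ≤ hw.getD i 0 := by decide +kernel

theorem hw_third : ∀ i, i < 65 → hw.getD i 0 = wts.getD i 0 + 20900000000000000 := by
  decide +kernel

theorem hw_pib : ∀ j, j < 36 → hw.getD (65 + j) 0 + 2548000000000000
    = (xw.getD j 0 + 40644 * hI j) * 1000000000000 := by decide +kernel

theorem xw_le_ub : ∀ j, j < 36 → xw.getD j 0 ≤ ub j := by decide +kernel

theorem ub_total : ∑ j ∈ Finset.range 36, ub j = 361636 := by decide +kernel

theorem val_total : ∑ i : Fin 110, val (i : ℕ) = 545 := by decide +kernel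

theorem wts_mono65 : ∀ j, j < 65 → ∀ i, i ≤ j → wts.getD i 0 ≤ wts.getD j 0 := by decide +kernel

theorem sum_lb (s : Finset ℕ) (hs : ∀ i ∈ s, i < 110) :
    20975967000000000 * ∑ i ∈ s, tI i + 45549000000000000 * ∑ i ∈ s, bI i
      + 8452000000000000 * ∑ i ∈ s, sI i + 9000000000000000 * ∑ i ∈ s, fI i
      ≤ ∑ i ∈ s, hw.getD i 0 := by
  rw [Finset.mul_sum, Finset.mul_sum, Finset.mul_sum, Finset.mul_sum, ← Finset.sum_add_distrib,
    ← Finset.sum_add_distrib, ← Finset.sum_add_distrib]
  exact Finset.sum_le_sum (fun i hi => hw_lb i (hs i hi))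

theorem sum_val (s : Finset ℕ) : ∑ i ∈ s, val i
    = 5 * ∑ i ∈ s, tI i + 12 * ∑ i ∈ s, bI i + 2 * ∑ i ∈ s, sI i + 2 * ∑ i ∈ s, fI i := by
  simp only [val, Finset.sum_add_distrib, Finset.mul_sum]

/-- The bin is filled by exactly three items close to a third. -/
def IsT3 (s : Finset ℕ) : Prop :=
  ∑ i ∈ s, tI i = 3 ∧ ∑ i ∈ s, bI i = 0 ∧ ∑ i ∈ s, sI i = 0 ∧ ∑ i ∈ s, fI i = 0

/-- The bin is filled by exactly one large item and two small items. -/
def IsPB (s : Finset ℕ) : Prop :=
  ∑ i ∈ s, tI i = 0 ∧ ∑ i ∈ s, bI i = 1 ∧ ∑ i ∈ s, sI i = 2 ∧ ∑ i ∈ s, fI i = 0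

theorem bin_cases (s : Finset ℕ) (hs : ∀ i ∈ s, i < 110) (hwt : ∑ i ∈ s, hw.getD i 0 ≤ hcap) :
    ∑ i ∈ s, val i ≤ 14 ∨ IsT3 s ∨ IsPB s := by
  have h1 := sum_lb s hs
  have hc : hcap = 63000000000000000 := rfl
  rw [sum_val]
  unfold IsT3 IsPB
  generalize ∑ i ∈ s, tI i = T at *
  generalize ∑ i ∈ s, bI i = B at *
  generalize ∑ i ∈ s, sI i = Sm at *
  generalize ∑ i ∈ s, fI i = Fl at *
  have hT : T ≤ 3 := by omega
  have hB : B ≤ 1 := by omega
  have hS : Sm ≤ 7 := by omega
  have hF : Fl ≤ 7 := by omega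
  interval_cases T <;> interval_cases B <;> interval_cases Sm <;> omega

theorem t3_facts (s : Finset ℕ) (hwt : ∑ i ∈ s, hw.getD i 0 ≤ hcap) (h : IsT3 s) :
    s.card = 3 ∧ (∀ i ∈ s, i < 65) ∧ ∑ i ∈ s, wts.getD i 0 ≤ cap := by
  obtain ⟨h3, hb, hsm, hf⟩ := h
  have hlt : ∀ i ∈ s, i < 65 := by
    intro i hi
    have h1 : bI i = 0 := (Finset.sum_eq_zero_iff.mp hb) i hi
    have h2 : sI i = 0 := (Finset.sum_eq_zero_iff.mp hsm) i hi
    have h4 : fI i = 0 := (Finset.sum_eq_zero_iff.mp hf) i hi
    unfold bI at h1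
    unfold sI at h2
    unfold fI at h4
    split_ifs at h1 h2 h4
    omega
  have hcard : s.card = 3 := by
    rw [← h3, Finset.card_eq_sum_ones]
    apply Finset.sum_congr rfl
    intro i hi
    unfold tI
    rw [if_pos (hlt i hi)]
  refine ⟨hcard, hlt, ?_⟩
  have hshift : ∑ i ∈ s, hw.getD i 0
      = ∑ i ∈ s, wts.getD i 0 + s.card * 20900000000000000 := by
    rw [Finset.card_eq_sum_ones, Finset.sum_mul, ← Finset.sum_add_distrib]
    apply Finset.sum_congr rfl
    intro i hi
    rw [one_mul]
    exact hw_third i (hlt i hi)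
  rw [hshift, hcard] at hwt
  have hc : hcap = 63000000000000000 := rfl
  have hc' : cap = 300000000000000 := rfl
  omega

theorem pb_facts (s : Finset ℕ) (hwt : ∑ i ∈ s, hw.getD i 0 ≤ hcap) (h : IsPB s) :
    (∀ i ∈ s, 65 ≤ i ∧ i < 101) ∧ (s.image (fun i => i - 65)).card = 3 ∧
      ∑ j ∈ s.image (fun i => i - 65), xw.getD j 0 ≤ xcap ∧
      ∑ j ∈ s.image (fun i => i - 65), ub j = 30421 := by
  obtain ⟨h3, hb, hsm, hf⟩ := h
  have hrng : ∀ i ∈ s, 65 ≤ i ∧ i < 101 := by
    intro i hi
    have h1 : tI i = 0 := (Finset.sum_eq_zero_iff.mp h3) i hi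
    have h2 : fI i = 0 := (Finset.sum_eq_zero_iff.mp hf) i hi
    unfold tI at h1
    unfold fI at h2
    split_ifs at h1 h2
    omega
  have hinj : ∀ i ∈ s, ∀ j ∈ s, i - 65 = j - 65 → i = j := by
    intro i hi j hj hij
    have h1 := (hrng i hi).1
    have h2 := (hrng j hj).1
    omega
  have hcard : s.card = 3 := by
    have h1 : ∑ i ∈ s, (bI i + sI i) = 3 := by rw [Finset.sum_add_distrib, hb, hsm]
    rw [← h1, Finset.card_eq_sum_ones]
    apply Finset.sum_congr rfl
    intro i hi
    have h2 := hrng i hi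
    unfold bI sI
    split_ifs <;> omega
  have hhub : ∑ i ∈ s, hI (i - 65) = 1 := by
    rw [← hb]
    apply Finset.sum_congr rfl
    intro i hi
    have h2 := hrng i hi
    unfold hI bI
    split_ifs <;> omega
  refine ⟨hrng, ?_, ?_, ?_⟩
  · rw [Finset.card_image_of_injOn (fun i hi j hj hij => hinj i hi j hj hij), hcard]
  · rw [Finset.sum_image hinj]
    have hrel : ∑ i ∈ s, hw.getD i 0 + s.card * 2548000000000000
        = (∑ i ∈ s, xw.getD (i - 65) 0 + 40644 * ∑ i ∈ s, hI (i - 65)) * 1000000000000 := by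
      rw [Finset.card_eq_sum_ones, Finset.sum_mul, ← Finset.sum_add_distrib, Finset.mul_sum,
        ← Finset.sum_add_distrib, Finset.sum_mul]
      apply Finset.sum_congr rfl
      intro i hi
      have h1 := hrng i hi
      have h2 := hw_pib (i - 65) (by omega)
      have h4 : 65 + (i - 65) = i := by omega
      rw [h4] at h2
      rw [one_mul]
      exact h2
    rw [hcard, hhub] at hrel
    have hc : hcap = 63000000000000000 := rfl
    have hx : xcap = 30000 := rfl
    omega
  · rw [Finset.sum_image hinj]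
    have hrel : ∑ i ∈ s, ub (i - 65) + 3416 * ∑ i ∈ s, hI (i - 65) = s.card * 11279 := by
      rw [Finset.card_eq_sum_ones, Finset.sum_mul, Finset.mul_sum, ← Finset.sum_add_distrib]
      apply Finset.sum_congr rfl
      intro i hi
      unfold ub hI
      split_ifs <;> omega
    rw [hcard, hhub] at hrel
    omega

end Vale.Agent.Lib.Helper5.P302Hyb
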