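import Vale.Agent.Lib.Helper3.P302Check

/-!
A thirds-type auxiliary instance with 36 items (13 light items and 23 heavy items) and the
lookup table of bit masks used to show that it cannot be split into 12 triples of total weight
at most the capacity.
-/

namespace Vale.Agent.Lib.Helper5.P302Hyb

open Vale.Agent.Lib.Helper3.BinPacking

/-- The 36 weights of the auxiliary instance in increasing order. -/
def xw : List ℕ := [
  7453, 7458, 7470, 7721, 7737, 7742, 7754, 7791,
  7812, 7817, 7820, 7830, 7863, 11000, 11072, 11088,
  11090, 11091, 11092, 11094, 11095, 11095, 11122, 11123,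
  11124, 11129, 11130, 11136, 11137, 11264, 11265, 11266,
  11271, 11272, 11278, 11279]

/-- The capacity of the auxiliary instance. -/
def xcap : ℕ := 30000

/-- The weights of the indices 35, ..., 0, in this order. -/
def xrws : List ℕ := [
  11279, 11278, 11272, 11271, 11266, 11265, 11264, 11137,
  11136, 11130, 11129, 11124, 11123, 11122, 11095, 11095,
  11094, 11092, 11091, 11090, 11088, 11072, 11000, 7863,
  7830, 7820, 7817, 7812, 7791, 7754, 7742, 7737,
  7721, 7470, 7458, 7453]

/-- The weights of the indices 0, ..., 35, in this order. -/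
def xaws : List ℕ := [
  7453, 7458, 7470, 7721, 7737, 7742, 7754, 7791,
  7812, 7817, 7820, 7830, 7863, 11000, 11072, 11088,
  11090, 11091, 11092, 11094, 11095, 11095, 11122, 11123,
  11124, 11129, 11130, 11136, 11137, 11264, 11265, 11266,
  11271, 11272, 11278, 11279]

/-- A block of the table. -/
def xt0 : NatTree :=
  (.node (.node (.node (.node (.node (.node (.node (.node (.node .leaf 57344 .leaf) 90112 .leaf) 106496 (.node .leaf 114688 .leaf)) 197632 (.node (.node (.node .leaf 198656 .leaf) 204800 .leaf) 212992 (.node .leaf 229376 .leaf))) 253968 (.node (.node (.node (.node .leaf 253984 .leaf) 254016 .leaf) 254080 (.node .leaf 254208 .leaf)) 254464 (.node (.node (.node .leaf 254976 .leaf) 458752 .leaf) 483344 (.node .leaf 483360 .leaf)))) 483392 (.node (.node (.node (.node (.node .leaf 483456 .leaf) 483584 .leaf) 484352 (.node .leaf 499728 .leaf)) 499744 (.node (.node (.node .leaf 499776 .leaf) 499840 .leaf) 499968 (.node .leaf 500224 .leaf))) 500736 (.node (.node (.node (.node .leaf 507912 .leaf) 507920 .leaf) 507936 (.node .leaf 507968 .leaf)) 508032 (.node (.node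 (.node .leaf 508160 .leaf) 508416 .leaf) 508928 (.node .leaf 516096 .leaf))))) 720896 (.node (.node (.node (.node (.node (.node .leaf 745488 .leaf) 745504 .leaf) 745536 (.node .leaf 745600 .leaf)) 746496 (.node (.node (.node .leaf 755200 .leaf) 756224 .leaf) 756736 (.node .leaf 761864 .leaf))) 761872 (.node (.node (.node (.node .leaf 761888 .leaf) 761920 .leaf) 761984 (.node .leaf 762368 .leaf)) 762880 (.node (.node (.node .leaf 770056 .leaf) 770064 .leaf) 770080 (.node .leaf 770112 .leaf)))) 770176 (.node (.node (.node (.node (.node .leaf 770560 .leaf) 771072 .leaf) 778240 (.node .leaf 984320 .leaf)) 985344 (.node (.node (.node .leaf 986112 .leaf) 991240 .leaf) 991248 (.node .leaf 991264 .leaf))) 991296 (.node (.node (.node (.node .leaf 991360 .leaf) 991488 .leaf) 992256 (.node .leaf 999432 .leaf)) 999440 (.node (.node .leaf 999456 .leaf) 999488 (.node .leaf 999552 .leaf)))))) 999680 (.node (.node (.node (.node (.node (.node (.node .leaf 1000448 .leaf) 1007616 .leaf) 1015816 (.node .leaf 1015824 .leaf)) 1015840 (.node (.node (.node .leaf 1015872 .leaf) 1015936 .leaf) 1016064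 (.node .leaf 1016320 .leaf))) 1016832 (.node (.node (.node (.node .leaf 1024000 .leaf) 1032192 .leaf) 1040656 (.node .leaf 1040672 .leaf)) 1040704 (.node (.node (.node .leaf 1040768 .leaf) 1040912 .leaf) 1040928 (.node .leaf 1040960 .leaf)))) 1041024 (.node (.node (.node (.node (.node .leaf 1041152 .leaf) 1041424 .leaf) 1041440 (.node .leaf 1041472 .leaf)) 1041536 (.node (.node (.node .leaf 1041664 .leaf) 1041920 .leaf) 1802248 (.node .leaf 1802256 .leaf))) 1802272 (.node (.node (.node (.node .leaf 1802304 .leaf) 1802752 .leaf) 1803264 (.node .leaf 1810432 .leaf)) 1818624 (.node (.node (.node .leaf 1826960 .leaf) 1826976 .leaf) 1827008 (.node .leaf 1827344 .leaf))))) 1827360 (.node (.node (.node (.node (.node (.node .leaf 1827392 .leaf) 1827456 .leaf) 1827856 (.node .leaf 1827872 .leaf)) 1827904 (.node (.node (.node .leaf 1827968 .leaf) 1828352 .leaf) 2031624 (.node .leaf 2031632 .leaf))) 2031648 (.node (.node (.node (.node .leaf 2031680 .leaf) 2031872 .leaf) 2032640 (.node .leaf 2039808 .leaf)) 2048000 (.node (.node (.node .leaf 2056336 .leaf) 2056352 .leaf) 2056384 (.node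 .leaf 2056464 .leaf)))) 2056480 (.node (.node (.node (.node (.node .leaf 2056512 .leaf) 2056576 .leaf) 2057232 (.node .leaf 2057248 .leaf)) 2057280 (.node (.node (.node .leaf 2057344 .leaf) 2057472 .leaf) 2064384 (.node .leaf 2066176 .leaf))) 2067200 (.node (.node (.node (.node .leaf 2067712 .leaf) 2067968 .leaf) 2072720 (.node .leaf 2072736 .leaf)) 2072768 (.node (.node .leaf 2072840 .leaf) 2072848 (.node .leaf 2072864 .leaf))))))) 2072896 (.node (.node (.node (.node (.node (.node (.node (.node .leaf 2072960 .leaf) 2073096 .leaf) 2073104 (.node .leaf 2073120 .leaf)) 2073152 (.node (.node (.node .leaf 2073216 .leaf) 2073344 .leaf) 2073608 (.node .leaf 2073616 .leaf))) 2073632 (.node (.node (.node (.node .leaf 2073664 .leaf) 2073856 .leaf) 2074112 (.node .leaf 2080904 .leaf)) 2080912 (.node (.node (.node .leaf 2080928 .leaf) 2080960 .leaf) 2081032 (.node .leaf 2081040 .leaf)))) 2081056 (.node (.node (.node (.node (.node .leaf 2081088 .leaf) 2081152 .leaf) 2081288 (.node .leaf 2081296 .leaf)) 2081312 (.node (.node (.node .leaf 2081344 .leaf) 2081408 .leaf) 2081536 (.node .leaf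 2081800 .leaf))) 2081808 (.node (.node (.node (.node .leaf 2081824 .leaf) 2081856 .leaf) 2081920 (.node .leaf 2082048 .leaf)) 2082304 (.node (.node (.node .leaf 2088961 .leaf) 2088962 .leaf) 2088964 (.node .leaf 2088968 .leaf))))) 2088976 (.node (.node (.node (.node (.node (.node .leaf 2088992 .leaf) 2089024 .leaf) 2089088 (.node .leaf 2089216 .leaf)) 2089472 (.node (.node (.node .leaf 4161560 .leaf) 4161576 .leaf) 4161584 (.node .leaf 4161608 .leaf))) 4161616 (.node (.node (.node (.node .leaf 4161632 .leaf) 4161800 .leaf) 4161808 (.node .leaf 4161824 .leaf)) 4161856 (.node (.node (.node .leaf 4162056 .leaf) 4162064 .leaf) 4162080 (.node .leaf 4162112 .leaf)))) 4162304 (.node (.node (.node (.node (.node .leaf 4162568 .leaf) 4162576 .leaf) 4162592 (.node .leaf 4162624 .leaf)) 4162816 (.node (.node (.node .leaf 4163072 .leaf) 4169729 .leaf) 4169730 (.node .leaf 4169732 .leaf))) 4169736 (.node (.node (.node (.node .leaf 4169744 .leaf) 4169760 .leaf) 4169792 (.node .leaf 4169984 .leaf)) 4170240 (.node (.node .leaf 4177921 .leaf) 4177922 (.node .leaf 4177924 .leaf)))))) 4177928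 (.node (.node (.node (.node (.node (.node (.node .leaf 4177936 .leaf) 4177952 .leaf) 4177984 (.node .leaf 4178048 .leaf)) 4178176 (.node (.node (.node .leaf 4178432 .leaf) 4186112 .leaf) 4186512 (.node .leaf 4186528 .leaf))) 4186560 (.node (.node (.node (.node .leaf 4186768 .leaf) 4186784 .leaf) 4186816 (.node .leaf 4186896 .leaf)) 4186912 (.node (.node (.node .leaf 4186944 .leaf) 4187008 .leaf) 4187280 (.node .leaf 4187296 .leaf)))) 4187328 (.node (.node (.node (.node (.node .leaf 4187408 .leaf) 4187424 .leaf) 4187456 (.node .leaf 4187520 .leaf)) 4187664 (.node (.node (.node .leaf 4187680 .leaf) 4187712 .leaf) 4187776 (.node .leaf 4187904 .leaf))) 5210112 (.node (.node (.node (.node .leaf 5226880 .leaf) 5227136 .leaf) 5227264 (.node .leaf 5227648 .leaf)) 5227776 (.node (.node .leaf 5228032 .leaf) 5234689 (.node .leaf 5234690 .leaf))))) 5234692 (.node (.node (.node (.node (.node (.node .leaf 5234696 .leaf) 5234704 .leaf) 5234816 (.node .leaf 5234944 .leaf)) 5235200 (.node (.node (.node .leaf 6258712 .leaf) 6258728 .leaf) 6258736 (.node .leaf 6258945 .leaf))) 6258946 (.node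 (.node (.node (.node .leaf 6258948 .leaf) 6258952 .leaf) 6258960 (.node .leaf 6258976 .leaf)) 6259008 (.node (.node (.node .leaf 6259201 .leaf) 6259202 .leaf) 6259204 (.node .leaf 6259208 .leaf)))) 6259216 (.node (.node (.node (.node (.node .leaf 6259232 .leaf) 6259264 .leaf) 6259456 (.node .leaf 6259713 .leaf)) 6259714 (.node (.node (.node .leaf 6259716 .leaf) 6259720 .leaf) 6259728 (.node .leaf 6259744 .leaf))) 6259776 (.node (.node (.node (.node .leaf 6259968 .leaf) 6260224 .leaf) 6266881 (.node .leaf 6266882 .leaf)) 6266884 (.node (.node .leaf 6266888 .leaf) 6266896 (.node .leaf 6266912 .leaf))))))))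

/-- A block of the table. -/
def xt1 : NatTree :=
  (.node (.node (.node (.node (.node (.node (.node (.node (.node .leaf 6267136 .leaf) 6267392 .leaf) 6275073 (.node .leaf 6275074 .leaf)) 6275076 (.node (.node (.node .leaf 6275080 .leaf) 6275088 .leaf) 6275104 (.node .leaf 6275136 .leaf))) 6275200 (.node (.node (.node (.node .leaf 6275328 .leaf) 6275584 .leaf) 6276992 (.node .leaf 6278016 .leaf)) 6278528 (.node (.node (.node .leaf 6278784 .leaf) 6278912 .leaf) 6283264 (.node .leaf 6283656 .leaf)))) 6283664 (.node (.node (.node (.node (.node .leaf 6283680 .leaf) 6283912 .leaf) 6283920 (.node .leaf 6283936 .leaf)) 6284040 (.node (.node (.node .leaf 6284048 .leaf) 6284064 .leaf) 6284160 (.node .leaf 6284424 .leaf))) 6284432 (.node (.node (.node (.node .leaf 6284448 .leaf) 6284552 .leaf) 6284560 (.node .leaf 6284576 .leaf)) 6284672 (.node (.node (.node .leaf 6284808 .leaf) 6284816 .leaf) 6284832 (.node .leaf 6284928 .leaf))))) 6285056 (.node (.node (.node (.node (.node (.node .leaf 8355841 .leaf) 8355842 .leaf) 8355844 (.node .leaf 8355848 .leaf)) 8355856 (.node (.node (.node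 .leaf 8355872 .leaf) 8355904 .leaf) 8356096 (.node .leaf 8356352 .leaf))) 8357696 (.node (.node (.node (.node .leaf 8358720 .leaf) 8359232 .leaf) 8359488 (.node .leaf 8359680 .leaf)) 8364032 (.node (.node (.node .leaf 8364360 .leaf) 8364368 .leaf) 8364384 (.node .leaf 8364616 .leaf)))) 8364624 (.node (.node (.node (.node (.node .leaf 8364640 .leaf) 8364808 .leaf) 8364816 (.node .leaf 8364832 .leaf)) 8364864 (.node (.node (.node .leaf 8365128 .leaf) 8365136 .leaf) 8365152 (.node .leaf 8365320 .leaf))) 8365328 (.node (.node (.node (.node .leaf 8365344 .leaf) 8365376 .leaf) 8365576 (.node .leaf 8365584 .leaf)) 8365600 (.node (.node .leaf 8365632 .leaf) 8365824 (.node .leaf 8372224 .leaf)))))) 8372424 (.node (.node (.node (.node (.node (.node (.node .leaf 8372432 .leaf) 8372448 .leaf) 8372552 (.node .leaf 8372560 .leaf)) 8372576 (.node (.node (.node .leaf 8372616 .leaf) 8372624 .leaf) 8372640 (.node .leaf 8372672 .leaf))) 8372808 (.node (.node (.node (.node .leaf 8372816 .leaf) 8372832 .leaf) 8372872 (.node .leaf 8372880 .leaf)) 8372896 (.node (.node (.node .leaf 8372928 .leaf)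 8373000 .leaf) 8373008 (.node .leaf 8373024 .leaf)))) 8373056 (.node (.node (.node (.node (.node .leaf 8373120 .leaf) 8373320 .leaf) 8373328 (.node .leaf 8373344 .leaf)) 8373384 (.node (.node (.node .leaf 8373392 .leaf) 8373408 .leaf) 8373440 (.node .leaf 8373512 .leaf))) 8373520 (.node (.node (.node (.node .leaf 8373536 .leaf) 8373568 .leaf) 8373632 (.node .leaf 8373768 .leaf)) 8373776 (.node (.node .leaf 8373792 .leaf) 8373824 (.node .leaf 8373888 .leaf))))) 8374016 (.node (.node (.node (.node (.node (.node .leaf 8380481 .leaf) 8380482 .leaf) 8380484 (.node .leaf 8380488 .leaf)) 8380496 (.node (.node (.node .leaf 8380512 .leaf) 8380545 .leaf) 8380546 (.node .leaf 8380548 .leaf))) 8380552 (.node (.node (.node (.node .leaf 8380560 .leaf) 8380576 .leaf) 8380608 (.node .leaf 8380673 .leaf)) 8380674 (.node (.node (.node .leaf 8380676 .leaf) 8380680 .leaf) 8380688 (.node .leaf 8380704 .leaf)))) 8380736 (.node (.node (.node (.node (.node .leaf 8380800 .leaf) 8380929 .leaf) 8380930 (.node .leaf 8380932 .leaf)) 8380936 (.node (.node (.node .leaf 8380944 .leaf) 8380960 .leaf) 8380992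 (.node .leaf 8381056 .leaf))) 8381184 (.node (.node (.node (.node .leaf 10453016 .leaf) 10453249 .leaf) 10453250 (.node .leaf 10453252 .leaf)) 10453256 (.node (.node .leaf 10453264 .leaf) 10453505 (.node .leaf 10453506 .leaf))))))) 10453508 (.node (.node (.node (.node (.node (.node (.node (.node .leaf 10453512 .leaf) 10453520 .leaf) 10453760 (.node .leaf 10454017 .leaf)) 10454018 (.node (.node (.node .leaf 10454020 .leaf) 10454024 .leaf) 10454032 (.node .leaf 10454272 .leaf))) 10454528 (.node (.node (.node (.node .leaf 10461185 .leaf) 10461186 .leaf) 10461188 (.node .leaf 10461192 .leaf)) 10469377 (.node (.node (.node .leaf 10469378 .leaf) 10469380 .leaf) 10469384 (.node .leaf 10469392 .leaf)))) 10469504 (.node (.node (.node (.node (.node .leaf 10469632 .leaf) 10469888 .leaf) 10471296 (.node .leaf 10472320 .leaf)) 10472832 (.node (.node (.node .leaf 10473088 .leaf) 10473216 .leaf) 10477960 (.node .leaf 10477968 .leaf))) 10478216 (.node (.node (.node (.node .leaf 10478224 .leaf) 10478344 .leaf) 10478352 (.node .leaf 10478464 .leaf)) 10478728 (.node (.node (.node .leaf 10478736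 .leaf) 10478856 .leaf) 10478864 (.node .leaf 10478976 .leaf))))) 10479112 (.node (.node (.node (.node (.node (.node .leaf 10479120 .leaf) 10479232 .leaf) 10479360 (.node .leaf 12550145 .leaf)) 12550146 (.node (.node (.node .leaf 12550148 .leaf) 12550152 .leaf) 12550160 (.node .leaf 12550176 .leaf))) 12550208 (.node (.node (.node (.node .leaf 12550400 .leaf) 12550656 .leaf) 12551968 (.node .leaf 12552000 .leaf)) 12552992 (.node (.node (.node .leaf 12553024 .leaf) 12553504 .leaf) 12553536 (.node .leaf 12553760 .leaf)))) 12553792 (.node (.node (.node (.node (.node .leaf 12553984 .leaf) 12558632 .leaf) 12558640 (.node .leaf 12558664 .leaf)) 12558672 (.node (.node (.node .leaf 12558888 .leaf) 12558896 .leaf) 12558920 (.node .leaf 12558928 .leaf))) 12559112 (.node (.node (.node (.node .leaf 12559120 .leaf) 12559136 .leaf) 12559168 (.node .leaf 12559400 .leaf)) 12559408 (.node (.node .leaf 12559432 .leaf) 12559440 (.node .leaf 12559624 .leaf)))))) 12559632 (.node (.node (.node (.node (.node (.node (.node .leaf 12559648 .leaf) 12559680 .leaf) 12559880 (.node .leaf 12559888 .leaf))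 12559904 (.node (.node (.node .leaf 12559936 .leaf) 12560128 .leaf) 12566528 (.node .leaf 12566696 .leaf))) 12566704 (.node (.node (.node (.node .leaf 12566728 .leaf) 12566736 .leaf) 12566824 (.node .leaf 12566832 .leaf)) 12566856 (.node (.node (.node .leaf 12566864 .leaf) 12566920 .leaf) 12566928 (.node .leaf 12566944 .leaf)))) 12566976 (.node (.node (.node (.node (.node .leaf 12567080 .leaf) 12567088 .leaf) 12567112 (.node .leaf 12567120 .leaf)) 12567176 (.node (.node (.node .leaf 12567184 .leaf) 12567200 .leaf) 12567232 (.node .leaf 12567304 .leaf))) 12567312 (.node (.node (.node (.node .leaf 12567328 .leaf) 12567360 .leaf) 12567424 (.node .leaf 12567592 .leaf)) 12567600 (.node (.node .leaf 12567624 .leaf) 12567632 (.node .leaf 12567688 .leaf))))) 12567696 (.node (.node (.node (.node (.node (.node .leaf 12567712 .leaf) 12567744 .leaf) 12567816 (.node .leaf 12567824 .leaf)) 12567840 (.node (.node (.node .leaf 12567872 .leaf) 12567936 .leaf) 12568072 (.node .leaf 12568080 .leaf))) 12568096 (.node (.node (.node (.node .leaf 12568128 .leaf) 12568192 .leaf) 12568320 (.node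 .leaf 12574753 .leaf)) 12574754 (.node (.node (.node .leaf 12574756 .leaf) 12574760 .leaf) 12574768 (.node .leaf 12574785 .leaf)))) 12574786 (.node (.node (.node (.node (.node .leaf 12574788 .leaf) 12574792 .leaf) 12574849 (.node .leaf 12574850 .leaf)) 12574852 (.node (.node (.node .leaf 12574856 .leaf) 12574864 .leaf) 12574880 (.node .leaf 12574977 .leaf))) 12574978 (.node (.node (.node (.node .leaf 12574980 .leaf) 12574984 .leaf) 12574992 (.node .leaf 12575008 .leaf)) 12575104 (.node (.node .leaf 12575233 .leaf) 12575234 (.node .leaf 12575236 .leaf))))))))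

/-- A block of the table. -/
def xt2 : NatTree :=
  (.node (.node (.node (.node (.node (.node (.node (.node (.node .leaf 12575248 .leaf) 12575264 .leaf) 12575360 (.node .leaf 12575488 .leaf)) 13598977 (.node (.node (.node .leaf 13598978 .leaf) 13598980 .leaf) 13598992 (.node .leaf 13599233 .leaf))) 13599234 (.node (.node (.node (.node .leaf 13599236 .leaf) 13599248 .leaf) 13599488 (.node .leaf 13599745 .leaf)) 13599746 (.node (.node (.node .leaf 13599748 .leaf) 13599760 .leaf) 13600000 (.node .leaf 13600256 .leaf)))) 13606913 (.node (.node (.node (.node (.node .leaf 13606914 .leaf) 13606916 .leaf) 13606920 (.node .leaf 13615105 .leaf)) 13615106 (.node (.node (.node .leaf 13615108 .leaf) 13615112 .leaf) 13615120 (.node .leaf 13615232 .leaf))) 13615360 (.node (.node (.node (.node .leaf 13615616 .leaf) 14647297 .leaf) 14647298 (.node .leaf 14647300 .leaf)) 14647304 (.node (.node (.node .leaf 14647312 .leaf) 14647328 .leaf) 14647360 (.node .leaf 14647552 .leaf))))) 14647808 (.node (.node (.node (.node (.node (.node .leaf 14649104 .leaf) 14649120 .leaf) 14650128 (.node .leaf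 14650144 .leaf)) 14650640 (.node (.node (.node .leaf 14650656 .leaf) 14650896 .leaf) 14650912 (.node .leaf 14651136 .leaf))) 14655768 (.node (.node (.node (.node .leaf 14655784 .leaf) 14655792 .leaf) 14656024 (.node .leaf 14656040 .leaf)) 14656048 (.node (.node (.node .leaf 14656264 .leaf) 14656272 .leaf) 14656288 (.node .leaf 14656536 .leaf)))) 14656552 (.node (.node (.node (.node (.node .leaf 14656560 .leaf) 14656776 .leaf) 14656784 (.node .leaf 14656800 .leaf)) 14657032 (.node (.node (.node .leaf 14657040 .leaf) 14657056 .leaf) 14657280 (.node .leaf 14663680 .leaf))) 14663832 (.node (.node (.node (.node .leaf 14663848 .leaf) 14663856 .leaf) 14663960 (.node .leaf 14663976 .leaf)) 14663984 (.node (.node .leaf 14664072 .leaf) 14664080 (.node .leaf 14664096 .leaf)))))) 14664128 (.node (.node (.node (.node (.node (.node (.node .leaf 14664216 .leaf) 14664232 .leaf) 14664240 (.node .leaf 14664328 .leaf)) 14664336 (.node (.node (.node .leaf 14664352 .leaf) 14664384 .leaf) 14664456 (.node .leaf 14664464 .leaf))) 14664480 (.node (.node (.node (.node .leaf 14664512 .leaf) 14664576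 .leaf) 14664728 (.node .leaf 14664744 .leaf)) 14664752 (.node (.node (.node .leaf 14664840 .leaf) 14664848 .leaf) 14664864 (.node .leaf 14664896 .leaf)))) 14664968 (.node (.node (.node (.node (.node .leaf 14664976 .leaf) 14664992 .leaf) 14665024 (.node .leaf 14665088 .leaf)) 14665224 (.node (.node (.node .leaf 14665232 .leaf) 14665248 .leaf) 14665280 (.node .leaf 14665344 .leaf))) 14665472 (.node (.node (.node (.node .leaf 14671889 .leaf) 14671890 .leaf) 14671892 (.node .leaf 14671896 .leaf)) 14671905 (.node (.node (.node .leaf 14671906 .leaf) 14671908 .leaf) 14671912 (.node .leaf 14671920 .leaf))))) 14671937 (.node (.node (.node (.node (.node (.node .leaf 14671938 .leaf) 14671940 .leaf) 14671944 (.node .leaf 14671952 .leaf)) 14672001 (.node (.node (.node .leaf 14672002 .leaf) 14672004 .leaf) 14672008 (.node .leaf 14672016 .leaf))) 14672032 (.node (.node (.node (.node .leaf 14672064 .leaf) 14672129 .leaf) 14672130 (.node .leaf 14672132 .leaf)) 14672136 (.node (.node (.node .leaf 14672144 .leaf) 14672160 .leaf) 14672192 (.node .leaf 14672256 .leaf)))) 14672385 (.node (.node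 (.node (.node (.node .leaf 14672386 .leaf) 14672388 .leaf) 14672392 (.node .leaf 14672400 .leaf)) 14672416 (.node (.node (.node .leaf 14672448 .leaf) 14672512 .leaf) 14672640 (.node .leaf 16744448 .leaf))) 16744536 (.node (.node (.node (.node .leaf 16744552 .leaf) 16744560 .leaf) 16744728 (.node .leaf 16744744 .leaf)) 16744752 (.node (.node .leaf 16744776 .leaf) 16744784 (.node .leaf 16744800 .leaf))))))) 16744984 (.node (.node (.node (.node (.node (.node (.node (.node .leaf 16745000 .leaf) 16745008 .leaf) 16745032 (.node .leaf 16745040 .leaf)) 16745056 (.node (.node (.node .leaf 16745224 .leaf) 16745232 .leaf) 16745248 (.node .leaf 16745280 .leaf))) 16745496 (.node (.node (.node (.node .leaf 16745512 .leaf) 16745520 .leaf) 16745544 (.node .leaf 16745552 .leaf)) 16745568 (.node (.node (.node .leaf 16745736 .leaf) 16745744 .leaf) 16745760 (.node .leaf 16745792 .leaf)))) 16745992 (.node (.node (.node (.node (.node .leaf 16746000 .leaf) 16746016 .leaf) 16746048 (.node .leaf 16746240 .leaf)) 16752657 (.node (.node (.node .leaf 16752658 .leaf) 16752660 .leaf) 16752664 (.node .leaf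 16752673 .leaf))) 16752674 (.node (.node (.node (.node .leaf 16752676 .leaf) 16752680 .leaf) 16752688 (.node .leaf 16752705 .leaf)) 16752706 (.node (.node (.node .leaf 16752708 .leaf) 16752712 .leaf) 16752720 (.node .leaf 16752736 .leaf))))) 16752897 (.node (.node (.node (.node (.node (.node .leaf 16752898 .leaf) 16752900 .leaf) 16752904 (.node .leaf 16752912 .leaf)) 16752928 (.node (.node (.node .leaf 16752960 .leaf) 16753153 .leaf) 16753154 (.node .leaf 16753156 .leaf))) 16753160 (.node (.node (.node (.node .leaf 16753168 .leaf) 16753184 .leaf) 16753216 (.node .leaf 16753408 .leaf)) 16760849 (.node (.node (.node .leaf 16760850 .leaf) 16760852 .leaf) 16760856 (.node .leaf 16760865 .leaf)))) 16760866 (.node (.node (.node (.node (.node .leaf 16760868 .leaf) 16760872 .leaf) 16760880 (.node .leaf 16760897 .leaf)) 16760898 (.node (.node (.node .leaf 16760900 .leaf) 16760904 .leaf) 16760912 (.node .leaf 16760928 .leaf))) 16760961 (.node (.node (.node (.node .leaf 16760962 .leaf) 16760964 .leaf) 16760968 (.node .leaf 16760976 .leaf)) 16760992 (.node (.node .leaf 16761024 .leaf)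 16761089 (.node .leaf 16761090 .leaf)))))) 16761092 (.node (.node (.node (.node (.node (.node (.node .leaf 16761096 .leaf) 16761104 .leaf) 16761120 (.node .leaf 16761152 .leaf)) 16761216 (.node (.node (.node .leaf 16761345 .leaf) 16761346 .leaf) 16761348 (.node .leaf 16761352 .leaf))) 16761360 (.node (.node (.node (.node .leaf 16761376 .leaf) 16761408 .leaf) 16761472 (.node .leaf 16761600 .leaf)) 16769025 (.node (.node (.node .leaf 16769026 .leaf) 16769028 .leaf) 16769032 (.node .leaf 16769040 .leaf)))) 16769056 (.node (.node (.node (.node (.node .leaf 16769088 .leaf) 16769152 .leaf) 16769280 (.node .leaf 16769488 .leaf)) 16769504 (.node (.node (.node .leaf 16769744 .leaf) 16769760 .leaf) 16769872 (.node .leaf 16769888 .leaf))) 16769936 (.node (.node (.node (.node .leaf 16769952 .leaf) 16769984 .leaf) 16770256 (.node .leaf 16770272 .leaf)) 16770384 (.node (.node .leaf 16770400 .leaf) 16770448 (.node .leaf 16770464 .leaf))))) 16770496 (.node (.node (.node (.node (.node (.node .leaf 16770640 .leaf) 16770656 .leaf) 16770704 (.node .leaf 16770720 .leaf)) 16770752 (.node (.node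 (.node .leaf 16770832 .leaf) 16770848 .leaf) 16770880 (.node .leaf 16770944 .leaf))) 27230209 (.node (.node (.node (.node .leaf 27230210 .leaf) 27230212 .leaf) 27232016 (.node .leaf 27233040 .leaf)) 27233552 (.node (.node (.node .leaf 27233808 .leaf) 27234048 .leaf) 27238680 (.node .leaf 27238936 .leaf)))) 27239176 (.node (.node (.node (.node (.node .leaf 27239448 .leaf) 27239688 .leaf) 27239944 (.node .leaf 27246744 .leaf)) 27246872 (.node (.node (.node .leaf 27246977 .leaf) 27246978 .leaf) 27246980 (.node .leaf 27246984 .leaf))) 27246992 (.node (.node (.node (.node .leaf 27247128 .leaf) 27247233 .leaf) 27247234 (.node .leaf 27247236 .leaf)) 27247240 (.node (.node .leaf 27247248 .leaf) 27247361 (.node .leaf 27247362 .leaf))))))))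

/-- A block of the table. -/
def xt3 : NatTree :=
  (.node (.node (.node (.node (.node (.node (.node (.node (.node .leaf 27247368 .leaf) 27247376 .leaf) 27247488 (.node .leaf 27247640 .leaf)) 27247745 (.node (.node (.node .leaf 27247746 .leaf) 27247748 .leaf) 27247752 (.node .leaf 27247760 .leaf))) 27247873 (.node (.node (.node (.node .leaf 27247874 .leaf) 27247876 .leaf) 27247880 (.node .leaf 27247888 .leaf)) 27248000 (.node (.node (.node .leaf 27248129 .leaf) 27248130 .leaf) 27248132 (.node .leaf 27248136 .leaf)))) 27248144 (.node (.node (.node (.node (.node .leaf 27248256 .leaf) 27248384 .leaf) 27254793 (.node .leaf 27254794 .leaf)) 27254796 (.node (.node (.node .leaf 27254801 .leaf) 27254802 .leaf) 27254804 (.node .leaf 27254808 .leaf))) 27254913 (.node (.node (.node (.node .leaf 27254914 .leaf) 27254916 .leaf) 27254920 (.node .leaf 27255041 .leaf)) 27255042 (.node (.node (.node .leaf 27255044 .leaf) 27255048 .leaf) 27255297 (.node .leaf 27255298 .leaf))))) 27255300 (.node (.node (.node (.node (.node (.node .leaf 27255304 .leaf) 29327448 .leaf) 29327640 (.node .leaf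 29327681 .leaf)) 29327682 (.node (.node (.node .leaf 29327684 .leaf) 29327688 .leaf) 29327696 (.node .leaf 29327896 .leaf))) 29327937 (.node (.node (.node (.node .leaf 29327938 .leaf) 29327940 .leaf) 29327944 (.node .leaf 29327952 .leaf)) 29328129 (.node (.node (.node .leaf 29328130 .leaf) 29328132 .leaf) 29328136 (.node .leaf 29328144 .leaf)))) 29328192 (.node (.node (.node (.node (.node .leaf 29328408 .leaf) 29328449 .leaf) 29328450 (.node .leaf 29328452 .leaf)) 29328456 (.node (.node (.node .leaf 29328464 .leaf) 29328641 .leaf) 29328642 (.node .leaf 29328644 .leaf))) 29328648 (.node (.node (.node (.node .leaf 29328656 .leaf) 29328704 .leaf) 29328897 (.node .leaf 29328898 .leaf)) 29328900 (.node (.node .leaf 29328904 .leaf) 29328912 (.node .leaf 29328960 .leaf)))))) 29329152 (.node (.node (.node (.node (.node (.node (.node .leaf 29335561 .leaf) 29335562 .leaf) 29335564 (.node .leaf 29335569 .leaf)) 29335570 (.node (.node (.node .leaf 29335572 .leaf) 29335576 .leaf) 29335617 (.node .leaf 29335618 .leaf))) 29335620 (.node (.node (.node (.node .leaf 29335624 .leaf) 29335809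 .leaf) 29335810 (.node .leaf 29335812 .leaf)) 29335816 (.node (.node (.node .leaf 29336065 .leaf) 29336066 .leaf) 29336068 (.node .leaf 29336072 .leaf)))) 29343753 (.node (.node (.node (.node (.node .leaf 29343754 .leaf) 29343756 .leaf) 29343761 (.node .leaf 29343762 .leaf)) 29343764 (.node (.node (.node .leaf 29343768 .leaf) 29343809 .leaf) 29343810 (.node .leaf 29343812 .leaf))) 29343816 (.node (.node (.node (.node .leaf 29343824 .leaf) 29343873 .leaf) 29343874 (.node .leaf 29343876 .leaf)) 29343880 (.node (.node .leaf 29343888 .leaf) 29343936 (.node .leaf 29344001 .leaf))))) 29344002 (.node (.node (.node (.node (.node (.node .leaf 29344004 .leaf) 29344008 .leaf) 29344016 (.node .leaf 29344064 .leaf)) 29344128 (.node (.node (.node .leaf 29344257 .leaf) 29344258 .leaf) 29344260 (.node .leaf 29344264 .leaf))) 29344272 (.node (.node (.node (.node .leaf 29344320 .leaf) 29344384 .leaf) 29344512 (.node .leaf 29345728 .leaf)) 29346752 (.node (.node (.node .leaf 29347264 .leaf) 29347520 .leaf) 29347648 (.node .leaf 29347712 .leaf)))) 29351937 (.node (.node (.node (.node (.node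 .leaf 29351938 .leaf) 29351940 .leaf) 29351944 (.node .leaf 29352392 .leaf)) 29352400 (.node (.node (.node .leaf 29352648 .leaf) 29352656 .leaf) 29352776 (.node .leaf 29352784 .leaf))) 29352840 (.node (.node (.node (.node .leaf 29352848 .leaf) 29352896 .leaf) 29353160 (.node .leaf 29353168 .leaf)) 29353288 (.node (.node .leaf 29353296 .leaf) 29353352 (.node .leaf 29353360 .leaf))))))) 29353408 (.node (.node (.node (.node (.node (.node (.node (.node .leaf 29353544 .leaf) 29353552 .leaf) 29353608 (.node .leaf 29353616 .leaf)) 29353664 (.node (.node (.node .leaf 29353736 .leaf) 29353744 .leaf) 29353792 (.node .leaf 29353856 .leaf))) 30375937 (.node (.node (.node (.node .leaf 30375938 .leaf) 30375940 .leaf) 30392705 (.node .leaf 30392706 .leaf)) 30392708 (.node (.node (.node .leaf 30392720 .leaf) 30392961 .leaf) 30392962 (.node .leaf 30392964 .leaf)))) 30392976 (.node (.node (.node (.node (.node .leaf 30393089 .leaf) 30393090 .leaf) 30393092 (.node .leaf 30393104 .leaf)) 30393216 (.node (.node (.node .leaf 30393473 .leaf) 30393474 .leaf) 30393476 (.node .leaf 30393488 .leaf)))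 30393601 (.node (.node (.node (.node .leaf 30393602 .leaf) 30393604 .leaf) 30393616 (.node .leaf 30393728 .leaf)) 30393857 (.node (.node (.node .leaf 30393858 .leaf) 30393860 .leaf) 30393872 (.node .leaf 30393984 .leaf))))) 30394112 (.node (.node (.node (.node (.node (.node .leaf 30400521 .leaf) 30400522 .leaf) 30400524 (.node .leaf 30400529 .leaf)) 30400530 (.node (.node (.node .leaf 30400532 .leaf) 30400536 .leaf) 30400641 (.node .leaf 30400642 .leaf))) 30400644 (.node (.node (.node (.node .leaf 30400648 .leaf) 30400769 .leaf) 30400770 (.node .leaf 30400772 .leaf)) 30400776 (.node (.node (.node .leaf 30401025 .leaf) 30401026 .leaf) 30401028 (.node .leaf 30401032 .leaf)))) 31424568 (.node (.node (.node (.node (.node .leaf 31424792 .leaf) 31424801 .leaf) 31424802 (.node .leaf 31424804 .leaf)) 31424808 (.node (.node (.node .leaf 31424816 .leaf) 31424833 .leaf) 31424834 (.node .leaf 31424836 .leaf))) 31424848 (.node (.node (.node (.node .leaf 31425048 .leaf) 31425057 .leaf) 31425058 (.node .leaf 31425060 .leaf)) 31425064 (.node (.node .leaf 31425072 .leaf) 31425089 (.node .leaf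 31425090 .leaf)))))) 31425092 (.node (.node (.node (.node (.node (.node (.node .leaf 31425104 .leaf) 31425281 .leaf) 31425282 (.node .leaf 31425284 .leaf)) 31425288 (.node (.node (.node .leaf 31425296 .leaf) 31425312 .leaf) 31425344 (.node .leaf 31425560 .leaf))) 31425569 (.node (.node (.node (.node .leaf 31425570 .leaf) 31425572 .leaf) 31425576 (.node .leaf 31425584 .leaf)) 31425601 (.node (.node (.node .leaf 31425602 .leaf) 31425604 .leaf) 31425616 (.node .leaf 31425793 .leaf)))) 31425794 (.node (.node (.node (.node (.node .leaf 31425796 .leaf) 31425800 .leaf) 31425808 (.node .leaf 31425824 .leaf)) 31425856 (.node (.node (.node .leaf 31426049 .leaf) 31426050 .leaf) 31426052 (.node .leaf 31426056 .leaf))) 31426064 (.node (.node (.node (.node .leaf 31426080 .leaf) 31426112 .leaf) 31426304 (.node .leaf 31432713 .leaf)) 31432714 (.node (.node .leaf 31432716 .leaf) 31432721 (.node .leaf 31432722 .leaf))))) 31432724 (.node (.node (.node (.node (.node (.node .leaf 31432728 .leaf) 31432737 .leaf) 31432738 (.node .leaf 31432740 .leaf)) 31432744 (.node (.node (.node .leaf 31432769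 .leaf) 31432770 .leaf) 31432772 (.node .leaf 31432776 .leaf))) 31432961 (.node (.node (.node (.node .leaf 31432962 .leaf) 31432964 .leaf) 31432968 (.node .leaf 31433217 .leaf)) 31433218 (.node (.node (.node .leaf 31433220 .leaf) 31433224 .leaf) 31440905 (.node .leaf 31440906 .leaf)))) 31440908 (.node (.node (.node (.node (.node .leaf 31440913 .leaf) 31440914 .leaf) 31440916 (.node .leaf 31440920 .leaf)) 31440929 (.node (.node (.node .leaf 31440930 .leaf) 31440932 .leaf) 31440936 (.node .leaf 31440944 .leaf))) 31440961 (.node (.node (.node (.node .leaf 31440962 .leaf) 31440964 .leaf) 31440968 (.node .leaf 31440976 .leaf)) 31441025 (.node (.node .leaf 31441026 .leaf) 31441028 (.node .leaf 31441032 .leaf))))))))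

/-- A block of the table. -/
def xt4 : NatTree :=
  (.node (.node (.node (.node (.node (.node (.node (.node (.node .leaf 31441056 .leaf) 31441088 .leaf) 31441153 (.node .leaf 31441154 .leaf)) 31441156 (.node (.node (.node .leaf 31441160 .leaf) 31441168 .leaf) 31441184 (.node .leaf 31441216 .leaf))) 31441280 (.node (.node (.node (.node .leaf 31441409 .leaf) 31441410 .leaf) 31441412 (.node .leaf 31441416 .leaf)) 31441424 (.node (.node (.node .leaf 31441440 .leaf) 31441472 .leaf) 31441536 (.node .leaf 31441664 .leaf)))) 31442848 (.node (.node (.node (.node (.node .leaf 31443872 .leaf) 31444384 .leaf) 31444640 (.node .leaf 31444768 .leaf)) 31444864 (.node (.node (.node .leaf 31449089 .leaf) 31449090 .leaf) 31449092 (.node .leaf 31449096 .leaf))) 31449512 (.node (.node (.node (.node .leaf 31449520 .leaf) 31449768 .leaf) 31449776 (.node .leaf 31449896 .leaf)) 31449904 (.node (.node (.node .leaf 31449992 .leaf) 31450000 .leaf) 31450016 (.node .leaf 31450280 .leaf))))) 31450288 (.node (.node (.node (.node (.node (.node .leaf 31450408 .leaf) 31450416 .leaf) 31450504 (.node .leaf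 31450512 .leaf)) 31450528 (.node (.node (.node .leaf 31450664 .leaf) 31450672 .leaf) 31450760 (.node .leaf 31450768 .leaf))) 31450784 (.node (.node (.node (.node .leaf 31450888 .leaf) 31450896 .leaf) 31450912 (.node .leaf 31451008 .leaf)) 33521673 (.node (.node (.node .leaf 33521674 .leaf) 33521676 .leaf) 33521681 (.node .leaf 33521682 .leaf)))) 33521684 (.node (.node (.node (.node (.node .leaf 33521688 .leaf) 33521697 .leaf) 33521698 (.node .leaf 33521700 .leaf)) 33521704 (.node (.node (.node .leaf 33521712 .leaf) 33521729 .leaf) 33521730 (.node .leaf 33521732 .leaf))) 33521736 (.node (.node (.node (.node .leaf 33521744 .leaf) 33521760 .leaf) 33521921 (.node .leaf 33521922 .leaf)) 33521924 (.node (.node .leaf 33521928 .leaf) 33521936 (.node .leaf 33521952 .leaf)))))) 33521984 (.node (.node (.node (.node (.node (.node (.node .leaf 33522177 .leaf) 33522178 .leaf) 33522180 (.node .leaf 33522184 .leaf)) 33522192 (.node (.node (.node .leaf 33522208 .leaf) 33522240 .leaf) 33522432 (.node .leaf 33523552 .leaf))) 33524576 (.node (.node (.node (.node .leaf 33525088 .leaf) 33525344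 .leaf) 33525536 (.node .leaf 33525568 .leaf)) 33529857 (.node (.node (.node .leaf 33529858 .leaf) 33529860 .leaf) 33529864 (.node .leaf 33530216 .leaf)))) 33530224 (.node (.node (.node (.node (.node .leaf 33530472 .leaf) 33530480 .leaf) 33530664 (.node .leaf 33530672 .leaf)) 33530696 (.node (.node (.node .leaf 33530704 .leaf) 33530720 .leaf) 33530984 (.node .leaf 33530992 .leaf))) 33531176 (.node (.node (.node (.node .leaf 33531184 .leaf) 33531208 .leaf) 33531216 (.node .leaf 33531232 .leaf)) 33531432 (.node (.node (.node .leaf 33531440 .leaf) 33531464 .leaf) 33531472 (.node .leaf 33531488 .leaf))))) 33531656 (.node (.node (.node (.node (.node (.node .leaf 33531664 .leaf) 33531680 .leaf) 33531712 (.node .leaf 33538049 .leaf)) 33538050 (.node (.node (.node .leaf 33538052 .leaf) 33538056 .leaf) 33538064 (.node .leaf 33538080 .leaf))) 33538112 (.node (.node (.node (.node .leaf 33538176 .leaf) 33538280 .leaf) 33538288 (.node .leaf 33538304 .leaf)) 33538408 (.node (.node (.node .leaf 33538416 .leaf) 33538472 .leaf) 33538480 (.node .leaf 33538504 .leaf)))) 33538512 (.node (.node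 (.node (.node (.node .leaf 33538528 .leaf) 33538664 .leaf) 33538672 (.node .leaf 33538728 .leaf)) 33538736 (.node (.node (.node .leaf 33538760 .leaf) 33538768 .leaf) 33538784 (.node .leaf 33538856 .leaf))) 33538864 (.node (.node (.node (.node .leaf 33538888 .leaf) 33538896 .leaf) 33538912 (.node .leaf 33538952 .leaf)) 33538960 (.node (.node .leaf 33538976 .leaf) 33539008 (.node .leaf 33539176 .leaf))))))) 33539184 (.node (.node (.node (.node (.node (.node (.node (.node .leaf 33539240 .leaf) 33539248 .leaf) 33539272 (.node .leaf 33539280 .leaf)) 33539296 (.node (.node (.node .leaf 33539368 .leaf) 33539376 .leaf) 33539400 (.node .leaf 33539408 .leaf))) 33539424 (.node (.node (.node (.node .leaf 33539464 .leaf) 33539472 .leaf) 33539488 (.node .leaf 33539520 .leaf)) 33539624 (.node (.node (.node .leaf 33539632 .leaf) 33539656 .leaf) 33539664 (.node .leaf 33539680 .leaf)))) 33539720 (.node (.node (.node (.node (.node .leaf 33539728 .leaf) 33539744 .leaf) 33539776 (.node .leaf 33539872 .leaf)) 33539904 (.node (.node (.node .leaf 33539968 .leaf) 33546337 .leaf) 33546338 (.node .leaf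 33546340 .leaf))) 33546344 (.node (.node (.node (.node .leaf 33546352 .leaf) 33546401 .leaf) 33546402 (.node .leaf 33546404 .leaf)) 33546408 (.node (.node (.node .leaf 33546416 .leaf) 33546433 .leaf) 33546434 (.node .leaf 33546436 .leaf))))) 33546440 (.node (.node (.node (.node (.node (.node .leaf 33546448 .leaf) 33546464 .leaf) 33546529 (.node .leaf 33546530 .leaf)) 33546532 (.node (.node (.node .leaf 33546536 .leaf) 33546544 .leaf) 33546561 (.node .leaf 33546562 .leaf))) 33546564 (.node (.node (.node (.node .leaf 33546568 .leaf) 33546576 .leaf) 33546592 (.node .leaf 33546625 .leaf)) 33546626 (.node (.node (.node .leaf 33546628 .leaf) 33546632 .leaf) 33546640 (.node .leaf 33546656 .leaf)))) 33546688 (.node (.node (.node (.node (.node .leaf 33546785 .leaf) 33546786 .leaf) 33546788 (.node .leaf 33546792 .leaf)) 33546800 (.node (.node (.node .leaf 33546817 .leaf) 33546818 .leaf) 33546820 (.node .leaf 33546824 .leaf))) 33546832 (.node (.node (.node (.node .leaf 33546848 .leaf) 33546881 .leaf) 33546882 (.node .leaf 33546884 .leaf)) 33546888 (.node (.node .leaf 33546896 .leaf)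 33546912 (.node .leaf 33546944 .leaf)))))) 33547009 (.node (.node (.node (.node (.node (.node (.node .leaf 33547010 .leaf) 33547012 .leaf) 33547016 (.node .leaf 33547024 .leaf)) 33547040 (.node (.node (.node .leaf 33547072 .leaf) 33547136 .leaf) 39829889 (.node .leaf 39829890 .leaf))) 39829892 (.node (.node (.node (.node .leaf 39830145 .leaf) 39830146 .leaf) 39830148 (.node .leaf 39830273 .leaf)) 39830274 (.node (.node (.node .leaf 39830276 .leaf) 39830657 .leaf) 39830658 (.node .leaf 39830660 .leaf)))) 39830785 (.node (.node (.node (.node (.node .leaf 39830786 .leaf) 39830788 .leaf) 39831041 (.node .leaf 39831042 .leaf)) 39831044 (.node (.node (.node .leaf 39837705 .leaf) 39837706 .leaf) 39837708 (.node .leaf 41910593 .leaf))) 41910594 (.node (.node (.node (.node .leaf 41910596 .leaf) 41910849 .leaf) 41910850 (.node .leaf 41910852 .leaf)) 41911041 (.node (.node .leaf 41911042 .leaf) 41911044 (.node .leaf 41911361 .leaf))))) 41911362 (.node (.node (.node (.node (.node (.node .leaf 41911364 .leaf) 41911553 .leaf) 41911554 (.node .leaf 41911556 .leaf)) 41911809 (.node (.node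 (.node .leaf 41911810 .leaf) 41911812 .leaf) 41918473 (.node .leaf 41918474 .leaf))) 41918476 (.node (.node (.node (.node .leaf 41926665 .leaf) 41926666 .leaf) 41926668 (.node .leaf 41926721 .leaf)) 41926722 (.node (.node (.node .leaf 41926724 .leaf) 41926785 .leaf) 41926786 (.node .leaf 41926788 .leaf)))) 41926913 (.node (.node (.node (.node (.node .leaf 41926914 .leaf) 41926916 .leaf) 41927169 (.node .leaf 41927170 .leaf)) 41927172 (.node (.node (.node .leaf 41928640 .leaf) 41929664 .leaf) 41930176 (.node .leaf 41930432 .leaf))) 41930560 (.node (.node (.node (.node .leaf 41930624 .leaf) 41935304 .leaf) 41935560 (.node .leaf 41935688 .leaf)) 41935752 (.node (.node .leaf 41936072 .leaf) 41936200 (.node .leaf 41936264 .leaf))))))))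

/-- A block of the table. -/
def xt5 : NatTree :=
  (.node (.node (.node (.node (.node (.node (.node (.node (.node .leaf 41936520 .leaf) 41936648 .leaf) 44024193 (.node .leaf 44024194 .leaf)) 44024196 (.node (.node (.node .leaf 44024449 .leaf) 44024450 .leaf) 44024452 (.node .leaf 44024577 .leaf))) 44024578 (.node (.node (.node (.node .leaf 44024580 .leaf) 44024961 .leaf) 44024962 (.node .leaf 44024964 .leaf)) 44025089 (.node (.node (.node .leaf 44025090 .leaf) 44025092 .leaf) 44025345 (.node .leaf 44025346 .leaf)))) 44025348 (.node (.node (.node (.node (.node .leaf 44032009 .leaf) 44032010 .leaf) 44032012 (.node .leaf 46104897 .leaf)) 46104898 (.node (.node (.node .leaf 46104900 .leaf) 46105153 .leaf) 46105154 (.node .leaf 46105156 .leaf))) 46105345 (.node (.node (.node (.node .leaf 46105346 .leaf) 46105348 .leaf) 46105665 (.node .leaf 46105666 .leaf)) 46105668 (.node (.node (.node .leaf 46105857 .leaf) 46105858 .leaf) 46105860 (.node .leaf 46106113 .leaf))))) 46106114 (.node (.node (.node (.node (.node (.node .leaf 46106116 .leaf) 46112777 .leaf) 46112778 (.node .leaf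 46112780 .leaf)) 46120969 (.node (.node (.node .leaf 46120970 .leaf) 46120972 .leaf) 46121025 (.node .leaf 46121026 .leaf))) 46121028 (.node (.node (.node (.node .leaf 46121089 .leaf) 46121090 .leaf) 46121092 (.node .leaf 46121217 .leaf)) 46121218 (.node (.node (.node .leaf 46121220 .leaf) 46121473 .leaf) 46121474 (.node .leaf 46121476 .leaf)))) 47169921 (.node (.node (.node (.node (.node .leaf 47169922 .leaf) 47169924 .leaf) 47170177 (.node .leaf 47170178 .leaf)) 47170180 (.node (.node (.node .leaf 47170305 .leaf) 47170306 .leaf) 47170308 (.node .leaf 47170689 .leaf))) 47170690 (.node (.node (.node (.node .leaf 47170692 .leaf) 47170817 .leaf) 47170818 (.node .leaf 47170820 .leaf)) 47171073 (.node (.node .leaf 47171074 .leaf) 47171076 (.node .leaf 47177737 .leaf)))))) 47177738 (.node (.node (.node (.node (.node (.node (.node .leaf 47177740 .leaf) 48202001 .leaf) 48202002 (.node .leaf 48202004 .leaf)) 48202017 (.node (.node (.node .leaf 48202018 .leaf) 48202020 .leaf) 48202049 (.node .leaf 48202050 .leaf))) 48202052 (.node (.node (.node (.node .leaf 48202257 .leaf) 48202258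 .leaf) 48202260 (.node .leaf 48202273 .leaf)) 48202274 (.node (.node (.node .leaf 48202276 .leaf) 48202305 .leaf) 48202306 (.node .leaf 48202308 .leaf)))) 48202497 (.node (.node (.node (.node (.node .leaf 48202498 .leaf) 48202500 .leaf) 48202769 (.node .leaf 48202770 .leaf)) 48202772 (.node (.node (.node .leaf 48202785 .leaf) 48202786 .leaf) 48202788 (.node .leaf 48202817 .leaf))) 48202818 (.node (.node (.node (.node .leaf 48202820 .leaf) 48203009 .leaf) 48203010 (.node .leaf 48203012 .leaf)) 48203265 (.node (.node .leaf 48203266 .leaf) 48203268 (.node .leaf 48209929 .leaf))))) 48209930 (.node (.node (.node (.node (.node (.node .leaf 48209932 .leaf) 48218121 .leaf) 48218122 (.node .leaf 48218124 .leaf)) 48218129 (.node (.node (.node .leaf 48218130 .leaf) 48218132 .leaf) 48218145 (.node .leaf 48218146 .leaf))) 48218148 (.node (.node (.node (.node .leaf 48218177 .leaf) 48218178 .leaf) 48218180 (.node .leaf 48218241 .leaf)) 48218242 (.node (.node (.node .leaf 48218244 .leaf) 48218369 .leaf) 48218370 (.node .leaf 48218372 .leaf)))) 48218625 (.node (.node (.node (.node (.node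 .leaf 48218626 .leaf) 48218628 .leaf) 48220048 (.node .leaf 48220064 .leaf)) 48221072 (.node (.node (.node .leaf 48221088 .leaf) 48221584 .leaf) 48221600 (.node .leaf 48221840 .leaf))) 48221856 (.node (.node (.node (.node .leaf 48221968 .leaf) 48221984 .leaf) 48222080 (.node .leaf 48226712 .leaf)) 48226728 (.node (.node .leaf 48226968 .leaf) 48226984 (.node .leaf 48227096 .leaf))))))) 48227112 (.node (.node (.node (.node (.node (.node (.node (.node .leaf 48227208 .leaf) 48227480 .leaf) 48227496 (.node .leaf 48227608 .leaf)) 48227624 (.node (.node (.node .leaf 48227720 .leaf) 48227864 .leaf) 48227880 (.node .leaf 48227976 .leaf))) 48228104 (.node (.node (.node (.node .leaf 50298889 .leaf) 50298890 .leaf) 50298892 (.node .leaf 50298897 .leaf)) 50298898 (.node (.node (.node .leaf 50298900 .leaf) 50298913 .leaf) 50298914 (.node .leaf 50298916 .leaf)))) 50298945 (.node (.node (.node (.node (.node .leaf 50298946 .leaf) 50298948 .leaf) 50299137 (.node .leaf 50299138 .leaf)) 50299140 (.node (.node (.node .leaf 50299393 .leaf) 50299394 .leaf) 50299396 (.node .leaf 50300752 .leaf)))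 50300768 (.node (.node (.node (.node .leaf 50301776 .leaf) 50301792 .leaf) 50302288 (.node .leaf 50302304 .leaf)) 50302544 (.node (.node (.node .leaf 50302560 .leaf) 50302736 .leaf) 50302752 (.node .leaf 50302784 .leaf))))) 50307416 (.node (.node (.node (.node (.node (.node .leaf 50307432 .leaf) 50307672 .leaf) 50307688 (.node .leaf 50307864 .leaf)) 50307880 (.node (.node (.node .leaf 50307912 .leaf) 50308184 .leaf) 50308200 (.node .leaf 50308376 .leaf))) 50308392 (.node (.node (.node (.node .leaf 50308424 .leaf) 50308632 .leaf) 50308648 (.node .leaf 50308680 .leaf)) 50308872 (.node (.node (.node .leaf 50315265 .leaf) 50315266 .leaf) 50315268 (.node .leaf 50315480 .leaf)))) 50315496 (.node (.node (.node (.node (.node .leaf 50315608 .leaf) 50315624 .leaf) 50315672 (.node .leaf 50315688 .leaf)) 50315720 (.node (.node (.node .leaf 50315728 .leaf) 50315744 .leaf) 50315864 (.node .leaf 50315880 .leaf))) 50315928 (.node (.node (.node (.node .leaf 50315944 .leaf) 50315976 .leaf) 50315984 (.node .leaf 50316000 .leaf)) 50316056 (.node (.node .leaf 50316072 .leaf) 50316104 (.node .leaf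 50316112 .leaf)))))) 50316128 (.node (.node (.node (.node (.node (.node (.node .leaf 50316168 .leaf) 50316176 .leaf) 50316192 (.node .leaf 50316224 .leaf)) 50316376 (.node (.node (.node .leaf 50316392 .leaf) 50316440 .leaf) 50316456 (.node .leaf 50316488 .leaf))) 50316496 (.node (.node (.node (.node .leaf 50316512 .leaf) 50316568 .leaf) 50316584 (.node .leaf 50316616 .leaf)) 50316624 (.node (.node (.node .leaf 50316640 .leaf) 50316680 .leaf) 50316688 (.node .leaf 50316704 .leaf)))) 50316736 (.node (.node (.node (.node (.node .leaf 50316824 .leaf) 50316840 .leaf) 50316872 (.node .leaf 50316880 .leaf)) 50316896 (.node (.node (.node .leaf 50316936 .leaf) 50316944 .leaf) 50316960 (.node .leaf 50316992 .leaf))) 50317072 (.node (.node (.node (.node .leaf 50317088 .leaf) 50317120 .leaf) 50317184 (.node .leaf 50323537 .leaf)) 50323538 (.node (.node .leaf 50323540 .leaf) 50323544 (.node .leaf 50323553 .leaf))))) 50323554 (.node (.node (.node (.node (.node (.node .leaf 50323556 .leaf) 50323560 .leaf) 50323601 (.node .leaf 50323602 .leaf)) 50323604 (.node (.node (.node .leaf 50323608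 .leaf) 50323617 .leaf) 50323618 (.node .leaf 50323620 .leaf))) 50323624 (.node (.node (.node (.node .leaf 50323649 .leaf) 50323650 .leaf) 50323652 (.node .leaf 50323656 .leaf)) 50323729 (.node (.node (.node .leaf 50323730 .leaf) 50323732 .leaf) 50323736 (.node .leaf 50323745 .leaf)))) 50323746 (.node (.node (.node (.node (.node .leaf 50323748 .leaf) 50323752 .leaf) 50323777 (.node .leaf 50323778 .leaf)) 50323780 (.node (.node (.node .leaf 50323784 .leaf) 50323841 .leaf) 50323842 (.node .leaf 50323844 .leaf))) 50323848 (.node (.node (.node (.node .leaf 50323985 .leaf) 50323986 .leaf) 50323988 (.node .leaf 50323992 .leaf)) 50324001 (.node (.node .leaf 50324002 .leaf) 50324004 (.node .leaf 50324008 .leaf))))))))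

/-- A block of the table. -/
def xt6 : NatTree :=
  (.node (.node (.node (.node (.node (.node (.node (.node (.node .leaf 50324034 .leaf) 50324036 .leaf) 50324040 (.node .leaf 50324097 .leaf)) 50324098 (.node (.node (.node .leaf 50324100 .leaf) 50324104 .leaf) 50324225 (.node .leaf 50324226 .leaf))) 50324228 (.node (.node (.node (.node .leaf 50324232 .leaf) 60784913 .leaf) 60784914 (.node .leaf 60784916 .leaf)) 60785169 (.node (.node (.node .leaf 60785170 .leaf) 60785172 .leaf) 60785409 (.node .leaf 60785410 .leaf)))) 60785412 (.node (.node (.node (.node (.node .leaf 60785681 .leaf) 60785682 .leaf) 60785684 (.node .leaf 60785921 .leaf)) 60785922 (.node (.node (.node .leaf 60785924 .leaf) 60786177 .leaf) 60786178 (.node .leaf 60786180 .leaf))) 60792841 (.node (.node (.node (.node .leaf 60792842 .leaf) 60792844 .leaf) 60801033 (.node .leaf 60801034 .leaf)) 60801036 (.node (.node (.node .leaf 60801041 .leaf) 60801042 .leaf) 60801044 (.node .leaf 60801153 .leaf))))) 60801154 (.node (.node (.node (.node (.node (.node .leaf 60801156 .leaf) 60801281 .leaf) 60801282 (.node .leaf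 60801284 .leaf)) 60801537 (.node (.node (.node .leaf 60801538 .leaf) 60801540 .leaf) 60802960 (.node .leaf 60803984 .leaf))) 60804496 (.node (.node (.node (.node .leaf 60804752 .leaf) 60804880 .leaf) 60804992 (.node .leaf 60809624 .leaf)) 60809880 (.node (.node (.node .leaf 60810008 .leaf) 60810120 .leaf) 60810392 (.node .leaf 60810520 .leaf)))) 60810632 (.node (.node (.node (.node (.node .leaf 60810776 .leaf) 60810888 .leaf) 60811016 (.node .leaf 62881801 .leaf)) 62881802 (.node (.node (.node .leaf 62881804 .leaf) 62881809 .leaf) 62881810 (.node .leaf 62881812 .leaf))) 62881857 (.node (.node (.node (.node .leaf 62881858 .leaf) 62881860 .leaf) 62882049 (.node .leaf 62882050 .leaf)) 62882052 (.node (.node .leaf 62882305 .leaf) 62882306 (.node .leaf 62882308 .leaf)))))) 62883664 (.node (.node (.node (.node (.node (.node (.node .leaf 62884688 .leaf) 62885200 .leaf) 62885456 (.node .leaf 62885648 .leaf)) 62885696 (.node (.node (.node .leaf 62890328 .leaf) 62890584 .leaf) 62890776 (.node .leaf 62890824 .leaf))) 62891096 (.node (.node (.node (.node .leaf 62891288 .leaf) 62891336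 .leaf) 62891544 (.node .leaf 62891592 .leaf)) 62891784 (.node (.node (.node .leaf 62898177 .leaf) 62898178 .leaf) 62898180 (.node .leaf 62898392 .leaf)))) 62898520 (.node (.node (.node (.node (.node .leaf 62898584 .leaf) 62898632 .leaf) 62898640 (.node .leaf 62898776 .leaf)) 62898840 (.node (.node (.node .leaf 62898888 .leaf) 62898896 .leaf) 62898968 (.node .leaf 62899016 .leaf))) 62899024 (.node (.node (.node (.node .leaf 62899080 .leaf) 62899088 .leaf) 62899136 (.node .leaf 62899288 .leaf)) 62899352 (.node (.node .leaf 62899400 .leaf) 62899408 (.node .leaf 62899480 .leaf))))) 62899528 (.node (.node (.node (.node (.node (.node .leaf 62899536 .leaf) 62899592 .leaf) 62899600 (.node .leaf 62899648 .leaf)) 62899736 (.node (.node (.node .leaf 62899784 .leaf) 62899792 .leaf) 62899848 (.node .leaf 62899856 .leaf))) 62899904 (.node (.node (.node (.node .leaf 63930641 .leaf) 63930642 .leaf) 63930644 (.node .leaf 63930897 .leaf)) 63930898 (.node (.node (.node .leaf 63930900 .leaf) 63931137 .leaf) 63931138 (.node .leaf 63931140 .leaf)))) 63931409 (.node (.node (.node (.node (.node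 .leaf 63931410 .leaf) 63931412 .leaf) 63931649 (.node .leaf 63931650 .leaf)) 63931652 (.node (.node (.node .leaf 63931905 .leaf) 63931906 .leaf) 63931908 (.node .leaf 63938569 .leaf))) 63938570 (.node (.node (.node (.node .leaf 63938572 .leaf) 63946761 .leaf) 63946762 (.node .leaf 63946764 .leaf)) 63946769 (.node (.node .leaf 63946770 .leaf) 63946772 (.node .leaf 63946881 .leaf))))))) 63946882 (.node (.node (.node (.node (.node (.node (.node (.node .leaf 63946884 .leaf) 63947009 .leaf) 63947010 (.node .leaf 63947012 .leaf)) 63947265 (.node (.node (.node .leaf 63947266 .leaf) 63947268 .leaf) 64978953 (.node .leaf 64978954 .leaf))) 64978956 (.node (.node (.node (.node .leaf 64978961 .leaf) 64978962 .leaf) 64978964 (.node .leaf 64978977 .leaf)) 64978978 (.node (.node (.node .leaf 64978980 .leaf) 64979009 .leaf) 64979010 (.node .leaf 64979012 .leaf)))) 64979201 (.node (.node (.node (.node (.node .leaf 64979202 .leaf) 64979204 .leaf) 64979457 (.node .leaf 64979458 .leaf)) 64979460 (.node (.node (.node .leaf 64980784 .leaf) 64981808 .leaf) 64982320 (.node .leaf 64982576 .leaf)))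 64982800 (.node (.node (.node (.node .leaf 64982816 .leaf) 64987448 .leaf) 64987704 (.node .leaf 64987928 .leaf)) 64987944 (.node (.node (.node .leaf 64988216 .leaf) 64988440 .leaf) 64988456 (.node .leaf 64988696 .leaf))))) 64988712 (.node (.node (.node (.node (.node (.node .leaf 64988936 .leaf) 64995329 .leaf) 64995330 (.node .leaf 64995332 .leaf)) 64995512 (.node (.node (.node .leaf 64995640 .leaf) 64995736 .leaf) 64995752 (.node .leaf 64995760 .leaf))) 64995792 (.node (.node (.node (.node .leaf 64995896 .leaf) 64995992 .leaf) 64996008 (.node .leaf 64996016 .leaf)) 64996048 (.node (.node (.node .leaf 64996120 .leaf) 64996136 .leaf) 64996144 (.node .leaf 64996176 .leaf)))) 64996232 (.node (.node (.node (.node (.node .leaf 64996240 .leaf) 64996256 .leaf) 64996288 (.node .leaf 64996408 .leaf)) 64996504 (.node (.node (.node .leaf 64996520 .leaf) 64996528 .leaf) 64996560 (.node .leaf 64996632 .leaf))) 64996648 (.node (.node (.node (.node .leaf 64996656 .leaf) 64996688 .leaf) 64996744 (.node .leaf 64996752 .leaf)) 64996768 (.node (.node .leaf 64996800 .leaf) 64996888 (.node .leaf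 64996904 .leaf)))))) 64996912 (.node (.node (.node (.node (.node (.node (.node .leaf 64996944 .leaf) 64997000 .leaf) 64997008 (.node .leaf 64997024 .leaf)) 64997056 (.node (.node (.node .leaf 64997136 .leaf) 64997152 .leaf) 64997184 (.node .leaf 64997248 .leaf))) 65003569 (.node (.node (.node (.node .leaf 65003570 .leaf) 65003572 .leaf) 65003576 (.node .leaf 65003601 .leaf)) 65003602 (.node (.node (.node .leaf 65003604 .leaf) 65003608 .leaf) 65003665 (.node .leaf 65003666 .leaf)))) 65003668 (.node (.node (.node (.node (.node .leaf 65003672 .leaf) 65003681 .leaf) 65003682 (.node .leaf 65003684 .leaf)) 65003688 (.node (.node (.node .leaf 65003713 .leaf) 65003714 .leaf) 65003716 (.node .leaf 65003720 .leaf))) 65003793 (.node (.node (.node (.node .leaf 65003794 .leaf) 65003796 .leaf) 65003800 (.node .leaf 65003809 .leaf)) 65003810 (.node (.node .leaf 65003812 .leaf) 65003816 (.node .leaf 65003841 .leaf))))) 65003842 (.node (.node (.node (.node (.node (.node .leaf 65003844 .leaf) 65003848 .leaf) 65003905 (.node .leaf 65003906 .leaf)) 65003908 (.node (.node (.node .leaf 65003912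 .leaf) 65004049 .leaf) 65004050 (.node .leaf 65004052 .leaf))) 65004056 (.node (.node (.node (.node .leaf 65004065 .leaf) 65004066 .leaf) 65004068 (.node .leaf 65004072 .leaf)) 65004097 (.node (.node (.node .leaf 65004098 .leaf) 65004100 .leaf) 65004104 (.node .leaf 65004161 .leaf)))) 65004162 (.node (.node (.node (.node (.node .leaf 65004164 .leaf) 65004168 .leaf) 65004289 (.node .leaf 65004290 .leaf)) 65004292 (.node (.node (.node .leaf 65004296 .leaf) 67076097 .leaf) 67076098 (.node .leaf 67076100 .leaf))) 67076216 (.node (.node (.node (.node .leaf 67076408 .leaf) 67076440 .leaf) 67076456 (.node .leaf 67076464 .leaf)) 67076664 (.node (.node .leaf 67076696 .leaf) 67076712 (.node .leaf 67076720 .leaf))))))))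

/-- A block of the table. -/
def xt7 : NatTree :=
  (.node (.node (.node (.node (.node (.node (.node (.node (.node .leaf 67076904 .leaf) 67076912 .leaf) 67076936 (.node .leaf 67076944 .leaf)) 67076960 (.node (.node (.node .leaf 67077176 .leaf) 67077208 .leaf) 67077224 (.node .leaf 67077232 .leaf))) 67077400 (.node (.node (.node (.node .leaf 67077416 .leaf) 67077424 .leaf) 67077448 (.node .leaf 67077456 .leaf)) 67077472 (.node (.node (.node .leaf 67077656 .leaf) 67077672 .leaf) 67077680 (.node .leaf 67077704 .leaf)))) 67077712 (.node (.node (.node (.node (.node .leaf 67077728 .leaf) 67077904 .leaf) 67077920 (.node .leaf 67077952 .leaf)) 67084337 (.node (.node (.node .leaf 67084338 .leaf) 67084340 .leaf) 67084344 (.node .leaf 67084369 .leaf))) 67084370 (.node (.node (.node (.node .leaf 67084372 .leaf) 67084376 .leaf) 67084385 (.node .leaf 67084386 .leaf)) 67084388 (.node (.node (.node .leaf 67084392 .leaf) 67084561 .leaf) 67084562 (.node .leaf 67084564 .leaf))))) 67084568 (.node (.node (.node (.node (.node (.node .leaf 67084577 .leaf) 67084578 .leaf) 67084580 (.node .leaf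 67084584 .leaf)) 67084609 (.node (.node (.node .leaf 67084610 .leaf) 67084612 .leaf) 67084616 (.node .leaf 67084817 .leaf))) 67084818 (.node (.node (.node (.node .leaf 67084820 .leaf) 67084824 .leaf) 67084833 (.node .leaf 67084834 .leaf)) 67084836 (.node (.node (.node .leaf 67084840 .leaf) 67084865 .leaf) 67084866 (.node .leaf 67084868 .leaf)))) 67084872 (.node (.node (.node (.node (.node .leaf 67085057 .leaf) 67085058 .leaf) 67085060 (.node .leaf 67085064 .leaf)) 67092529 (.node (.node (.node .leaf 67092530 .leaf) 67092532 .leaf) 67092536 (.node .leaf 67092561 .leaf))) 67092562 (.node (.node (.node (.node .leaf 67092564 .leaf) 67092568 .leaf) 67092577 (.node .leaf 67092578 .leaf)) 67092580 (.node (.node .leaf 67092584 .leaf) 67092592 (.node .leaf 67092625 .leaf)))))) 67092626 (.node (.node (.node (.node (.node (.node (.node .leaf 67092628 .leaf) 67092632 .leaf) 67092641 (.node .leaf 67092642 .leaf)) 67092644 (.node (.node (.node .leaf 67092648 .leaf) 67092656 .leaf) 67092673 (.node .leaf 67092674 .leaf))) 67092676 (.node (.node (.node (.node .leaf 67092680 .leaf) 67092688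 .leaf) 67092704 (.node .leaf 67092753 .leaf)) 67092754 (.node (.node (.node .leaf 67092756 .leaf) 67092760 .leaf) 67092769 (.node .leaf 67092770 .leaf)))) 67092772 (.node (.node (.node (.node (.node .leaf 67092776 .leaf) 67092784 .leaf) 67092801 (.node .leaf 67092802 .leaf)) 67092804 (.node (.node (.node .leaf 67092808 .leaf) 67092816 .leaf) 67092832 (.node .leaf 67092865 .leaf))) 67092866 (.node (.node (.node (.node .leaf 67092868 .leaf) 67092872 .leaf) 67092880 (.node .leaf 67092896 .leaf)) 67092928 (.node (.node .leaf 67093009 .leaf) 67093010 (.node .leaf 67093012 .leaf))))) 67093016 (.node (.node (.node (.node (.node (.node .leaf 67093025 .leaf) 67093026 .leaf) 67093028 (.node .leaf 67093032 .leaf)) 67093040 (.node (.node (.node .leaf 67093057 .leaf) 67093058 .leaf) 67093060 (.node .leaf 67093064 .leaf))) 67093072 (.node (.node (.node (.node .leaf 67093088 .leaf) 67093121 .leaf) 67093122 (.node .leaf 67093124 .leaf)) 67093128 (.node (.node (.node .leaf 67093136 .leaf) 67093152 .leaf) 67093184 (.node .leaf 67093264 .leaf)))) 67093280 (.node (.node (.node (.node (.node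 .leaf 67093312 .leaf) 67093376 .leaf) 67100689 (.node .leaf 67100690 .leaf)) 67100692 (.node (.node (.node .leaf 67100696 .leaf) 67100705 .leaf) 67100706 (.node .leaf 67100708 .leaf))) 67100712 (.node (.node (.node (.node .leaf 67100737 .leaf) 67100738 .leaf) 67100740 (.node .leaf 67100744 .leaf)) 67100801 (.node (.node .leaf 67100802 .leaf) 67100804 (.node .leaf 67100808 .leaf))))))) 67100929 (.node (.node (.node (.node (.node (.node (.node (.node .leaf 67100930 .leaf) 67100932 .leaf) 67100936 (.node .leaf 67101168 .leaf)) 67101424 (.node (.node (.node .leaf 67101552 .leaf) 67101616 .leaf) 67101648 (.node .leaf 67101664 .leaf))) 67101936 (.node (.node (.node (.node .leaf 67102064 .leaf) 67102128 .leaf) 67102160 (.node .leaf 67102176 .leaf)) 67102320 (.node (.node (.node .leaf 67102384 .leaf) 67102416 .leaf) 67102432 (.node .leaf 67102512 .leaf)))) 67102544 (.node (.node (.node (.node (.node .leaf 67102560 .leaf) 67102608 .leaf) 67102624 (.node .leaf 67102656 .leaf)) 113230273 (.node (.node (.node .leaf 113230274 .leaf) 113230276 .leaf) 113230529 (.node .leaf 113230530 .leaf)))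 113230532 (.node (.node (.node (.node .leaf 113230657 .leaf) 113230658 .leaf) 113230660 (.node .leaf 113230721 .leaf)) 113230722 (.node (.node (.node .leaf 113230724 .leaf) 113231041 .leaf) 113231042 (.node .leaf 113231044 .leaf))))) 113231169 (.node (.node (.node (.node (.node (.node .leaf 113231170 .leaf) 113231172 .leaf) 113231233 (.node .leaf 113231234 .leaf)) 113231236 (.node (.node (.node .leaf 113231425 .leaf) 113231426 .leaf) 113231428 (.node .leaf 113231489 .leaf))) 113231490 (.node (.node (.node (.node .leaf 113231492 .leaf) 113231617 .leaf) 113231618 (.node .leaf 113231620 .leaf)) 113238089 (.node (.node (.node .leaf 113238090 .leaf) 113238092 .leaf) 113238153 (.node .leaf 113238154 .leaf)))) 113238156 (.node (.node (.node (.node (.node .leaf 113238281 .leaf) 113238282 .leaf) 113238284 (.node .leaf 113238537 .leaf)) 113238538 (.node (.node (.node .leaf 113238540 .leaf) 115327393 .leaf) 115327394 (.node .leaf 115327396 .leaf))) 115327425 (.node (.node (.node (.node .leaf 115327426 .leaf) 115327428 .leaf) 115327649 (.node .leaf 115327650 .leaf)) 115327652 (.node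 (.node .leaf 115327681 .leaf) 115327682 (.node .leaf 115327684 .leaf)))))) 115327777 (.node (.node (.node (.node (.node (.node (.node .leaf 115327778 .leaf) 115327780 .leaf) 115327809 (.node .leaf 115327810 .leaf)) 115327812 (.node (.node (.node .leaf 115327873 .leaf) 115327874 .leaf) 115327876 (.node .leaf 115328161 .leaf))) 115328162 (.node (.node (.node (.node .leaf 115328164 .leaf) 115328193 .leaf) 115328194 (.node .leaf 115328196 .leaf)) 115328289 (.node (.node (.node .leaf 115328290 .leaf) 115328292 .leaf) 115328321 (.node .leaf 115328322 .leaf)))) 115328324 (.node (.node (.node (.node (.node .leaf 115328385 .leaf) 115328386 .leaf) 115328388 (.node .leaf 115328545 .leaf)) 115328546 (.node (.node (.node .leaf 115328548 .leaf) 115328577 .leaf) 115328578 (.node .leaf 115328580 .leaf))) 115328641 (.node (.node (.node (.node .leaf 115328642 .leaf) 115328644 .leaf) 115328769 (.node .leaf 115328770 .leaf)) 115328772 (.node (.node .leaf 115335209 .leaf) 115335210 (.node .leaf 115335212 .leaf))))) 115335241 (.node (.node (.node (.node (.node (.node .leaf 115335242 .leaf) 115335244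 .leaf) 115335305 (.node .leaf 115335306 .leaf)) 115335308 (.node (.node (.node .leaf 115335433 .leaf) 115335434 .leaf) 115335436 (.node .leaf 115335689 .leaf))) 115335690 (.node (.node (.node (.node .leaf 115335692 .leaf) 117408097 .leaf) 117408098 (.node .leaf 117408100 .leaf)) 117408353 (.node (.node (.node .leaf 117408354 .leaf) 117408356 .leaf) 117408545 (.node .leaf 117408546 .leaf)))) 117408548 (.node (.node (.node (.node (.node .leaf 117408577 .leaf) 117408578 .leaf) 117408580 (.node .leaf 117408865 .leaf)) 117408866 (.node (.node (.node .leaf 117408868 .leaf) 117409057 .leaf) 117409058 (.node .leaf 117409060 .leaf))) 117409089 (.node (.node (.node (.node .leaf 117409090 .leaf) 117409092 .leaf) 117409313 (.node .leaf 117409314 .leaf)) 117409316 (.node (.node .leaf 117409345 .leaf) 117409346 (.node .leaf 117409348 .leaf))))))))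

/-- A block of the table. -/
def xt8 : NatTree :=
  (.node (.node (.node (.node (.node (.node (.node (.node (.node .leaf 117409538 .leaf) 117409540 .leaf) 117415977 (.node .leaf 117415978 .leaf)) 117415980 (.node (.node (.node .leaf 117416009 .leaf) 117416010 .leaf) 117416012 (.node .leaf 117416201 .leaf))) 117416202 (.node (.node (.node (.node .leaf 117416204 .leaf) 117416457 .leaf) 117416458 (.node .leaf 117416460 .leaf)) 117424169 (.node (.node (.node .leaf 117424170 .leaf) 117424172 .leaf) 117424201 (.node .leaf 117424202 .leaf)))) 117424204 (.node (.node (.node (.node (.node .leaf 117424225 .leaf) 117424226 .leaf) 117424228 (.node .leaf 117424265 .leaf)) 117424266 (.node (.node (.node .leaf 117424268 .leaf) 117424289 .leaf) 117424290 (.node .leaf 117424292 .leaf))) 117424321 (.node (.node (.node (.node .leaf 117424322 .leaf) 117424324 .leaf) 117424393 (.node .leaf 117424394 .leaf)) 117424396 (.node (.node (.node .leaf 117424417 .leaf) 117424418 .leaf) 117424420 (.node .leaf 117424449 .leaf))))) 117424450 (.node (.node (.node (.node (.node (.node .leaf 117424452 .leaf)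 117424513 .leaf) 117424514 (.node .leaf 117424516 .leaf)) 117424649 (.node (.node (.node .leaf 117424650 .leaf) 117424652 .leaf) 117424673 (.node .leaf 117424674 .leaf))) 117424676 (.node (.node (.node (.node .leaf 117424705 .leaf) 117424706 .leaf) 117424708 (.node .leaf 117424769 .leaf)) 117424770 (.node (.node (.node .leaf 117424772 .leaf) 117424897 .leaf) 117424898 (.node .leaf 117424900 .leaf)))) 117426144 (.node (.node (.node (.node (.node .leaf 117427168 .leaf) 117427680 .leaf) 117427936 (.node .leaf 117428064 .leaf)) 117428128 (.node (.node (.node .leaf 117428160 .leaf) 117432329 .leaf) 117432330 (.node .leaf 117432332 .leaf))) 117432808 (.node (.node (.node (.node .leaf 117433064 .leaf) 117433192 .leaf) 117433256 (.node .leaf 117433288 .leaf)) 117433576 (.node (.node .leaf 117433704 .leaf) 117433768 (.node .leaf 117433800 .leaf)))))) 117433960 (.node (.node (.node (.node (.node (.node (.node .leaf 117434024 .leaf) 117434056 .leaf) 117434152 (.node .leaf 117434184 .leaf)) 117434248 (.node (.node (.node .leaf 127910289 .leaf) 127910290 .leaf) 127910292 (.node .leaf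 127910545 .leaf))) 127910546 (.node (.node (.node (.node .leaf 127910548 .leaf) 127910673 .leaf) 127910674 (.node .leaf 127910676 .leaf)) 127910785 (.node (.node (.node .leaf 127910786 .leaf) 127910788 .leaf) 127911057 (.node .leaf 127911058 .leaf)))) 127911060 (.node (.node (.node (.node (.node .leaf 127911185 .leaf) 127911186 .leaf) 127911188 (.node .leaf 127911297 .leaf)) 127911298 (.node (.node (.node .leaf 127911300 .leaf) 127911441 .leaf) 127911442 (.node .leaf 127911444 .leaf))) 127911553 (.node (.node (.node (.node .leaf 127911554 .leaf) 127911556 .leaf) 127911681 (.node .leaf 127911682 .leaf)) 127911684 (.node (.node (.node .leaf 127918105 .leaf) 127918106 .leaf) 127918108 (.node .leaf 127918217 .leaf))))) 127918218 (.node (.node (.node (.node (.node (.node .leaf 127918220 .leaf) 127918345 .leaf) 127918346 (.node .leaf 127918348 .leaf)) 127918601 (.node (.node (.node .leaf 127918602 .leaf) 127918604 .leaf) 129990993 (.node .leaf 129990994 .leaf))) 129990996 (.node (.node (.node (.node .leaf 129991249 .leaf) 129991250 .leaf) 129991252 (.node .leaf 129991441 .leaf))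 129991442 (.node (.node (.node .leaf 129991444 .leaf) 129991489 .leaf) 129991490 (.node .leaf 129991492 .leaf)))) 129991761 (.node (.node (.node (.node (.node .leaf 129991762 .leaf) 129991764 .leaf) 129991953 (.node .leaf 129991954 .leaf)) 129991956 (.node (.node (.node .leaf 129992001 .leaf) 129992002 .leaf) 129992004 (.node .leaf 129992209 .leaf))) 129992210 (.node (.node (.node (.node .leaf 129992212 .leaf) 129992257 .leaf) 129992258 (.node .leaf 129992260 .leaf)) 129992449 (.node (.node .leaf 129992450 .leaf) 129992452 (.node .leaf 129998873 .leaf))))))) 129998874 (.node (.node (.node (.node (.node (.node (.node (.node .leaf 129998876 .leaf) 129998921 .leaf) 129998922 (.node .leaf 129998924 .leaf)) 129999113 (.node (.node (.node .leaf 129999114 .leaf) 129999116 .leaf) 129999369 (.node .leaf 129999370 .leaf))) 129999372 (.node (.node (.node (.node .leaf 130007065 .leaf) 130007066 .leaf) 130007068 (.node .leaf 130007113 .leaf)) 130007114 (.node (.node (.node .leaf 130007116 .leaf) 130007121 .leaf) 130007122 (.node .leaf 130007124 .leaf)))) 130007177 (.node (.node (.node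 (.node (.node .leaf 130007178 .leaf) 130007180 .leaf) 130007185 (.node .leaf 130007186 .leaf)) 130007188 (.node (.node (.node .leaf 130007233 .leaf) 130007234 .leaf) 130007236 (.node .leaf 130007305 .leaf))) 130007306 (.node (.node (.node (.node .leaf 130007308 .leaf) 130007313 .leaf) 130007314 (.node .leaf 130007316 .leaf)) 130007361 (.node (.node (.node .leaf 130007362 .leaf) 130007364 .leaf) 130007425 (.node .leaf 130007426 .leaf))))) 130007428 (.node (.node (.node (.node (.node (.node .leaf 130007561 .leaf) 130007562 .leaf) 130007564 (.node .leaf 130007569 .leaf)) 130007570 (.node (.node (.node .leaf 130007572 .leaf) 130007617 .leaf) 130007618 (.node .leaf 130007620 .leaf))) 130007681 (.node (.node (.node (.node .leaf 130007682 .leaf) 130007684 .leaf) 130007809 (.node .leaf 130007810 .leaf)) 130007812 (.node (.node (.node .leaf 130009040 .leaf) 130010064 .leaf) 130010576 (.node .leaf 130010832 .leaf)))) 130010960 (.node (.node (.node (.node (.node .leaf 130011024 .leaf) 130011072 .leaf) 130015241 (.node .leaf 130015242 .leaf)) 130015244 (.node (.node (.node .leaf 130015704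 .leaf) 130015960 .leaf) 130016088 (.node .leaf 130016152 .leaf))) 130016200 (.node (.node (.node (.node .leaf 130016472 .leaf) 130016600 .leaf) 130016664 (.node .leaf 130016712 .leaf)) 130016856 (.node (.node .leaf 130016920 .leaf) 130016968 (.node .leaf 130017048 .leaf)))))) 130017096 (.node (.node (.node (.node (.node (.node (.node .leaf 130017160 .leaf) 131056017 .leaf) 131056018 (.node .leaf 131056020 .leaf)) 131056273 (.node (.node (.node .leaf 131056274 .leaf) 131056276 .leaf) 131056401 (.node .leaf 131056402 .leaf))) 131056404 (.node (.node (.node (.node .leaf 131056513 .leaf) 131056514 .leaf) 131056516 (.node .leaf 131056785 .leaf)) 131056786 (.node (.node (.node .leaf 131056788 .leaf) 131056913 .leaf) 131056914 (.node .leaf 131056916 .leaf)))) 131057025 (.node (.node (.node (.node (.node .leaf 131057026 .leaf) 131057028 .leaf) 131057169 (.node .leaf 131057170 .leaf)) 131057172 (.node (.node (.node .leaf 131057281 .leaf) 131057282 .leaf) 131057284 (.node .leaf 131057409 .leaf))) 131057410 (.node (.node (.node (.node .leaf 131057412 .leaf) 131063833 .leaf) 131063834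 (.node .leaf 131063836 .leaf)) 131063945 (.node (.node .leaf 131063946 .leaf) 131063948 (.node .leaf 131064073 .leaf))))) 131064074 (.node (.node (.node (.node (.node (.node .leaf 131064076 .leaf) 131064329 .leaf) 131064330 (.node .leaf 131064332 .leaf)) 132088113 (.node (.node (.node .leaf 132088114 .leaf) 132088116 .leaf) 132088145 (.node .leaf 132088146 .leaf))) 132088148 (.node (.node (.node (.node .leaf 132088369 .leaf) 132088370 .leaf) 132088372 (.node .leaf 132088401 .leaf)) 132088402 (.node (.node (.node .leaf 132088404 .leaf) 132088593 .leaf) 132088594 (.node .leaf 132088596 .leaf)))) 132088609 (.node (.node (.node (.node (.node .leaf 132088610 .leaf) 132088612 .leaf) 132088641 (.node .leaf 132088642 .leaf)) 132088644 (.node (.node (.node .leaf 132088881 .leaf) 132088882 .leaf) 132088884 (.node .leaf 132088913 .leaf))) 132088914 (.node (.node (.node (.node .leaf 132088916 .leaf) 132089105 .leaf) 132089106 (.node .leaf 132089108 .leaf)) 132089121 (.node (.node .leaf 132089122 .leaf) 132089124 (.node .leaf 132089153 .leaf))))))))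

/-- A block of the table. -/
def xt9 : NatTree :=
  (.node (.node (.node (.node (.node (.node (.node (.node (.node .leaf 132089156 .leaf) 132089361 .leaf) 132089362 (.node .leaf 132089364 .leaf)) 132089377 (.node (.node (.node .leaf 132089378 .leaf) 132089380 .leaf) 132089409 (.node .leaf 132089410 .leaf))) 132089412 (.node (.node (.node (.node .leaf 132089601 .leaf) 132089602 .leaf) 132089604 (.node .leaf 132096025 .leaf)) 132096026 (.node (.node (.node .leaf 132096028 .leaf) 132096041 .leaf) 132096042 (.node .leaf 132096044 .leaf)))) 132096073 (.node (.node (.node (.node (.node .leaf 132096074 .leaf) 132096076 .leaf) 132096265 (.node .leaf 132096266 .leaf)) 132096268 (.node (.node (.node .leaf 132096521 .leaf) 132096522 .leaf) 132096524 (.node .leaf 132104217 .leaf))) 132104218 (.node (.node (.node (.node .leaf 132104220 .leaf) 132104233 .leaf) 132104234 (.node .leaf 132104236 .leaf)) 132104241 (.node (.node (.node .leaf 132104242 .leaf) 132104244 .leaf) 132104265 (.node .leaf 132104266 .leaf))))) 132104268 (.node (.node (.node (.node (.node (.node .leaf 132104273 .leaf)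 132104274 .leaf) 132104276 (.node .leaf 132104329 .leaf)) 132104330 (.node (.node (.node .leaf 132104332 .leaf) 132104337 .leaf) 132104338 (.node .leaf 132104340 .leaf))) 132104353 (.node (.node (.node (.node .leaf 132104354 .leaf) 132104356 .leaf) 132104385 (.node .leaf 132104386 .leaf)) 132104388 (.node (.node (.node .leaf 132104457 .leaf) 132104458 .leaf) 132104460 (.node .leaf 132104465 .leaf)))) 132104466 (.node (.node (.node (.node (.node .leaf 132104468 .leaf) 132104481 .leaf) 132104482 (.node .leaf 132104484 .leaf)) 132104513 (.node (.node (.node .leaf 132104514 .leaf) 132104516 .leaf) 132104577 (.node .leaf 132104578 .leaf))) 132104580 (.node (.node (.node (.node .leaf 132104713 .leaf) 132104714 .leaf) 132104716 (.node .leaf 132104721 .leaf)) 132104722 (.node (.node .leaf 132104724 .leaf) 132104737 (.node .leaf 132104738 .leaf)))))) 132104740 (.node (.node (.node (.node (.node (.node (.node .leaf 132104769 .leaf) 132104770 .leaf) 132104772 (.node .leaf 132104833 .leaf)) 132104834 (.node (.node (.node .leaf 132104836 .leaf) 132104961 .leaf) 132104962 (.node .leaf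 132104964 .leaf))) 132106160 (.node (.node (.node (.node .leaf 132107184 .leaf) 132107696 .leaf) 132107952 (.node .leaf 132108080 .leaf)) 132108176 (.node (.node (.node .leaf 132108192 .leaf) 132112393 .leaf) 132112394 (.node .leaf 132112396 .leaf)))) 132112824 (.node (.node (.node (.node (.node .leaf 132113080 .leaf) 132113208 .leaf) 132113304 (.node .leaf 132113320 .leaf)) 132113592 (.node (.node (.node .leaf 132113720 .leaf) 132113816 .leaf) 132113832 (.node .leaf 132113976 .leaf))) 132114072 (.node (.node (.node (.node .leaf 132114088 .leaf) 132114200 .leaf) 132114216 (.node .leaf 132114312 .leaf)) 134184985 (.node (.node .leaf 134184986 .leaf) 134184988 (.node .leaf 134185001 .leaf))))) 134185002 (.node (.node (.node (.node (.node (.node .leaf 134185004 .leaf) 134185009 .leaf) 134185010 (.node .leaf 134185012 .leaf)) 134185033 (.node (.node (.node .leaf 134185034 .leaf) 134185036 .leaf) 134185041 (.node .leaf 134185042 .leaf))) 134185044 (.node (.node (.node (.node .leaf 134185057 .leaf) 134185058 .leaf) 134185060 (.node .leaf 134185225 .leaf)) 134185226 (.node (.node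 (.node .leaf 134185228 .leaf) 134185233 .leaf) 134185234 (.node .leaf 134185236 .leaf)))) 134185249 (.node (.node (.node (.node (.node .leaf 134185250 .leaf) 134185252 .leaf) 134185281 (.node .leaf 134185282 .leaf)) 134185284 (.node (.node (.node .leaf 134185481 .leaf) 134185482 .leaf) 134185484 (.node .leaf 134185489 .leaf))) 134185490 (.node (.node (.node (.node .leaf 134185492 .leaf) 134185505 .leaf) 134185506 (.node .leaf 134185508 .leaf)) 134185537 (.node (.node .leaf 134185538 .leaf) 134185540 (.node .leaf 134185729 .leaf))))))) 134185730 (.node (.node (.node (.node (.node (.node (.node (.node .leaf 134185732 .leaf) 134186864 .leaf) 134187888 (.node .leaf 134188400 .leaf)) 134188656 (.node (.node (.node .leaf 134188848 .leaf) 134188880 .leaf) 134188896 (.node .leaf 134193161 .leaf))) 134193162 (.node (.node (.node (.node .leaf 134193164 .leaf) 134193528 .leaf) 134193784 (.node .leaf 134193976 .leaf)) 134194008 (.node (.node (.node .leaf 134194024 .leaf) 134194296 .leaf) 134194488 (.node .leaf 134194520 .leaf)))) 134194536 (.node (.node (.node (.node (.node .leaf 134194744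 .leaf) 134194776 .leaf) 134194792 (.node .leaf 134194968 .leaf)) 134194984 (.node (.node (.node .leaf 134195016 .leaf) 134201353 .leaf) 134201354 (.node .leaf 134201356 .leaf))) 134201361 (.node (.node (.node (.node .leaf 134201362 .leaf) 134201364 .leaf) 134201377 (.node .leaf 134201378 .leaf)) 134201380 (.node (.node (.node .leaf 134201409 .leaf) 134201410 .leaf) 134201412 (.node .leaf 134201473 .leaf))))) 134201474 (.node (.node (.node (.node (.node (.node .leaf 134201476 .leaf) 134201592 .leaf) 134201601 (.node .leaf 134201602 .leaf)) 134201604 (.node (.node (.node .leaf 134201720 .leaf) 134201784 .leaf) 134201816 (.node .leaf 134201832 .leaf))) 134201840 (.node (.node (.node (.node .leaf 134201976 .leaf) 134202040 .leaf) 134202072 (.node .leaf 134202088 .leaf)) 134202096 (.node (.node (.node .leaf 134202168 .leaf) 134202200 .leaf) 134202216 (.node .leaf 134202224 .leaf)))) 134202264 (.node (.node (.node (.node (.node .leaf 134202280 .leaf) 134202288 .leaf) 134202312 (.node .leaf 134202320 .leaf)) 134202336 (.node (.node (.node .leaf 134202488 .leaf) 134202552 .leaf)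 134202584 (.node .leaf 134202600 .leaf))) 134202608 (.node (.node (.node (.node .leaf 134202680 .leaf) 134202712 .leaf) 134202728 (.node .leaf 134202736 .leaf)) 134202776 (.node (.node .leaf 134202792 .leaf) 134202800 (.node .leaf 134202824 .leaf)))))) 134202832 (.node (.node (.node (.node (.node (.node (.node .leaf 134202848 .leaf) 134202936 .leaf) 134202968 (.node .leaf 134202984 .leaf)) 134202992 (.node (.node (.node .leaf 134203032 .leaf) 134203048 .leaf) 134203056 (.node .leaf 134203080 .leaf))) 134203088 (.node (.node (.node (.node .leaf 134203104 .leaf) 134203184 .leaf) 134203216 (.node .leaf 134203232 .leaf)) 134203280 (.node (.node (.node .leaf 134203296 .leaf) 134203328 .leaf) 134209649 (.node .leaf 134209650 .leaf)))) 134209652 (.node (.node (.node (.node (.node .leaf 134209656 .leaf) 134209713 .leaf) 134209714 (.node .leaf 134209716 .leaf)) 134209720 (.node (.node (.node .leaf 134209745 .leaf) 134209746 .leaf) 134209748 (.node .leaf 134209752 .leaf))) 134209761 (.node (.node (.node (.node .leaf 134209762 .leaf) 134209764 .leaf) 134209768 (.node .leaf 134209841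 .leaf)) 134209842 (.node (.node .leaf 134209844 .leaf) 134209848 (.node .leaf 134209873 .leaf))))) 134209874 (.node (.node (.node (.node (.node (.node .leaf 134209876 .leaf) 134209880 .leaf) 134209889 (.node .leaf 134209890 .leaf)) 134209892 (.node (.node (.node .leaf 134209896 .leaf) 134209937 .leaf) 134209938 (.node .leaf 134209940 .leaf))) 134209944 (.node (.node (.node (.node .leaf 134209953 .leaf) 134209954 .leaf) 134209956 (.node .leaf 134209960 .leaf)) 134209985 (.node (.node (.node .leaf 134209986 .leaf) 134209988 .leaf) 134209992 (.node .leaf 134210097 .leaf)))) 134210098 (.node (.node (.node (.node (.node .leaf 134210100 .leaf) 134210104 .leaf) 134210129 (.node .leaf 134210130 .leaf)) 134210132 (.node (.node (.node .leaf 134210136 .leaf) 134210145 .leaf) 134210146 (.node .leaf 134210148 .leaf))) 134210152 (.node (.node (.node (.node .leaf 134210193 .leaf) 134210194 .leaf) 134210196 (.node .leaf 134210200 .leaf)) 134210209 (.node (.node .leaf 134210210 .leaf) 134210212 (.node .leaf 134210216 .leaf))))))))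

/-- A block of the table. -/
def xt10 : NatTree :=
  (.node (.node (.node (.node (.node (.node (.node (.node (.node .leaf 134210242 .leaf) 134210244 .leaf) 134210248 (.node .leaf 134210321 .leaf)) 134210322 (.node (.node (.node .leaf 134210324 .leaf) 134210328 .leaf) 134210337 (.node .leaf 134210338 .leaf))) 134210340 (.node (.node (.node (.node .leaf 134210344 .leaf) 134210369 .leaf) 134210370 (.node .leaf 134210372 .leaf)) 134210376 (.node (.node (.node .leaf 134210433 .leaf) 134210434 .leaf) 134210436 (.node .leaf 134210440 .leaf)))) 251641859 (.node (.node (.node (.node (.node .leaf 251641861 .leaf) 251641862 .leaf) 251642337 (.node .leaf 251642338 .leaf)) 251642340 (.node (.node (.node .leaf 251642593 .leaf) 251642594 .leaf) 251642596 (.node .leaf 251642721 .leaf))) 251642722 (.node (.node (.node (.node .leaf 251642724 .leaf) 251642785 .leaf) 251642786 (.node .leaf 251642788 .leaf)) 251642817 (.node (.node (.node .leaf 251642818 .leaf) 251642820 .leaf) 251643105 (.node .leaf 251643106 .leaf))))) 251643108 (.node (.node (.node (.node (.node (.node .leaf 251643233 .leaf)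 251643234 .leaf) 251643236 (.node .leaf 251643297 .leaf)) 251643298 (.node (.node (.node .leaf 251643300 .leaf) 251643329 .leaf) 251643330 (.node .leaf 251643332 .leaf))) 251643489 (.node (.node (.node (.node .leaf 251643490 .leaf) 251643492 .leaf) 251643553 (.node .leaf 251643554 .leaf)) 251643556 (.node (.node (.node .leaf 251643585 .leaf) 251643586 .leaf) 251643588 (.node .leaf 251643681 .leaf)))) 251643682 (.node (.node (.node (.node (.node .leaf 251643684 .leaf) 251643713 .leaf) 251643714 (.node .leaf 251643716 .leaf)) 251643777 (.node (.node (.node .leaf 251643778 .leaf) 251643780 .leaf) 251650153 (.node .leaf 251650154 .leaf))) 251650156 (.node (.node (.node (.node .leaf 251650217 .leaf) 251650218 .leaf) 251650220 (.node .leaf 251650249 .leaf)) 251650250 (.node (.node .leaf 251650252 .leaf) 251650345 (.node .leaf 251650346 .leaf)))))) 251650348 (.node (.node (.node (.node (.node (.node (.node .leaf 251650377 .leaf) 251650378 .leaf) 251650380 (.node .leaf 251650441 .leaf)) 251650442 (.node (.node (.node .leaf 251650444 .leaf) 251650601 .leaf) 251650602 (.node .leaf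 251650604 .leaf))) 251650633 (.node (.node (.node (.node .leaf 251650634 .leaf) 251650636 .leaf) 251650697 (.node .leaf 251650698 .leaf)) 251650700 (.node (.node (.node .leaf 251650825 .leaf) 251650826 .leaf) 251650828 (.node .leaf 266321923 .leaf)))) 266321925 (.node (.node (.node (.node (.node .leaf 266321926 .leaf) 266322353 .leaf) 266322354 (.node .leaf 266322356 .leaf)) 266322385 (.node (.node (.node .leaf 266322386 .leaf) 266322388 .leaf) 266322609 (.node .leaf 266322610 .leaf))) 266322612 (.node (.node (.node (.node .leaf 266322641 .leaf) 266322642 .leaf) 266322644 (.node .leaf 266322737 .leaf)) 266322738 (.node (.node (.node .leaf 266322740 .leaf) 266322769 .leaf) 266322770 (.node .leaf 266322772 .leaf))))) 266322833 (.node (.node (.node (.node (.node (.node .leaf 266322834 .leaf) 266322836 .leaf) 266322849 (.node .leaf 266322850 .leaf)) 266322852 (.node (.node (.node .leaf 266322881 .leaf) 266322882 .leaf) 266322884 (.node .leaf 266323121 .leaf))) 266323122 (.node (.node (.node (.node .leaf 266323124 .leaf) 266323153 .leaf) 266323154 (.node .leaf 266323156 .leaf))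 266323249 (.node (.node (.node .leaf 266323250 .leaf) 266323252 .leaf) 266323281 (.node .leaf 266323282 .leaf)))) 266323284 (.node (.node (.node (.node (.node .leaf 266323345 .leaf) 266323346 .leaf) 266323348 (.node .leaf 266323361 .leaf)) 266323362 (.node (.node (.node .leaf 266323364 .leaf) 266323393 .leaf) 266323394 (.node .leaf 266323396 .leaf))) 266323505 (.node (.node (.node (.node .leaf 266323506 .leaf) 266323508 .leaf) 266323537 (.node .leaf 266323538 .leaf)) 266323540 (.node (.node .leaf 266323601 .leaf) 266323602 (.node .leaf 266323604 .leaf))))))) 266323617 (.node (.node (.node (.node (.node (.node (.node (.node .leaf 266323618 .leaf) 266323620 .leaf) 266323649 (.node .leaf 266323650 .leaf)) 266323652 (.node (.node (.node .leaf 266323729 .leaf) 266323730 .leaf) 266323732 (.node .leaf 266323745 .leaf))) 266323746 (.node (.node (.node (.node .leaf 266323748 .leaf) 266323777 .leaf) 266323778 (.node .leaf 266323780 .leaf)) 266323841 (.node (.node (.node .leaf 266323842 .leaf) 266323844 .leaf) 266330169 (.node .leaf 266330170 .leaf)))) 266330172 (.node (.node (.node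 (.node (.node .leaf 266330201 .leaf) 266330202 .leaf) 266330204 (.node .leaf 266330265 .leaf)) 266330266 (.node (.node (.node .leaf 266330268 .leaf) 266330281 .leaf) 266330282 (.node .leaf 266330284 .leaf))) 266330313 (.node (.node (.node (.node .leaf 266330314 .leaf) 266330316 .leaf) 266330393 (.node .leaf 266330394 .leaf)) 266330396 (.node (.node (.node .leaf 266330409 .leaf) 266330410 .leaf) 266330412 (.node .leaf 266330441 .leaf))))) 266330442 (.node (.node (.node (.node (.node (.node .leaf 266330444 .leaf) 266330505 .leaf) 266330506 (.node .leaf 266330508 .leaf)) 266330649 (.node (.node (.node .leaf 266330650 .leaf) 266330652 .leaf) 266330665 (.node .leaf 266330666 .leaf))) 266330668 (.node (.node (.node (.node .leaf 266330697 .leaf) 266330698 .leaf) 266330700 (.node .leaf 266330761 .leaf)) 266330762 (.node (.node (.node .leaf 266330764 .leaf) 266330889 .leaf) 266330890 (.node .leaf 266330892 .leaf)))) 268402691 (.node (.node (.node (.node (.node .leaf 268402693 .leaf) 268402694 .leaf) 268403057 (.node .leaf 268403058 .leaf)) 268403060 (.node (.node (.node .leaf 268403313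 .leaf) 268403314 .leaf) 268403316 (.node .leaf 268403505 .leaf))) 268403506 (.node (.node (.node (.node .leaf 268403508 .leaf) 268403537 .leaf) 268403538 (.node .leaf 268403540 .leaf)) 268403553 (.node (.node .leaf 268403554 .leaf) 268403556 (.node .leaf 268403825 .leaf)))))) 268403826 (.node (.node (.node (.node (.node (.node (.node .leaf 268403828 .leaf) 268404017 .leaf) 268404018 (.node .leaf 268404020 .leaf)) 268404049 (.node (.node (.node .leaf 268404050 .leaf) 268404052 .leaf) 268404065 (.node .leaf 268404066 .leaf))) 268404068 (.node (.node (.node (.node .leaf 268404273 .leaf) 268404274 .leaf) 268404276 (.node .leaf 268404305 .leaf)) 268404306 (.node (.node (.node .leaf 268404308 .leaf) 268404321 .leaf) 268404322 (.node .leaf 268404324 .leaf)))) 268404497 (.node (.node (.node (.node (.node .leaf 268404498 .leaf) 268404500 .leaf) 268404513 (.node .leaf 268404514 .leaf)) 268404516 (.node (.node (.node .leaf 268404545 .leaf) 268404546 .leaf) 268404548 (.node .leaf 268410937 .leaf))) 268410938 (.node (.node (.node (.node .leaf 268410940 .leaf) 268410969 .leaf) 268410970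 (.node .leaf 268410972 .leaf)) 268410985 (.node (.node .leaf 268410986 .leaf) 268410988 (.node .leaf 268411161 .leaf))))) 268411162 (.node (.node (.node (.node (.node (.node .leaf 268411164 .leaf) 268411177 .leaf) 268411178 (.node .leaf 268411180 .leaf)) 268411209 (.node (.node (.node .leaf 268411210 .leaf) 268411212 .leaf) 268411417 (.node .leaf 268411418 .leaf))) 268411420 (.node (.node (.node (.node .leaf 268411433 .leaf) 268411434 .leaf) 268411436 (.node .leaf 268411465 .leaf)) 268411466 (.node (.node (.node .leaf 268411468 .leaf) 268411657 .leaf) 268411658 (.node .leaf 268411660 .leaf)))) 268419129 (.node (.node (.node (.node (.node .leaf 268419130 .leaf) 268419132 .leaf) 268419161 (.node .leaf 268419162 .leaf)) 268419164 (.node (.node (.node .leaf 268419177 .leaf) 268419178 .leaf) 268419180 (.node .leaf 268419185 .leaf))) 268419186 (.node (.node (.node (.node .leaf 268419188 .leaf) 268419225 .leaf) 268419226 (.node .leaf 268419228 .leaf)) 268419241 (.node (.node .leaf 268419242 .leaf) 268419244 (.node .leaf 268419249 .leaf))))))))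

/-- A block of the table. -/
def xt11 : NatTree :=
  (.node (.node (.node (.node (.node (.node (.node (.node (.node .leaf 268419252 .leaf) 268419273 .leaf) 268419274 (.node .leaf 268419276 .leaf)) 268419281 (.node (.node (.node .leaf 268419282 .leaf) 268419284 .leaf) 268419297 (.node .leaf 268419298 .leaf))) 268419300 (.node (.node (.node (.node .leaf 268419353 .leaf) 268419354 .leaf) 268419356 (.node .leaf 268419369 .leaf)) 268419370 (.node (.node (.node .leaf 268419372 .leaf) 268419377 .leaf) 268419378 (.node .leaf 268419380 .leaf)))) 268419401 (.node (.node (.node (.node (.node .leaf 268419402 .leaf) 268419404 .leaf) 268419409 (.node .leaf 268419410 .leaf)) 268419412 (.node (.node (.node .leaf 268419425 .leaf) 268419426 .leaf) 268419428 (.node .leaf 268419465 .leaf))) 268419466 (.node (.node (.node (.node .leaf 268419468 .leaf) 268419473 .leaf) 268419474 (.node .leaf 268419476 .leaf)) 268419489 (.node (.node (.node .leaf 268419490 .leaf) 268419492 .leaf) 268419521 (.node .leaf 268419522 .leaf))))) 268419524 (.node (.node (.node (.node (.node (.node .leaf 268419609 .leaf)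 268419610 .leaf) 268419612 (.node .leaf 268419625 .leaf)) 268419626 (.node (.node (.node .leaf 268419628 .leaf) 268419633 .leaf) 268419634 (.node .leaf 268419636 .leaf))) 268419657 (.node (.node (.node (.node .leaf 268419658 .leaf) 268419660 .leaf) 268419665 (.node .leaf 268419666 .leaf)) 268419668 (.node (.node (.node .leaf 268419681 .leaf) 268419682 .leaf) 268419684 (.node .leaf 268419721 .leaf)))) 268419722 (.node (.node (.node (.node (.node .leaf 268419724 .leaf) 268419729 .leaf) 268419730 (.node .leaf 268419732 .leaf)) 268419745 (.node (.node (.node .leaf 268419746 .leaf) 268419748 .leaf) 268419777 (.node .leaf 268419778 .leaf))) 268419780 (.node (.node (.node (.node .leaf 268419857 .leaf) 268419858 .leaf) 268419860 (.node .leaf 268419873 .leaf)) 268419874 (.node (.node .leaf 268419876 .leaf) 268419905 (.node .leaf 268419906 .leaf)))))) 268419908 (.node (.node (.node (.node (.node (.node (.node .leaf 268419969 .leaf) 268419970 .leaf) 268419972 (.node .leaf 268421104 .leaf)) 268422128 (.node (.node (.node .leaf 268422640 .leaf) 268422896 .leaf) 268423024 (.node .leaf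 268423088 .leaf))) 268423120 (.node (.node (.node (.node .leaf 268423136 .leaf) 268427289 .leaf) 268427290 (.node .leaf 268427292 .leaf)) 268427305 (.node (.node (.node .leaf 268427306 .leaf) 268427308 .leaf) 268427337 (.node .leaf 268427338 .leaf)))) 268427340 (.node (.node (.node (.node (.node .leaf 268427401 .leaf) 268427402 .leaf) 268427404 (.node .leaf 268427529 .leaf)) 268427530 (.node (.node (.node .leaf 268427532 .leaf) 268427768 .leaf) 268428024 (.node .leaf 268428152 .leaf))) 268428216 (.node (.node (.node (.node .leaf 268428248 .leaf) 268428264 .leaf) 268428536 (.node .leaf 268428664 .leaf)) 268428728 (.node (.node .leaf 268428760 .leaf) 268428776 (.node .leaf 268428920 .leaf))))) 268428984 (.node (.node (.node (.node (.node (.node .leaf 268429016 .leaf) 268429032 .leaf) 268429112 (.node .leaf 268429144 .leaf)) 268429160 (.node (.node (.node .leaf 268429208 .leaf) 268429224 .leaf) 268429256 (.node .leaf 536854547 .leaf))) 536854549 (.node (.node (.node (.node .leaf 536854550 .leaf) 536854563 .leaf) 536854565 (.node .leaf 536854566 .leaf)) 536854595 (.node (.node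 (.node .leaf 536854597 .leaf) 536854598 .leaf) 536854659 (.node .leaf 536854661 .leaf)))) 536854662 (.node (.node (.node (.node (.node .leaf 536854787 .leaf) 536854789 .leaf) 536854790 (.node .leaf 536855025 .leaf)) 536855026 (.node (.node (.node .leaf 536855028 .leaf) 536855281 .leaf) 536855282 (.node .leaf 536855284 .leaf))) 536855409 (.node (.node (.node (.node .leaf 536855410 .leaf) 536855412 .leaf) 536855473 (.node .leaf 536855474 .leaf)) 536855476 (.node (.node .leaf 536855505 .leaf) 536855506 (.node .leaf 536855508 .leaf))))))) 536855521 (.node (.node (.node (.node (.node (.node (.node (.node .leaf 536855522 .leaf) 536855524 .leaf) 536855793 (.node .leaf 536855794 .leaf)) 536855796 (.node (.node (.node .leaf 536855921 .leaf) 536855922 .leaf) 536855924 (.node .leaf 536855985 .leaf))) 536855986 (.node (.node (.node (.node .leaf 536855988 .leaf) 536856017 .leaf) 536856018 (.node .leaf 536856020 .leaf)) 536856033 (.node (.node (.node .leaf 536856034 .leaf) 536856036 .leaf) 536856177 (.node .leaf 536856178 .leaf)))) 536856180 (.node (.node (.node (.node (.node .leaf 536856241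 .leaf) 536856242 .leaf) 536856244 (.node .leaf 536856273 .leaf)) 536856274 (.node (.node (.node .leaf 536856276 .leaf) 536856289 .leaf) 536856290 (.node .leaf 536856292 .leaf))) 536856369 (.node (.node (.node (.node .leaf 536856370 .leaf) 536856372 .leaf) 536856401 (.node .leaf 536856402 .leaf)) 536856404 (.node (.node (.node .leaf 536856417 .leaf) 536856418 .leaf) 536856420 (.node .leaf 536856465 .leaf))))) 536856466 (.node (.node (.node (.node (.node (.node .leaf 536856468 .leaf) 536856481 .leaf) 536856482 (.node .leaf 536856484 .leaf)) 536856513 (.node (.node (.node .leaf 536856514 .leaf) 536856516 .leaf) 536862841 (.node .leaf 536862842 .leaf))) 536862844 (.node (.node (.node (.node .leaf 536862905 .leaf) 536862906 .leaf) 536862908 (.node .leaf 536862937 .leaf)) 536862938 (.node (.node (.node .leaf 536862940 .leaf) 536862953 .leaf) 536862954 (.node .leaf 536862956 .leaf)))) 536863033 (.node (.node (.node (.node (.node .leaf 536863034 .leaf) 536863036 .leaf) 536863065 (.node .leaf 536863066 .leaf)) 536863068 (.node (.node (.node .leaf 536863081 .leaf) 536863082 .leaf)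 536863084 (.node .leaf 536863129 .leaf))) 536863130 (.node (.node (.node (.node .leaf 536863132 .leaf) 536863145 .leaf) 536863146 (.node .leaf 536863148 .leaf)) 536863177 (.node (.node .leaf 536863178 .leaf) 536863180 (.node .leaf 536863289 .leaf)))))) 536863290 (.node (.node (.node (.node (.node (.node (.node .leaf 536863292 .leaf) 536863321 .leaf) 536863322 (.node .leaf 536863324 .leaf)) 536863337 (.node (.node (.node .leaf 536863338 .leaf) 536863340 .leaf) 536863385 (.node .leaf 536863386 .leaf))) 536863388 (.node (.node (.node (.node .leaf 536863401 .leaf) 536863402 .leaf) 536863404 (.node .leaf 536863433 .leaf)) 536863434 (.node (.node (.node .leaf 536863436 .leaf) 536863513 .leaf) 536863514 (.node .leaf 536863516 .leaf)))) 536863529 (.node (.node (.node (.node (.node .leaf 536863530 .leaf) 536863532 .leaf) 536863561 (.node .leaf 536863562 .leaf)) 536863564 (.node (.node (.node .leaf 536863625 .leaf) 536863626 .leaf) 536863628 (.node .leaf 671072369 .leaf))) 671072433 (.node (.node (.node (.node .leaf 671072465 .leaf) 671072481 .leaf) 671072561 (.node .leaf 671072593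 .leaf)) 671072609 (.node (.node .leaf 671072657 .leaf) 671072673 (.node .leaf 671072705 .leaf))))) 671072817 (.node (.node (.node (.node (.node (.node .leaf 671072849 .leaf) 671072865 .leaf) 671072913 (.node .leaf 671072929 .leaf)) 671072961 (.node (.node (.node .leaf 671073041 .leaf) 671073057 .leaf) 671073089 (.node .leaf 671073153 .leaf))) 671074288 (.node (.node (.node (.node .leaf 671075312 .leaf) 671075824 .leaf) 671076080 (.node .leaf 671076208 .leaf)) 671076272 (.node (.node (.node .leaf 671076304 .leaf) 671076320 .leaf) 671080473 (.node .leaf 671080489 .leaf)))) 671080521 (.node (.node (.node (.node (.node .leaf 671080585 .leaf) 671080713 .leaf) 671080952 (.node .leaf 671081208 .leaf)) 671081336 (.node (.node (.node .leaf 671081400 .leaf) 671081432 .leaf) 671081448 (.node .leaf 671081720 .leaf))) 671081848 (.node (.node (.node (.node .leaf 671081912 .leaf) 671081944 .leaf) 671081960 (.node .leaf 671082104 .leaf)) 671082168 (.node (.node .leaf 671082200 .leaf) 671082216 (.node .leaf 671082296 .leaf))))))))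

/-- A block of the table. -/
def xt12 : NatTree :=
  (.node (.node (.node (.node (.node (.node (.node (.node (.node .leaf 671082344 .leaf) 671082392 .leaf) 671082408 (.node .leaf 671082440 .leaf)) 805290003 (.node (.node (.node .leaf 805290005 .leaf) 805290019 .leaf) 805290021 (.node .leaf 805290051 .leaf))) 805290053 (.node (.node (.node (.node .leaf 805290115 .leaf) 805290117 .leaf) 805290243 (.node .leaf 805290245 .leaf)) 805290481 (.node (.node (.node .leaf 805290482 .leaf) 805290484 .leaf) 805290737 (.node .leaf 805290738 .leaf)))) 805290740 (.node (.node (.node (.node (.node .leaf 805290865 .leaf) 805290866 .leaf) 805290868 (.node .leaf 805290929 .leaf)) 805290930 (.node (.node (.node .leaf 805290932 .leaf) 805290961 .leaf) 805290962 (.node .leaf 805290964 .leaf))) 805290977 (.node (.node (.node (.node .leaf 805290978 .leaf) 805290980 .leaf) 805291249 (.node .leaf 805291250 .leaf)) 805291252 (.node (.node (.node .leaf 805291377 .leaf) 805291378 .leaf) 805291380 (.node .leaf 805291441 .leaf))))) 805291442 (.node (.node (.node (.node (.node (.node .leaf 805291444 .leaf)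 805291473 .leaf) 805291474 (.node .leaf 805291476 .leaf)) 805291489 (.node (.node (.node .leaf 805291490 .leaf) 805291492 .leaf) 805291633 (.node .leaf 805291634 .leaf))) 805291636 (.node (.node (.node (.node .leaf 805291697 .leaf) 805291698 .leaf) 805291700 (.node .leaf 805291729 .leaf)) 805291730 (.node (.node (.node .leaf 805291732 .leaf) 805291745 .leaf) 805291746 (.node .leaf 805291748 .leaf)))) 805291825 (.node (.node (.node (.node (.node .leaf 805291826 .leaf) 805291828 .leaf) 805291857 (.node .leaf 805291858 .leaf)) 805291860 (.node (.node (.node .leaf 805291873 .leaf) 805291874 .leaf) 805291876 (.node .leaf 805291921 .leaf))) 805291922 (.node (.node (.node (.node .leaf 805291924 .leaf) 805291937 .leaf) 805291938 (.node .leaf 805291940 .leaf)) 805291969 (.node (.node .leaf 805291970 .leaf) 805291972 (.node .leaf 805298160 .leaf)))))) 805298297 (.node (.node (.node (.node (.node (.node (.node .leaf 805298298 .leaf) 805298300 .leaf) 805298361 (.node .leaf 805298362 .leaf)) 805298364 (.node (.node (.node .leaf 805298393 .leaf) 805298394 .leaf) 805298396 (.node .leaf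 805298409 .leaf))) 805298410 (.node (.node (.node (.node .leaf 805298412 .leaf) 805298489 .leaf) 805298490 (.node .leaf 805298492 .leaf)) 805298521 (.node (.node (.node .leaf 805298522 .leaf) 805298524 .leaf) 805298537 (.node .leaf 805298538 .leaf)))) 805298540 (.node (.node (.node (.node (.node .leaf 805298585 .leaf) 805298586 .leaf) 805298588 (.node .leaf 805298601 .leaf)) 805298602 (.node (.node (.node .leaf 805298604 .leaf) 805298633 .leaf) 805298634 (.node .leaf 805298636 .leaf))) 805298745 (.node (.node (.node (.node .leaf 805298746 .leaf) 805298748 .leaf) 805298777 (.node .leaf 805298778 .leaf)) 805298780 (.node (.node (.node .leaf 805298793 .leaf) 805298794 .leaf) 805298796 (.node .leaf 805298841 .leaf))))) 805298842 (.node (.node (.node (.node (.node (.node .leaf 805298844 .leaf) 805298857 .leaf) 805298858 (.node .leaf 805298860 .leaf)) 805298889 (.node (.node (.node .leaf 805298890 .leaf) 805298892 .leaf) 805298969 (.node .leaf 805298970 .leaf))) 805298972 (.node (.node (.node (.node .leaf 805298985 .leaf) 805298986 .leaf) 805298988 (.node .leaf 805299017 .leaf))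 805299018 (.node (.node (.node .leaf 805299020 .leaf) 805299081 .leaf) 805299082 (.node .leaf 805299084 .leaf)))) 805300216 (.node (.node (.node (.node (.node .leaf 805301240 .leaf) 805301752 .leaf) 805302008 (.node .leaf 805302136 .leaf)) 805302200 (.node (.node (.node .leaf 805302232 .leaf) 805302248 .leaf) 1073725557 (.node .leaf 1073725558 .leaf))) 1073725621 (.node (.node (.node (.node .leaf 1073725622 .leaf) 1073725653 .leaf) 1073725654 (.node .leaf 1073725669 .leaf)) 1073725670 (.node (.node .leaf 1073725749 .leaf) 1073725750 (.node .leaf 1073725781 .leaf))))))) 1073725782 (.node (.node (.node (.node (.node (.node (.node (.node .leaf 1073725797 .leaf) 1073725798 .leaf) 1073725845 (.node .leaf 1073725846 .leaf)) 1073725861 (.node (.node (.node .leaf 1073725862 .leaf) 1073725893 .leaf) 1073725894 (.node .leaf 1073726005 .leaf))) 1073726006 (.node (.node (.node (.node .leaf 1073726037 .leaf) 1073726038 .leaf) 1073726053 (.node .leaf 1073726054 .leaf)) 1073726101 (.node (.node (.node .leaf 1073726102 .leaf) 1073726117 .leaf) 1073726118 (.node .leaf 1073726149 .leaf))))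 1073726150 (.node (.node (.node (.node (.node .leaf 1073726229 .leaf) 1073726230 .leaf) 1073726245 (.node .leaf 1073726246 .leaf)) 1073726277 (.node (.node (.node .leaf 1073726278 .leaf) 1073726341 .leaf) 1073726342 (.node .leaf 1073727476 .leaf))) 1073728500 (.node (.node (.node (.node .leaf 1073729012 .leaf) 1073729268 .leaf) 1073729396 (.node .leaf 1073729460 .leaf)) 1073729492 (.node (.node (.node .leaf 1073729508 .leaf) 1073733661 .leaf) 1073733662 (.node .leaf 1073733677 .leaf))))) 1073733678 (.node (.node (.node (.node (.node (.node .leaf 1073733709 .leaf) 1073733710 .leaf) 1073733773 (.node .leaf 1073733774 .leaf)) 1073733901 (.node (.node (.node .leaf 1073733902 .leaf) 1073734140 .leaf) 1073734396 (.node .leaf 1073734524 .leaf))) 1073734588 (.node (.node (.node (.node .leaf 1073734620 .leaf) 1073734636 .leaf) 1073734908 (.node .leaf 1073735036 .leaf)) 1073735100 (.node (.node (.node .leaf 1073735132 .leaf) 1073735148 .leaf) 1073735292 (.node .leaf 1073735356 .leaf)))) 1073735388 (.node (.node (.node (.node (.node .leaf 1073735404 .leaf) 1073735484 .leaf) 1073735516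 (.node .leaf 1073735532 .leaf)) 1073735580 (.node (.node (.node .leaf 1073735596 .leaf) 1073735628 .leaf) 1342161393 (.node .leaf 1342161649 .leaf))) 1342161777 (.node (.node (.node (.node .leaf 1342161841 .leaf) 1342161873 .leaf) 1342161889 (.node .leaf 1342162161 .leaf)) 1342162289 (.node (.node .leaf 1342162353 .leaf) 1342162385 (.node .leaf 1342162401 .leaf)))))) 1342162545 (.node (.node (.node (.node (.node (.node (.node .leaf 1342162609 .leaf) 1342162641 .leaf) 1342162657 (.node .leaf 1342162737 .leaf)) 1342162769 (.node (.node (.node .leaf 1342162785 .leaf) 1342162833 .leaf) 1342162849 (.node .leaf 1342162881 .leaf))) 1342169072 (.node (.node (.node (.node .leaf 1342169209 .leaf) 1342169273 .leaf) 1342169305 (.node .leaf 1342169321 .leaf)) 1342169401 (.node (.node (.node .leaf 1342169433 .leaf) 1342169449 .leaf) 1342169497 (.node .leaf 1342169513 .leaf)))) 1342169545 (.node (.node (.node (.node (.node .leaf 1342169657 .leaf) 1342169689 .leaf) 1342169705 (.node .leaf 1342169753 .leaf)) 1342169769 (.node (.node (.node .leaf 1342169801 .leaf) 1342169881 .leaf) 1342169897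 (.node .leaf 1342169929 .leaf))) 1342169993 (.node (.node (.node (.node .leaf 1342171128 .leaf) 1342172152 .leaf) 1342172664 (.node .leaf 1342172920 .leaf)) 1342173048 (.node (.node .leaf 1342173112 .leaf) 1342173144 (.node .leaf 1342173160 .leaf))))) 1610596467 (.node (.node (.node (.node (.node (.node .leaf 1610596469 .leaf) 1610596531 .leaf) 1610596533 (.node .leaf 1610596563 .leaf)) 1610596565 (.node (.node (.node .leaf 1610596579 .leaf) 1610596581 .leaf) 1610596659 (.node .leaf 1610596661 .leaf))) 1610596691 (.node (.node (.node (.node .leaf 1610596693 .leaf) 1610596707 .leaf) 1610596709 (.node .leaf 1610596755 .leaf)) 1610596757 (.node (.node (.node .leaf 1610596771 .leaf) 1610596773 .leaf) 1610596803 (.node .leaf 1610596805 .leaf)))) 1610596915 (.node (.node (.node (.node (.node .leaf 1610596917 .leaf) 1610596947 .leaf) 1610596949 (.node .leaf 1610596963 .leaf)) 1610596965 (.node (.node (.node .leaf 1610597011 .leaf) 1610597013 .leaf) 1610597027 (.node .leaf 1610597029 .leaf))) 1610597059 (.node (.node (.node (.node .leaf 1610597061 .leaf) 1610597139 .leaf) 1610597141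 (.node .leaf 1610597155 .leaf)) 1610597157 (.node (.node .leaf 1610597187 .leaf) 1610597189 (.node .leaf 1610597251 .leaf))))))))

/-- A block of the table. -/
def xt13 : NatTree :=
  (.node (.node (.node (.node (.node (.node (.node (.node (.node .leaf 1610598386 .leaf) 1610598388 .leaf) 1610599410 (.node .leaf 1610599412 .leaf)) 1610599922 (.node (.node (.node .leaf 1610599924 .leaf) 1610600178 .leaf) 1610600180 (.node .leaf 1610600306 .leaf))) 1610600308 (.node (.node (.node (.node .leaf 1610600370 .leaf) 1610600372 .leaf) 1610600402 (.node .leaf 1610600404 .leaf)) 1610600418 (.node (.node (.node .leaf 1610600420 .leaf) 1610604571 .leaf) 1610604573 (.node .leaf 1610604587 .leaf)))) 1610604589 (.node (.node (.node (.node (.node .leaf 1610604619 .leaf) 1610604621 .leaf) 1610604683 (.node .leaf 1610604685 .leaf)) 1610604811 (.node (.node (.node .leaf 1610604813 .leaf) 1610605050 .leaf) 1610605052 (.node .leaf 1610605306 .leaf))) 1610605308 (.node (.node (.node (.node .leaf 1610605434 .leaf) 1610605436 .leaf) 1610605498 (.node .leaf 1610605500 .leaf)) 1610605530 (.node (.node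 (.node .leaf 1610605532 .leaf) 1610605546 .leaf) 1610605548 (.node .leaf 1610605818 .leaf))))) 1610605820 (.node (.node (.node (.node (.node (.node .leaf 1610605946 .leaf) 1610605948 .leaf) 1610606010 (.node .leaf 1610606012 .leaf)) 1610606042 (.node (.node (.node .leaf 1610606044 .leaf) 1610606058 .leaf) 1610606060 (.node .leaf 1610606202 .leaf))) 1610606204 (.node (.node (.node (.node .leaf 1610606266 .leaf) 1610606268 .leaf) 1610606298 (.node .leaf 1610606300 .leaf)) 1610606314 (.node (.node (.node .leaf 1610606316 .leaf) 1610606394 .leaf) 1610606396 (.node .leaf 1610606426 .leaf)))) 1610606428 (.node (.node (.node (.node (.node .leaf 1610606442 .leaf) 1610606444 .leaf) 1610606490 (.node .leaf 1610606492 .leaf)) 1610606506 (.node (.node (.node .leaf 1610606508 .leaf) 1610606538 .leaf) 1610606540 (.node .leaf 1744814577 .leaf))) 1744814833 (.node (.node (.node (.node .leaf 1744814961 .leaf) 1744815025 .leaf) 1744815057 (.node .leaf 1744815073 .leaf)) 1744815345 (.node (.node .leaf 1744815473 .leaf) 1744815537 (.node .leaf 1744815569 .leaf)))))) 1744815585 (.node (.node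 (.node (.node (.node (.node (.node .leaf 1744815729 .leaf) 1744815793 .leaf) 1744815825 (.node .leaf 1744815841 .leaf)) 1744815921 (.node (.node (.node .leaf 1744815953 .leaf) 1744815969 .leaf) 1744816017 (.node .leaf 1744816033 .leaf))) 1744816065 (.node (.node (.node (.node .leaf 1744822256 .leaf) 1744822393 .leaf) 1744822457 (.node .leaf 1744822489 .leaf)) 1744822505 (.node (.node (.node .leaf 1744822585 .leaf) 1744822617 .leaf) 1744822633 (.node .leaf 1744822681 .leaf)))) 1744822697 (.node (.node (.node (.node (.node .leaf 1744822729 .leaf) 1744822841 .leaf) 1744822873 (.node .leaf 1744822889 .leaf)) 1744822937 (.node (.node (.node .leaf 1744822953 .leaf) 1744822985 .leaf) 1744823065 (.node .leaf 1744823081 .leaf))) 1744823113 (.node (.node (.node (.node .leaf 1744823177 .leaf) 1744824312 .leaf) 1744825336 (.node .leaf 1744825848 .leaf)) 1744826104 (.node (.node .leaf 1744826232 .leaf) 1744826296 (.node .leaf 1744826328 .leaf))))) 1744826344 (.node (.node (.node (.node (.node (.node .leaf 1879031923 .leaf) 1879031925 .leaf) 1879031987 (.node .leaf 1879031989 .leaf)) 1879032019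 (.node (.node (.node .leaf 1879032021 .leaf) 1879032035 .leaf) 1879032037 (.node .leaf 1879032115 .leaf))) 1879032117 (.node (.node (.node (.node .leaf 1879032147 .leaf) 1879032149 .leaf) 1879032163 (.node .leaf 1879032165 .leaf)) 1879032211 (.node (.node (.node .leaf 1879032213 .leaf) 1879032227 .leaf) 1879032229 (.node .leaf 1879032259 .leaf)))) 1879032261 (.node (.node (.node (.node (.node .leaf 1879032371 .leaf) 1879032373 .leaf) 1879032403 (.node .leaf 1879032405 .leaf)) 1879032419 (.node (.node (.node .leaf 1879032421 .leaf) 1879032467 .leaf) 1879032469 (.node .leaf 1879032483 .leaf))) 1879032485 (.node (.node (.node (.node .leaf 1879032515 .leaf) 1879032517 .leaf) 1879032595 (.node .leaf 1879032597 .leaf)) 1879032611 (.node (.node .leaf 1879032613 .leaf) 1879032643 (.node .leaf 1879032645 .leaf))))))) 1879032707 (.node (.node (.node (.node (.node (.node (.node (.node .leaf 1879032709 .leaf) 1879033841 .leaf) 1879033842 (.node .leaf 1879033844 .leaf)) 1879034865 (.node (.node (.node .leaf 1879034866 .leaf) 1879034868 .leaf) 1879035377 (.node .leaf 1879035378 .leaf)))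 1879035380 (.node (.node (.node (.node .leaf 1879035633 .leaf) 1879035634 .leaf) 1879035636 (.node .leaf 1879035761 .leaf)) 1879035762 (.node (.node (.node .leaf 1879035764 .leaf) 1879035825 .leaf) 1879035826 (.node .leaf 1879035828 .leaf)))) 1879035857 (.node (.node (.node (.node (.node .leaf 1879035858 .leaf) 1879035860 .leaf) 1879035873 (.node .leaf 1879035874 .leaf)) 1879035876 (.node (.node (.node .leaf 1879040027 .leaf) 1879040029 .leaf) 1879040043 (.node .leaf 1879040045 .leaf))) 1879040075 (.node (.node (.node (.node .leaf 1879040077 .leaf) 1879040139 .leaf) 1879040141 (.node .leaf 1879040267 .leaf)) 1879040269 (.node (.node (.node .leaf 1879040505 .leaf) 1879040506 .leaf) 1879040508 (.node .leaf 1879040761 .leaf))))) 1879040762 (.node (.node (.node (.node (.node (.node .leaf 1879040764 .leaf) 1879040889 .leaf) 1879040890 (.node .leaf 1879040892 .leaf)) 1879040953 (.node (.node (.node .leaf 1879040954 .leaf) 1879040956 .leaf) 1879040985 (.node .leaf 1879040986 .leaf))) 1879040988 (.node (.node (.node (.node .leaf 1879041001 .leaf) 1879041002 .leaf) 1879041004 (.node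 .leaf 1879041273 .leaf)) 1879041274 (.node (.node (.node .leaf 1879041276 .leaf) 1879041401 .leaf) 1879041402 (.node .leaf 1879041404 .leaf)))) 1879041465 (.node (.node (.node (.node (.node .leaf 1879041466 .leaf) 1879041468 .leaf) 1879041497 (.node .leaf 1879041498 .leaf)) 1879041500 (.node (.node (.node .leaf 1879041513 .leaf) 1879041514 .leaf) 1879041516 (.node .leaf 1879041657 .leaf))) 1879041658 (.node (.node (.node (.node .leaf 1879041660 .leaf) 1879041721 .leaf) 1879041722 (.node .leaf 1879041724 .leaf)) 1879041753 (.node (.node .leaf 1879041754 .leaf) 1879041756 (.node .leaf 1879041769 .leaf)))))) 1879041770 (.node (.node (.node (.node (.node (.node (.node .leaf 1879041772 .leaf) 1879041849 .leaf) 1879041850 (.node .leaf 1879041852 .leaf)) 1879041881 (.node (.node (.node .leaf 1879041882 .leaf) 1879041884 .leaf) 1879041897 (.node .leaf 1879041898 .leaf))) 1879041900 (.node (.node (.node (.node .leaf 1879041945 .leaf) 1879041946 .leaf) 1879041948 (.node .leaf 1879041961 .leaf)) 1879041962 (.node (.node (.node .leaf 1879041964 .leaf) 1879041993 .leaf) 1879041994 (.node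 .leaf 1879041996 .leaf)))) 2147467287 (.node (.node (.node (.node (.node .leaf 2147467303 .leaf) 2147467335 .leaf) 2147467399 (.node .leaf 2147467527 .leaf)) 2147467765 (.node (.node (.node .leaf 2147467766 .leaf) 2147468021 .leaf) 2147468022 (.node .leaf 2147468149 .leaf))) 2147468150 (.node (.node (.node (.node .leaf 2147468213 .leaf) 2147468214 .leaf) 2147468245 (.node .leaf 2147468246 .leaf)) 2147468261 (.node (.node .leaf 2147468262 .leaf) 2147468533 (.node .leaf 2147468534 .leaf))))) 2147468661 (.node (.node (.node (.node (.node (.node .leaf 2147468662 .leaf) 2147468725 .leaf) 2147468726 (.node .leaf 2147468757 .leaf)) 2147468758 (.node (.node (.node .leaf 2147468773 .leaf) 2147468774 .leaf) 2147468917 (.node .leaf 2147468918 .leaf))) 2147468981 (.node (.node (.node (.node .leaf 2147468982 .leaf) 2147469013 .leaf) 2147469014 (.node .leaf 2147469029 .leaf)) 2147469030 (.node (.node (.node .leaf 2147469109 .leaf) 2147469110 .leaf) 2147469141 (.node .leaf 2147469142 .leaf)))) 2147469157 (.node (.node (.node (.node (.node .leaf 2147469158 .leaf) 2147469205 .leaf) 2147469206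 (.node .leaf 2147469221 .leaf)) 2147469222 (.node (.node (.node .leaf 2147469253 .leaf) 2147469254 .leaf) 2147475581 (.node .leaf 2147475582 .leaf))) 2147475645 (.node (.node (.node (.node .leaf 2147475646 .leaf) 2147475677 .leaf) 2147475678 (.node .leaf 2147475693 .leaf)) 2147475694 (.node (.node .leaf 2147475773 .leaf) 2147475774 (.node .leaf 2147475805 .leaf))))))))

/-- A block of the table. -/
def xt14 : NatTree :=
  (.node (.node (.node (.node (.node (.node (.node (.node (.node .leaf 2147475821 .leaf) 2147475822 .leaf) 2147475869 (.node .leaf 2147475870 .leaf)) 2147475885 (.node (.node (.node .leaf 2147475886 .leaf) 2147475917 .leaf) 2147475918 (.node .leaf 2147476029 .leaf))) 2147476030 (.node (.node (.node (.node .leaf 2147476061 .leaf) 2147476062 .leaf) 2147476077 (.node .leaf 2147476078 .leaf)) 2147476125 (.node (.node (.node .leaf 2147476126 .leaf) 2147476141 .leaf) 2147476142 (.node .leaf 2147476173 .leaf)))) 2147476174 (.node (.node (.node (.node (.node .leaf 2147476253 .leaf) 2147476254 .leaf) 2147476269 (.node .leaf 2147476270 .leaf)) 2147476301 (.node (.node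 (.node .leaf 2147476302 .leaf) 2147476365 .leaf) 2147476366 (.node .leaf 3489646577 .leaf))) 3489647601 (.node (.node (.node (.node .leaf 3489648113 .leaf) 3489648369 .leaf) 3489648497 (.node .leaf 3489648561 .leaf)) 3489648593 (.node (.node (.node .leaf 3489648609 .leaf) 3489653241 .leaf) 3489653497 (.node .leaf 3489653625 .leaf))))) 3489653689 (.node (.node (.node (.node (.node (.node .leaf 3489653721 .leaf) 3489653737 .leaf) 3489654009 (.node .leaf 3489654137 .leaf)) 3489654201 (.node (.node (.node .leaf 3489654233 .leaf) 3489654249 .leaf) 3489654393 (.node .leaf 3489654457 .leaf))) 3489654489 (.node (.node (.node (.node .leaf 3489654505 .leaf) 3489654585 .leaf) 3489654617 (.node .leaf 3489654633 .leaf)) 3489654681 (.node (.node (.node .leaf 3489654697 .leaf) 3489654729 .leaf) 3489660920 (.node .leaf 3758080501 .leaf)))) 3758080757 (.node (.node (.node (.node (.node .leaf 3758080885 .leaf) 3758080949 .leaf) 3758080981 (.node .leaf 3758080997 .leaf)) 3758081269 (.node (.node (.node .leaf 3758081397 .leaf) 3758081461 .leaf) 3758081493 (.node .leaf 3758081509 .leaf))) 3758081653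 (.node (.node (.node (.node .leaf 3758081717 .leaf) 3758081749 .leaf) 3758081765 (.node .leaf 3758081845 .leaf)) 3758081877 (.node (.node .leaf 3758081893 .leaf) 3758081941 (.node .leaf 3758081957 .leaf)))))) 3758081989 (.node (.node (.node (.node (.node (.node (.node .leaf 3758088180 .leaf) 3758088317 .leaf) 3758088381 (.node .leaf 3758088413 .leaf)) 3758088429 (.node (.node (.node .leaf 3758088509 .leaf) 3758088541 .leaf) 3758088557 (.node .leaf 3758088605 .leaf))) 3758088621 (.node (.node (.node (.node .leaf 3758088653 .leaf) 3758088765 .leaf) 3758088797 (.node .leaf 3758088813 .leaf)) 3758088861 (.node (.node (.node .leaf 3758088877 .leaf) 3758088909 .leaf) 3758088989 (.node .leaf 3758089005 .leaf)))) 3758089037 (.node (.node (.node (.node (.node .leaf 3758089101 .leaf) 3758090236 .leaf) 3758091260 (.node .leaf 3758091772 .leaf)) 3758092028 (.node (.node (.node .leaf 3758092156 .leaf) 3758092220 .leaf) 3758092252 (.node .leaf 3758092268 .leaf))) 3892299761 (.node (.node (.node (.node .leaf 3892300785 .leaf) 3892301297 .leaf) 3892301553 (.node .leaf 3892301681 .leaf))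 3892301745 (.node (.node .leaf 3892301777 .leaf) 3892301793 (.node .leaf 3892306425 .leaf))))) 3892306681 (.node (.node (.node (.node (.node (.node .leaf 3892306809 .leaf) 3892306873 .leaf) 3892306905 (.node .leaf 3892306921 .leaf)) 3892307193 (.node (.node (.node .leaf 3892307321 .leaf) 3892307385 .leaf) 3892307417 (.node .leaf 3892307433 .leaf))) 3892307577 (.node (.node (.node (.node .leaf 3892307641 .leaf) 3892307673 .leaf) 3892307689 (.node .leaf 3892307769 .leaf)) 3892307801 (.node (.node (.node .leaf 3892307817 .leaf) 3892307865 .leaf) 3892307881 (.node .leaf 3892307913 .leaf)))) 3892314104 (.node (.node (.node (.node (.node .leaf 4026515955 .leaf) 4026515957 .leaf) 4026516211 (.node .leaf 4026516213 .leaf)) 4026516339 (.node (.node (.node .leaf 4026516341 .leaf) 4026516403 .leaf) 4026516405 (.node .leaf 4026516435 .leaf))) 4026516437 (.node (.node (.node (.node .leaf 4026516451 .leaf) 4026516453 .leaf) 4026516723 (.node .leaf 4026516725 .leaf)) 4026516851 (.node (.node .leaf 4026516853 .leaf) 4026516915 (.node .leaf 4026516917 .leaf))))))) 4026516947 (.node (.node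 (.node (.node (.node (.node (.node (.node .leaf 4026516949 .leaf) 4026516963 .leaf) 4026516965 (.node .leaf 4026517107 .leaf)) 4026517109 (.node (.node (.node .leaf 4026517171 .leaf) 4026517173 .leaf) 4026517203 (.node .leaf 4026517205 .leaf))) 4026517219 (.node (.node (.node (.node .leaf 4026517221 .leaf) 4026517299 .leaf) 4026517301 (.node .leaf 4026517331 .leaf)) 4026517333 (.node (.node (.node .leaf 4026517347 .leaf) 4026517349 .leaf) 4026517395 (.node .leaf 4026517397 .leaf)))) 4026517411 (.node (.node (.node (.node (.node .leaf 4026517413 .leaf) 4026517443 .leaf) 4026517445 (.node .leaf 4026523634 .leaf)) 4026523636 (.node (.node (.node .leaf 4026523771 .leaf) 4026523773 .leaf) 4026523835 (.node .leaf 4026523837 .leaf))) 4026523867 (.node (.node (.node (.node .leaf 4026523869 .leaf) 4026523883 .leaf) 4026523885 (.node .leaf 4026523963 .leaf)) 4026523965 (.node (.node (.node .leaf 4026523995 .leaf) 4026523997 .leaf) 4026524011 (.node .leaf 4026524013 .leaf))))) 4026524059 (.node (.node (.node (.node (.node (.node .leaf 4026524061 .leaf) 4026524075 .leaf) 4026524077 (.node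 .leaf 4026524107 .leaf)) 4026524109 (.node (.node (.node .leaf 4026524219 .leaf) 4026524221 .leaf) 4026524251 (.node .leaf 4026524253 .leaf))) 4026524267 (.node (.node (.node (.node .leaf 4026524269 .leaf) 4026524315 .leaf) 4026524317 (.node .leaf 4026524331 .leaf)) 4026524333 (.node (.node (.node .leaf 4026524363 .leaf) 4026524365 .leaf) 4026524443 (.node .leaf 4026524445 .leaf)))) 4026524459 (.node (.node (.node (.node (.node .leaf 4026524461 .leaf) 4026524491 .leaf) 4026524493 (.node .leaf 4026524555 .leaf)) 4026524557 (.node (.node (.node .leaf 4026525690 .leaf) 4026525692 .leaf) 4026526714 (.node .leaf 4026526716 .leaf))) 4026527226 (.node (.node (.node (.node .leaf 4026527228 .leaf) 4026527482 .leaf) 4026527484 (.node .leaf 4026527610 .leaf)) 4026527612 (.node (.node .leaf 4026527674 .leaf) 4026527676 (.node .leaf 4026527706 .leaf)))))) 4026527708 (.node (.node (.node (.node (.node (.node (.node .leaf 4026527722 .leaf) 4026527724 .leaf) 4294951031 (.node .leaf 4294951095 .leaf)) 4294951127 (.node (.node (.node .leaf 4294951143 .leaf) 4294951223 .leaf) 4294951255 (.node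 .leaf 4294951271 .leaf))) 4294951319 (.node (.node (.node (.node .leaf 4294951335 .leaf) 4294951367 .leaf) 4294951479 (.node .leaf 4294951511 .leaf)) 4294951527 (.node (.node (.node .leaf 4294951575 .leaf) 4294951591 .leaf) 4294951623 (.node .leaf 4294951703 .leaf)))) 4294951719 (.node (.node (.node (.node (.node .leaf 4294951751 .leaf) 4294951815 .leaf) 4294952950 (.node .leaf 4294953974 .leaf)) 4294954486 (.node (.node (.node .leaf 4294954742 .leaf) 4294954870 .leaf) 4294954934 (.node .leaf 4294954966 .leaf))) 4294954982 (.node (.node (.node (.node .leaf 4294959135 .leaf) 4294959151 .leaf) 4294959183 (.node .leaf 4294959247 .leaf)) 4294959375 (.node (.node .leaf 4294959614 .leaf) 4294959870 (.node .leaf 4294959998 .leaf))))) 4294960062 (.node (.node (.node (.node (.node (.node .leaf 4294960094 .leaf) 4294960110 .leaf) 4294960382 (.node .leaf 4294960510 .leaf)) 4294960574 (.node (.node (.node .leaf 4294960606 .leaf) 4294960622 .leaf) 4294960766 (.node .leaf 4294960830 .leaf))) 4294960862 (.node (.node (.node (.node .leaf 4294960878 .leaf) 4294960958 .leaf) 4294960990 (.node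 .leaf 4294961006 .leaf)) 4294961054 (.node (.node (.node .leaf 4294961070 .leaf) 4294961102 .leaf) 5100273656 (.node .leaf 5368700916 .leaf)))) 5368702972 (.node (.node (.node (.node (.node .leaf 5368703996 .leaf) 5368704508 .leaf) 5368704764 (.node .leaf 5368704892 .leaf)) 5368704956 (.node (.node (.node .leaf 5368704988 .leaf) 5368705004 .leaf) 5637144568 (.node .leaf 5905571828 .leaf))) 5905573884 (.node (.node (.node (.node .leaf 5905574908 .leaf) 5905575420 .leaf) 5905575676 (.node .leaf 5905575804 .leaf)) 5905575868 (.node (.node .leaf 5905575900 .leaf) 5905575916 (.node .leaf 6039797752 .leaf))))))))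

/-- A block of the table. -/
def xt15 : NatTree :=
  (.node (.node (.node (.node (.node (.node (.node (.node (.node .leaf 6174007282 .leaf) 6174007284 .leaf) 6174009337 (.node .leaf 6174009338 .leaf)) 6174009340 (.node (.node (.node .leaf 6174010361 .leaf) 6174010362 .leaf) 6174010364 (.node .leaf 6174010873 .leaf))) 6174010874 (.node (.node (.node (.node .leaf 6174010876 .leaf) 6174011129 .leaf) 6174011130 (.node .leaf 6174011132 .leaf)) 6174011257 (.node (.node (.node .leaf 6174011258 .leaf) 6174011260 .leaf) 6174011321 (.node .leaf 6174011322 .leaf)))) 6174011324 (.node (.node (.node (.node (.node .leaf 6174011353 .leaf) 6174011354 .leaf) 6174011356 (.node .leaf 6174011369 .leaf)) 6174011370 (.node (.node (.node .leaf 6174011372 .leaf) 6442436597 .leaf) 6442436598 (.node .leaf 6442437621 .leaf))) 6442437622 (.node (.node (.node (.node .leaf 6442438133 .leaf) 6442438134 .leaf) 6442438389 (.node .leaf 6442438390 .leaf)) 6442438517 (.node (.node (.node .leaf 6442438518 .leaf) 6442438581 .leaf) 6442438582 (.node .leaf 6442438613 .leaf))))) 6442438614 (.node (.node (.node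 (.node (.node (.node .leaf 6442438629 .leaf) 6442438630 .leaf) 6442443261 (.node .leaf 6442443262 .leaf)) 6442443517 (.node (.node (.node .leaf 6442443518 .leaf) 6442443645 .leaf) 6442443646 (.node .leaf 6442443709 .leaf))) 6442443710 (.node (.node (.node (.node .leaf 6442443741 .leaf) 6442443742 .leaf) 6442443757 (.node .leaf 6442443758 .leaf)) 6442444029 (.node (.node (.node .leaf 6442444030 .leaf) 6442444157 .leaf) 6442444158 (.node .leaf 6442444221 .leaf)))) 6442444222 (.node (.node (.node (.node (.node .leaf 6442444253 .leaf) 6442444254 .leaf) 6442444269 (.node .leaf 6442444270 .leaf)) 6442444413 (.node (.node (.node .leaf 6442444414 .leaf) 6442444477 .leaf) 6442444478 (.node .leaf 6442444509 .leaf))) 6442444510 (.node (.node (.node (.node .leaf 6442444525 .leaf) 6442444526 .leaf) 6442444605 (.node .leaf 6442444606 .leaf)) 6442444637 (.node (.node .leaf 6442444638 .leaf) 6442444653 (.node .leaf 6442444654 .leaf)))))) 6442444701 (.node (.node (.node (.node (.node (.node (.node .leaf 6442444702 .leaf) 6442444717 .leaf) 6442444718 (.node .leaf 6442444749 .leaf)) 6442444750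 (.node (.node (.node .leaf 7784620017 .leaf) 7784622073 .leaf) 7784623097 (.node .leaf 7784623609 .leaf))) 7784623865 (.node (.node (.node (.node .leaf 7784623993 .leaf) 7784624057 .leaf) 7784624089 (.node .leaf 7784624105 .leaf)) 8053049333 (.node (.node (.node .leaf 8053050357 .leaf) 8053050869 .leaf) 8053051125 (.node .leaf 8053051253 .leaf)))) 8053051317 (.node (.node (.node (.node (.node .leaf 8053051349 .leaf) 8053051365 .leaf) 8053055997 (.node .leaf 8053056253 .leaf)) 8053056381 (.node (.node (.node .leaf 8053056445 .leaf) 8053056477 .leaf) 8053056493 (.node .leaf 8053056765 .leaf))) 8053056893 (.node (.node (.node (.node .leaf 8053056957 .leaf) 8053056989 .leaf) 8053057005 (.node .leaf 8053057149 .leaf)) 8053057213 (.node (.node .leaf 8053057245 .leaf) 8053057261 (.node .leaf 8053057341 .leaf))))) 8053057373 (.node (.node (.node (.node (.node (.node .leaf 8053057389 .leaf) 8053057437 .leaf) 8053057453 (.node .leaf 8053057485 .leaf)) 8187273201 (.node (.node (.node .leaf 8187275257 .leaf) 8187276281 .leaf) 8187276793 (.node .leaf 8187277049 .leaf))) 8187277177 (.node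 (.node (.node (.node .leaf 8187277241 .leaf) 8187277273 .leaf) 8187277289 (.node .leaf 8321484787 .leaf)) 8321484789 (.node (.node (.node .leaf 8321485811 .leaf) 8321485813 .leaf) 8321486323 (.node .leaf 8321486325 .leaf)))) 8321486579 (.node (.node (.node (.node (.node .leaf 8321486581 .leaf) 8321486707 .leaf) 8321486709 (.node .leaf 8321486771 .leaf)) 8321486773 (.node (.node (.node .leaf 8321486803 .leaf) 8321486805 .leaf) 8321486819 (.node .leaf 8321486821 .leaf))) 8321491451 (.node (.node (.node (.node .leaf 8321491453 .leaf) 8321491707 .leaf) 8321491709 (.node .leaf 8321491835 .leaf)) 8321491837 (.node (.node .leaf 8321491899 .leaf) 8321491901 (.node .leaf 8321491931 .leaf))))))) 8321491933 (.node (.node (.node (.node (.node (.node (.node (.node .leaf 8321491947 .leaf) 8321491949 .leaf) 8321492219 (.node .leaf 8321492221 .leaf)) 8321492347 (.node (.node (.node .leaf 8321492349 .leaf) 8321492411 .leaf) 8321492413 (.node .leaf 8321492443 .leaf))) 8321492445 (.node (.node (.node (.node .leaf 8321492459 .leaf) 8321492461 .leaf) 8321492603 (.node .leaf 8321492605 .leaf))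 8321492667 (.node (.node (.node .leaf 8321492669 .leaf) 8321492699 .leaf) 8321492701 (.node .leaf 8321492715 .leaf)))) 8321492717 (.node (.node (.node (.node (.node .leaf 8321492795 .leaf) 8321492797 .leaf) 8321492827 (.node .leaf 8321492829 .leaf)) 8321492843 (.node (.node (.node .leaf 8321492845 .leaf) 8321492891 .leaf) 8321492893 (.node .leaf 8321492907 .leaf))) 8321492909 (.node (.node (.node (.node .leaf 8321492939 .leaf) 8321492941 .leaf) 8589918711 (.node .leaf 8589918967 .leaf)) 8589919095 (.node (.node (.node .leaf 8589919159 .leaf) 8589919191 .leaf) 8589919207 (.node .leaf 8589919479 .leaf))))) 8589919607 (.node (.node (.node (.node (.node (.node .leaf 8589919671 .leaf) 8589919703 .leaf) 8589919719 (.node .leaf 8589919863 .leaf)) 8589919927 (.node (.node (.node .leaf 8589919959 .leaf) 8589919975 .leaf) 8589920055 (.node .leaf 8589920087 .leaf))) 8589920103 (.node (.node (.node (.node .leaf 8589920151 .leaf) 8589920167 .leaf) 8589920199 (.node .leaf 8589926527 .leaf)) 8589926591 (.node (.node (.node .leaf 8589926623 .leaf) 8589926639 .leaf) 8589926719 (.node .leaf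 8589926751 .leaf)))) 8589926767 (.node (.node (.node (.node (.node .leaf 8589926815 .leaf) 8589926831 .leaf) 8589926863 (.node .leaf 8589926975 .leaf)) 8589927007 (.node (.node (.node .leaf 8589927023 .leaf) 8589927071 .leaf) 8589927087 (.node .leaf 8589927119 .leaf))) 8589927199 (.node (.node (.node (.node .leaf 8589927215 .leaf) 8589927247 .leaf) 8589927311 (.node .leaf 14495514620 .leaf)) 14763950074 (.node (.node .leaf 14763950076 .leaf) 15032377334 (.node .leaf 15032379390 .leaf)))))) 15032380414 (.node (.node (.node (.node (.node (.node (.node .leaf 15032380926 .leaf) 15032381182 .leaf) 15032381310 (.node .leaf 15032381374 .leaf)) 15032381406 (.node (.node (.node .leaf 15032381422 .leaf) 16374562809 .leaf) 16642990069 (.node .leaf 16642992125 .leaf))) 16642993149 (.node (.node (.node (.node .leaf 16642993661 .leaf) 16642993917 .leaf) 16642994045 (.node .leaf 16642994109 .leaf)) 16642994141 (.node (.node (.node .leaf 16642994157 .leaf) 16777215993 .leaf) 16911425523 (.node .leaf 16911425525 .leaf)))) 16911427579 (.node (.node (.node (.node (.node .leaf 16911427581 .leaf)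 16911428603 .leaf) 16911428605 (.node .leaf 16911429115 .leaf)) 16911429117 (.node (.node (.node .leaf 16911429371 .leaf) 16911429373 .leaf) 16911429499 (.node .leaf 16911429501 .leaf))) 16911429563 (.node (.node (.node (.node .leaf 16911429565 .leaf) 16911429595 .leaf) 16911429597 (.node .leaf 16911429611 .leaf)) 16911429613 (.node (.node .leaf 17179854839 .leaf) 17179855863 (.node .leaf 17179856375 .leaf))))) 17179856631 (.node (.node (.node (.node (.node (.node .leaf 17179856759 .leaf) 17179856823 .leaf) 17179856855 (.node .leaf 17179856871 .leaf)) 17179861503 (.node (.node (.node .leaf 17179861759 .leaf) 17179861887 .leaf) 17179861951 (.node .leaf 17179861983 .leaf))) 17179861999 (.node (.node (.node (.node .leaf 17179862271 .leaf) 17179862399 .leaf) 17179862463 (.node .leaf 17179862495 .leaf)) 17179862511 (.node (.node (.node .leaf 17179862655 .leaf) 17179862719 .leaf) 17179862751 (.node .leaf 17179862767 .leaf)))) 17179862847 (.node (.node (.node (.node (.node .leaf 17179862879 .leaf) 17179862895 .leaf) 17179862943 (.node .leaf 17179862959 .leaf)) 17179862991 (.node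 (.node (.node .leaf 32212254718 .leaf) 34091302907 .leaf) 34091302909 (.node .leaf 34359730167 .leaf))) 34359732223 (.node (.node (.node (.node .leaf 34359733247 .leaf) 34359733759 .leaf) 34359734015 (.node .leaf 34359734143 .leaf)) 34359734207 (.node (.node .leaf 34359734239 .leaf) 34359734255 (.node .leaf 68719476735 .leaf))))))))

/-- The whole table. -/
def xtree : NatTree :=
  (.node (.node (.node (.node xt0 6266944 xt1) 12575240 (.node xt2 27247364 xt3)) 31441040 (.node (.node xt4 41936456 xt5) 50324033 (.node xt6 67076888 xt7))) 117409537 (.node (.node (.node xt8 132089154 xt9) 134210241 (.node xt10 268419250 xt11)) 671082328 (.node (.node xt12 1610597253 xt13) 2147475806 (.node xt14 6174007281 xt15))))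

/-- The check of one mask against the table. -/
def xchk (M : ℕ) : Bool := check xtree xcap M xaws 36 xrws

end Vale.Agent.Lib.Helper5.P302Hyb
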