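import Vale.Agent.Lib.Helper5.P302HybX

/-!
Kernel evaluation of the table check on some blocks.
-/

namespace Vale.Agent.Lib.Helper5.P302Hyb

open Vale.Agent.Lib.Helper3.BinPacking

theorem xt0_ok : xt0.all xchk = true := by decide +kernel

theorem xt1_ok : xt1.all xchk = true := by decide +kernel

theorem xt2_ok : xt2.all xchk = true := by decide +kernel

theorem xt3_ok : xt3.all xchk = true := by decide +kernel

end Vale.Agent.Lib.Helper5.P302Hyb
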