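import Vale.Agent.Lib.Helper3.P302Inst236
import Vale.Agent.Lib.Helper8.P302Glue
import Vale.Agent.Lib.Helper2.P302.G28
import Vale.Agent.Lib.Helper2.P302.Bridge
import Vale.Agent.Lib.Helper5.P302Top236G28Inst

/-!
Facts for the lower bound `109` on the optimum of the 323 item instance.

Value argument: an item close to a third has value 5, a large item value 12, a small item or an
item of one seventh value 2.  The total value is 1634.  By the size inequality alone a bin has
value at most 14, except a bin with exactly three items close to a third (value 15) and a bin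
with exactly one large item and two small items (value 16).  At most 77 bins are of the first
exceptional kind (the 234 lightest items close to a third cannot be split into 78 such bins)
and at most 22 of the second kind (at most 22 of the 28 bins of the pairs in bins instance
can receive pairs at the same time), so `108` bins hold value less than `1634`.
-/

namespace Vale.Agent.Lib.Helper5.P302Top236G28

open Finset Vale.Agent.Lib.Helper3.BinPacking Vale.Agent.Lib.Helper2.PiB

/-- Indicator of the items close to a third of the capacity. -/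
def tI (i : ℕ) : ℕ := if i < 236 then 1 else 0

/-- Indicator of the large items. -/
def bI (i : ℕ) : ℕ := if 236 ≤ i ∧ i < 264 then 1 else 0

/-- Indicator of the small items. -/
def sI (i : ℕ) : ℕ := if 264 ≤ i ∧ i < 311 then 1 else 0

/-- Indicator of the items of one seventh of the capacity. -/
def fI (i : ℕ) : ℕ := if 311 ≤ i then 1 else 0

/-- The value of an item. -/
def val (i : ℕ) : ℕ := 5 * tI i + 12 * bI i + 2 * sI i + 2 * fI i

/-- The weights of the large and small items in units of `100000000000`: the large item number `j`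
belongs to the bin number `27 - j` of the pairs in bins instance, the small item number
`28 + i` to its item number `i`. -/
def xw (j : ℕ) : ℕ := if j < 28 then 3717664 - c28 (27 - j) else 692668 + w28 (j - 28)

theorem hw_lb : ∀ i, i < 323 → 170097599999993247 * tI i + 368133300000000000 * bI i
    + 69266800000000000 * sI i + 72900000000000000 * fI i ≤ hw.getD i 0 := by decide +kernel

theorem hw_third : ∀ i, i < 236 → hw.getD i 0 = wts236.getD i 0 + 170000000000000000 := by
  decide +kernel

theorem hw_pib : ∀ j, j < 75 → hw.getD (236 + j) 0 = xw j * 100000000000 := by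
  decide +kernel

theorem xw_light : ∀ j, j < 28 → xw j + c28 (28 - 1 - j) = 3717664 := by decide +kernel

theorem xw_heavy : ∀ j, 28 ≤ j → j < 28 + 47 → xw j = 692668 + w28 (j - 28) := by
  intro j h1 _
  unfold xw
  rw [if_neg (by omega)]

theorem val_total : ∑ i : Fin 323, val (i : ℕ) = 1634 := by decide +kernel

theorem wts_mono : ∀ j, j < 236 → ∀ i, i ≤ j → wts236.getD i 0 ≤ wts236.getD j 0 := by
  decide +kernel

theorem sum_lb (s : Finset ℕ) (hs : ∀ i ∈ s, i < 323) :
    170097599999993247 * ∑ i ∈ s, tI i + 368133300000000000 * ∑ i ∈ s, bI i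
      + 69266800000000000 * ∑ i ∈ s, sI i + 72900000000000000 * ∑ i ∈ s, fI i
      ≤ ∑ i ∈ s, hw.getD i 0 := by
  rw [Finset.mul_sum, Finset.mul_sum, Finset.mul_sum, Finset.mul_sum, ← Finset.sum_add_distrib,
    ← Finset.sum_add_distrib, ← Finset.sum_add_distrib]
  exact Finset.sum_le_sum (fun i hi => hw_lb i (hs i hi))

theorem sum_val (s : Finset ℕ) : ∑ i ∈ s, val i
    = 5 * ∑ i ∈ s, tI i + 12 * ∑ i ∈ s, bI i + 2 * ∑ i ∈ s, sI i + 2 * ∑ i ∈ s, fI i := by
  simp only [val, Finset.sum_add_distrib, Finset.mul_sum]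

/-- The bin is filled by exactly three items close to a third. -/
def IsT3 (s : Finset ℕ) : Prop :=
  ∑ i ∈ s, tI i = 3 ∧ ∑ i ∈ s, bI i = 0 ∧ ∑ i ∈ s, sI i = 0 ∧ ∑ i ∈ s, fI i = 0

/-- The bin is filled by exactly one large item and two small items. -/
def IsPB (s : Finset ℕ) : Prop :=
  ∑ i ∈ s, tI i = 0 ∧ ∑ i ∈ s, bI i = 1 ∧ ∑ i ∈ s, sI i = 2 ∧ ∑ i ∈ s, fI i = 0

theorem bin_cases (s : Finset ℕ) (hs : ∀ i ∈ s, i < 323) (hwt : ∑ i ∈ s, hw.getD i 0 ≤ hcap) :
    ∑ i ∈ s, val i ≤ 14 ∨ IsT3 s ∨ IsPB s := by
  have h1 := sum_lb s hs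
  have hc : hcap = 510300000000000000 := rfl
  rw [sum_val]
  unfold IsT3 IsPB
  generalize ∑ i ∈ s, tI i = T at *
  generalize ∑ i ∈ s, bI i = B at *
  generalize ∑ i ∈ s, sI i = Sm at *
  generalize ∑ i ∈ s, fI i = Fl at *
  have hT : T ≤ 3 := by omega
  have hB : B ≤ 1 := by omega
  have hS : Sm ≤ 7 := by omega
  have hF : Fl ≤ 7 := by omega
  interval_cases T <;> interval_cases B <;> interval_cases Sm <;> omega

theorem t3_facts (s : Finset ℕ) (hwt : ∑ i ∈ s, hw.getD i 0 ≤ hcap) (h : IsT3 s) :
    s.card = 3 ∧ (∀ i ∈ s, i < 236) ∧ ∑ i ∈ s, wts236.getD i 0 ≤ cap236 := by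
  obtain ⟨h3, hb, hsm, hf⟩ := h
  have hlt : ∀ i ∈ s, i < 236 := by
    intro i hi
    have h1 : bI i = 0 := (Finset.sum_eq_zero_iff.mp hb) i hi
    have h2 : sI i = 0 := (Finset.sum_eq_zero_iff.mp hsm) i hi
    have h4 : fI i = 0 := (Finset.sum_eq_zero_iff.mp hf) i hi
    unfold bI at h1
    unfold sI at h2
    unfold fI at h4
    split_ifs at h1 h2 h4
    omega
  have hcard : s.card = 3 := by
    rw [← h3, Finset.card_eq_sum_ones]
    apply Finset.sum_congr rfl
    intro i hi
    unfold tI
    rw [if_pos (hlt i hi)]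
  refine ⟨hcard, hlt, ?_⟩
  have hshift : ∑ i ∈ s, hw.getD i 0
      = ∑ i ∈ s, wts236.getD i 0 + s.card * 170000000000000000 := by
    rw [Finset.card_eq_sum_ones, Finset.sum_mul, ← Finset.sum_add_distrib]
    apply Finset.sum_congr rfl
    intro i hi
    rw [one_mul]
    exact hw_third i (hlt i hi)
  rw [hshift, hcard] at hwt
  have hc : hcap = 510300000000000000 := rfl
  have hc' : cap236 = 300000000000000 := rfl
  omega

theorem pb_facts (s : Finset ℕ) (hwt : ∑ i ∈ s, hw.getD i 0 ≤ hcap) (h : IsPB s) :
    (∀ i ∈ s, 236 ≤ i ∧ i < 311) ∧ (s.image (fun i => i - 236)).card = 3 ∧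
      ((s.image (fun i => i - 236)).filter (fun j => j < 28)).card = 1 ∧
      ∑ j ∈ s.image (fun i => i - 236), xw j ≤ 5103000 := by
  obtain ⟨h3, hb, hsm, hf⟩ := h
  have hrng : ∀ i ∈ s, 236 ≤ i ∧ i < 311 := by
    intro i hi
    have h1 : tI i = 0 := (Finset.sum_eq_zero_iff.mp h3) i hi
    have h2 : fI i = 0 := (Finset.sum_eq_zero_iff.mp hf) i hi
    unfold tI at h1
    unfold fI at h2
    split_ifs at h1 h2
    omega
  have hinj : ∀ i ∈ s, ∀ j ∈ s, i - 236 = j - 236 → i = j := by
    intro i hi j hj hij
    have h1 := (hrng i hi).1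
    have h2 := (hrng j hj).1
    omega
  have hcard : s.card = 3 := by
    have h1 : ∑ i ∈ s, (bI i + sI i) = 3 := by rw [Finset.sum_add_distrib, hb, hsm]
    rw [← h1, Finset.card_eq_sum_ones]
    apply Finset.sum_congr rfl
    intro i hi
    have h2 := hrng i hi
    unfold bI sI
    split_ifs <;> omega
  refine ⟨hrng, ?_, ?_, ?_⟩
  · rw [Finset.card_image_of_injOn (fun i hi j hj hij => hinj i hi j hj hij), hcard]
  · rw [Finset.card_filter, Finset.sum_image hinj]
    have h5 : ∀ i ∈ s, (if i - 236 < 28 then 1 else 0) = bI i := by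
      intro i hi
      have h2 := hrng i hi
      unfold bI
      split_ifs <;> omega
    exact (Finset.sum_congr rfl h5).trans hb
  · rw [Finset.sum_image hinj]
    have hrel : ∑ i ∈ s, hw.getD i 0 = (∑ i ∈ s, xw (i - 236)) * 100000000000 := by
      rw [Finset.sum_mul]
      apply Finset.sum_congr rfl
      intro i hi
      have h1 := hrng i hi
      have h2 := hw_pib (i - 236) (by omega)
      have h4 : 236 + (i - 236) = i := by omega
      rw [h4] at h2
      exact h2
    rw [hrel] at hwt
    have hc : hcap = 510300000000000000 := rfl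
    omega

end Vale.Agent.Lib.Helper5.P302Top236G28
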