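import Vale.Agent.Lib.Helper5.P302Top299G48Inst

/-!
Part 1 of 3 of the kernel computations for the fractional cover of the 442 item instance.
-/

namespace Vale.Agent.Lib.Helper5.P302Top299G48

theorem hmem_1 : ∀ c ∈ List.take 228 (List.drop 0 hcover), ∀ x ∈ c.1, x ∈ hw := by
  decide +kernel

theorem hmem_2 : ∀ c ∈ List.drop 228 hcover, ∀ x ∈ c.1, x ∈ hw := by
  decide +kernel

theorem hcov_1 : ∀ x ∈ List.take 56 (List.drop 0 hw),
    551124 * hw.count x ≤ (hcover.map (fun c => c.1.count x * c.2)).sum := by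
  decide +kernel

theorem hcov_2 : ∀ x ∈ List.take 56 (List.drop 56 hw),
    551124 * hw.count x ≤ (hcover.map (fun c => c.1.count x * c.2)).sum := by
  decide +kernel

end Vale.Agent.Lib.Helper5.P302Top299G48
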