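import Vale.Agent.Lib.Helper5.P302Top299G48Inst

/-!
Part 2 of 3 of the kernel computations for the fractional cover of the 442 item instance.
-/

namespace Vale.Agent.Lib.Helper5.P302Top299G48

theorem hcov_3 : ∀ x ∈ List.take 55 (List.drop 112 hw),
    551124 * hw.count x ≤ (hcover.map (fun c => c.1.count x * c.2)).sum := by
  decide +kernel

theorem hcov_4 : ∀ x ∈ List.take 55 (List.drop 167 hw),
    551124 * hw.count x ≤ (hcover.map (fun c => c.1.count x * c.2)).sum := by
  decide +kernel

theorem hcov_5 : ∀ x ∈ List.take 55 (List.drop 222 hw),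
    551124 * hw.count x ≤ (hcover.map (fun c => c.1.count x * c.2)).sum := by
  decide +kernel

end Vale.Agent.Lib.Helper5.P302Top299G48
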