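import Vale.Agent.Lib.Helper5.P302Top299G48Inst
import Vale.Agent.Lib.Helper5.P302Top299G48Cov1

/-!
Part 3 of 3 of the kernel computations for the fractional cover of the 442 item instance.
-/

namespace Vale.Agent.Lib.Helper5.P302Top299G48

theorem hcov_6 : ∀ x ∈ List.take 55 (List.drop 277 hw),
    551124 * hw.count x ≤ (hcover.map (fun c => c.1.count x * c.2)).sum := by
  decide +kernel

theorem hcov_7 : ∀ x ∈ List.take 55 (List.drop 332 hw),
    551124 * hw.count x ≤ (hcover.map (fun c => c.1.count x * c.2)).sum := by
  decide +kernel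

theorem hcov_8 : ∀ x ∈ List.drop 387 hw,
    551124 * hw.count x ≤ (hcover.map (fun c => c.1.count x * c.2)).sum := by
  decide +kernel

end Vale.Agent.Lib.Helper5.P302Top299G48
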