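import Vale.Agent.Lib.Helper5.P302Top299G48Cov1
import Vale.Agent.Lib.Helper5.P302Top299G48Cov2
import Vale.Agent.Lib.Helper5.P302Top299G48Cov3
import Vale.Agent.Lib.Helper5.P302Chunk

/-!
The linear programming value of the 442 item instance is at most `81979778 / 551124`: the
checks of the fractional cover, done in pieces in the modules `P302Top299G48Cov1` to
`P302Top299G48Cov3`, are put together.
-/

namespace Vale.Agent.Lib.Helper5.P302Top299G48

open Finset Vale.Agent.Lib.Helper3.BinPacking Vale.Agent.Lib.Helper8.P302LP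
  Vale.Agent.Lib.Helper5.P302Chunk

theorem hcover_mem : ∀ c ∈ hcover, ∀ x ∈ c.1, x ∈ hw := by
  refine forall_mem_of_drop_zero
    (P := fun c : List ℕ × ℕ => ∀ x ∈ c.1, x ∈ hw) hcover ?_
  refine forall_mem_drop_step
    (P := fun c : List ℕ × ℕ => ∀ x ∈ c.1, x ∈ hw)
    hcover 0 228 228 (by norm_num) hmem_1 ?_
  exact hmem_2

theorem hcover_cov :
    ∀ x ∈ hw, 551124 * hw.count x ≤ (hcover.map (fun c => c.1.count x * c.2)).sum := by
  refine forall_mem_of_drop_zero
    (P := fun x : ℕ => 551124 * hw.count x ≤ (hcover.map (fun c => c.1.count x * c.2)).sum) hw ?_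
  refine forall_mem_drop_step
    (P := fun x : ℕ => 551124 * hw.count x ≤ (hcover.map (fun c => c.1.count x * c.2)).sum)
    hw 0 56 56 (by norm_num) hcov_1 ?_
  refine forall_mem_drop_step
    (P := fun x : ℕ => 551124 * hw.count x ≤ (hcover.map (fun c => c.1.count x * c.2)).sum)
    hw 56 56 112 (by norm_num) hcov_2 ?_
  refine forall_mem_drop_step
    (P := fun x : ℕ => 551124 * hw.count x ≤ (hcover.map (fun c => c.1.count x * c.2)).sum)
    hw 112 55 167 (by norm_num) hcov_3 ?_
  refine forall_mem_drop_step
    (P := fun x : ℕ => 551124 * hw.count x ≤ (hcover.map (fun c => c.1.count x * c.2)).sum)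
    hw 167 55 222 (by norm_num) hcov_4 ?_
  refine forall_mem_drop_step
    (P := fun x : ℕ => 551124 * hw.count x ≤ (hcover.map (fun c => c.1.count x * c.2)).sum)
    hw 222 55 277 (by norm_num) hcov_5 ?_
  refine forall_mem_drop_step
    (P := fun x : ℕ => 551124 * hw.count x ≤ (hcover.map (fun c => c.1.count x * c.2)).sum)
    hw 277 55 332 (by norm_num) hcov_6 ?_
  refine forall_mem_drop_step
    (P := fun x : ℕ => 551124 * hw.count x ≤ (hcover.map (fun c => c.1.count x * c.2)).sum)
    hw 332 55 387 (by norm_num) hcov_7 ?_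
  exact hcov_8

/-- The linear programming value of the 442 item instance is at most `81979778 / 551124`. -/
theorem lp_hinst_le : lp hinst ≤ 81979778 / 551124 := by
  have h := lp_le_of_list_cover 442 hw hcap (by decide) hw_length hinst (fun i => rfl) hcover
    551124 (by decide) hcover_mem hcover_sum hcover_cov
  rw [hcover_total] at h
  exact_mod_cast h

end Vale.Agent.Lib.Helper5.P302Top299G48
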