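import Vale.Agent.Lib.Helper3.P302Any299Core
import Vale.Agent.Lib.Helper5.P302Top299G48Opt
import Vale.Agent.Lib.Helper5.P302Top299G48LP

/-!
Assembly for the 442 item instance: no packing into 149 bins exists, so the optimum is at least
150, while the linear programming value is at most `81979778 / 551124`; the gap is at least
`344411 / 275562`.
-/

namespace Vale.Agent.Lib.Helper5.P302Top299G48

open Finset Vale.Agent.Lib.Helper3.BinPacking Vale.Agent.Lib.Helper2.PiB

/-- The 442 item instance cannot be packed into 149 bins. -/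
theorem no_packing : ¬ ∃ f : Fin 442 → Fin 149, IsPacking hinst 149 f := by
  classical
  rintro ⟨f, hf⟩
  have hCq : (0 : ℚ) < (hcap : ℚ) := by
    have : 0 < hcap := by decide
    exact_mod_cast this
  set S : Fin 149 → Finset ℕ :=
    fun b => (univ.filter (fun i : Fin 442 => f i = b)).map Fin.valEmbedding with hS
  have hSlt : ∀ b, ∀ i ∈ S b, i < 442 := by
    intro b i hi
    simp only [hS, Finset.mem_map, Fin.valEmbedding_apply] at hi
    obtain ⟨j, _, rfl⟩ := hi
    exact j.2
  have hSw : ∀ b, ∑ i ∈ S b, hw.getD i 0 ≤ hcap := by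
    intro b
    have h1 : ∑ i ∈ univ.filter (fun i : Fin 442 => f i = b), hinst i ≤ 1 := hf b
    have h2 : ∑ i ∈ univ.filter (fun i : Fin 442 => f i = b), hinst i
        = ((∑ i ∈ S b, hw.getD i 0 : ℕ) : ℚ) / (hcap : ℚ) := by
      simp only [hS]
      rw [Finset.sum_map, Nat.cast_sum, Finset.sum_div]
      rfl
    rw [h2, div_le_one hCq] at h1
    exact_mod_cast h1
  have hSdisj : ∀ b b', b ≠ b' → Disjoint (S b) (S b') := by
    intro b b' hbb
    rw [Finset.disjoint_left]
    intro x hx hx'
    simp only [hS, Finset.mem_map, Finset.mem_filter, Finset.mem_univ, true_and,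
      Fin.valEmbedding_apply] at hx hx'
    obtain ⟨j, hj, rfl⟩ := hx
    obtain ⟨j', hj', hjj⟩ := hx'
    have h1 : j' = j := Fin.val_injective hjj
    rw [h1] at hj'
    exact hbb (hj.symm.trans hj')
  -- the total value
  have htot : ∑ b, ∑ i ∈ S b, val i = 2261 := by
    have h1 : ∀ b, ∑ i ∈ S b, val i
        = ∑ i ∈ univ.filter (fun i : Fin 442 => f i = b), val (i : ℕ) := by
      intro b
      simp only [hS]
      rw [Finset.sum_map]
      rfl
    rw [Finset.sum_congr rfl (fun b _ => h1 b), Finset.sum_fiberwise]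
    exact val_total
  -- the value of every bin
  have hbound : ∀ b, ∑ i ∈ S b, val i
      ≤ 14 + (if IsT3 (S b) then 1 else 0) + 2 * (if IsPB (S b) then 1 else 0) := by
    intro b
    rcases bin_cases (S b) (hSlt b) (hSw b) with h | h | h
    · omega
    · rw [if_pos h]
      obtain ⟨h3, hb, hsm, hfl⟩ := h
      rw [sum_val, h3, hb, hsm, hfl]
      omega
    · rw [if_pos h]
      obtain ⟨h3, hb, hsm, hfl⟩ := h
      rw [sum_val, h3, hb, hsm, hfl]
      omega
  have hsum : ∑ b : Fin 149, (14 + (if IsT3 (S b) then 1 else 0)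
      + 2 * (if IsPB (S b) then 1 else 0))
      = 2086 + (univ.filter (fun b : Fin 149 => IsT3 (S b))).card
        + 2 * (univ.filter (fun b : Fin 149 => IsPB (S b))).card := by
    rw [Finset.sum_add_distrib, Finset.sum_add_distrib, Finset.sum_const, Finset.card_univ,
      Fintype.card_fin, ← Finset.mul_sum, ← Finset.card_filter, ← Finset.card_filter]
    rfl
  -- at most 98 bins with three items close to a third
  have hF1 : (univ.filter (fun b : Fin 149 => IsT3 (S b))).card ≤ 98 := by
    by_contra hcon
    have hcon' : 99 ≤ (univ.filter (fun b : Fin 149 => IsT3 (S b))).card := by omega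
    obtain ⟨B', hBsub, hBcard⟩ := Finset.exists_subset_card_eq hcon'
    have hfacts : ∀ b ∈ B', (S b).card = 3 ∧ (∀ i ∈ S b, i < 299) ∧
        ∑ i ∈ S b, wts299.getD i 0 ≤ cap299 := by
      intro b hb
      have h1 := hBsub hb
      rw [Finset.mem_filter] at h1
      exact t3_facts (S b) (hSw b) h1.2
    have hres := Vale.Agent.Lib.Helper8.P302Glue.packable_compress
      (fun i => wts299.getD i 0) cap299 299 (fun i j hij hj => wts_mono j hj i hij)
      (Fin 149) B' S (fun b hb => (hfacts b hb).1) (fun b hb => (hfacts b hb).2.2)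
      (fun b hb => (hfacts b hb).2.1) (fun b _ b' _ hbb => hSdisj b b' hbb)
    rw [hBcard] at hres
    exact Vale.Agent.Lib.Helper3.BinPacking.not_packable_any299 hres
  -- at most 38 bins with a large item and two small items
  have hF2 : (univ.filter (fun b : Fin 149 => IsPB (S b))).card ≤ 38 := by
    have hfacts : ∀ b ∈ univ.filter (fun b : Fin 149 => IsPB (S b)),
        (∀ i ∈ S b, 299 ≤ i ∧ i < 426) ∧ ((S b).image (fun i => i - 299)).card = 3 ∧
        (((S b).image (fun i => i - 299)).filter (fun j => j < 48)).card = 1 ∧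
        ∑ j ∈ (S b).image (fun i => i - 299), xw j ≤ 1302861000 := by
      intro b hb
      rw [Finset.mem_filter] at hb
      exact pb_facts (S b) (hSw b) hb.2
    refine xsets_le w48 c48 79 48 38 pairs48_le xw 1302861000 949227184 176816908 (by norm_num)
      xw_light xw_heavy (univ.filter (fun b : Fin 149 => IsPB (S b)))
      (fun b => (S b).image (fun i => i - 299)) (fun b hb => (hfacts b hb).2.1) ?_
      (fun b hb => (hfacts b hb).2.2.1) (fun b hb => (hfacts b hb).2.2.2) ?_
    · intro b hb j hj
      rw [Finset.mem_image] at hj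
      obtain ⟨i, hi, rfl⟩ := hj
      have h1 := (hfacts b hb).1 i hi
      omega
    · intro b hb b' hb' hbb
      rw [Finset.disjoint_left]
      intro x hx hx'
      rw [Finset.mem_image] at hx hx'
      obtain ⟨i, hi, rfl⟩ := hx
      obtain ⟨i', hi', hii⟩ := hx'
      have h1 := ((hfacts b hb).1 i hi).1
      have h2 := ((hfacts b' hb').1 i' hi').1
      have h3 : i' = i := by omega
      rw [h3] at hi'
      exact Finset.disjoint_left.1 (hSdisj b b' hbb) hi hi'
  have hV : 2261 ≤ 2086 + (univ.filter (fun b : Fin 149 => IsT3 (S b))).card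
      + 2 * (univ.filter (fun b : Fin 149 => IsPB (S b))).card := by
    rw [← htot, ← hsum]
    exact Finset.sum_le_sum (fun b _ => hbound b)
  omega

/-- The 442 item instance needs at least 150 bins. -/
theorem opt_hinst_ge : 150 ≤ opt hinst :=
  succ_le_opt hinst (fun i => (hinst_pos_le i).2) 149 no_packing

/-- The gap statement for the 442 item instance. -/
theorem gap_hyb : ∃ a : Fin 442 → ℚ, (∀ i, 0 < a i ∧ a i ≤ 1) ∧
    (344411 / 275562 : ℝ) ≤ (opt a : ℝ) - lp a := by
  refine ⟨hinst, hinst_pos_le, ?_⟩
  have h1 : (150 : ℝ) ≤ (opt hinst : ℝ) := by exact_mod_cast opt_hinst_ge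
  have h2 := lp_hinst_le
  linarith

end Vale.Agent.Lib.Helper5.P302Top299G48
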